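import Mathlib

/-! One-dimensional Gaussian toolkit for the propeller inequality (row 215). -/

set_option autoImplicit false
open MeasureTheory ProbabilityTheory Real Set Filter Topology

namespace Crest.Agent.R215

/-- standard normal density -/
noncomputable def phi (x : ℝ) : ℝ := (√(2 * π))⁻¹ * Real.exp (-x ^ 2 / 2)

/-- standard normal distribution function -/
noncomputable def Phi (x : ℝ) : ℝ := ∫ t in Iic x, phi t

/-- upper tail -/
noncomputable def Q (x : ℝ) : ℝ := Phi (-x)

/-- `H x = E (N - x)₊` -/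
noncomputable def H (x : ℝ) : ℝ := phi x - x * Q x

/-- the constant `9 / (8 π)` -/
noncomputable def c2 : ℝ := 9 / (8 * π)

lemma phi_eq (x : ℝ) : phi x = gaussianPDFReal 0 1 x := by
  simp [phi, gaussianPDFReal]

lemma phi_pos (x : ℝ) : 0 < phi x := by
  unfold phi; have := Real.pi_pos; positivity

lemma phi_neg (x : ℝ) : phi (-x) = phi x := by simp [phi]

lemma phi_zero : phi 0 = (√(2 * π))⁻¹ := by simp [phi]

lemma phi_le_phi_zero (x : ℝ) : phi x ≤ phi 0 := by
  unfold phi
  have := Real.pi_pos
  refine mul_le_mul_of_nonneg_left (Real.exp_le_exp.2 ?_) (by positivity)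
  nlinarith [sq_nonneg x]

lemma phi_zero_sq : phi 0 ^ 2 = 1 / (2 * π) := by
  rw [phi_zero, inv_pow, Real.sq_sqrt (by have := Real.pi_pos; positivity), one_div]

@[fun_prop]
lemma continuous_phi : Continuous phi := by unfold phi; fun_prop

lemma hasDerivAt_phi (x : ℝ) : HasDerivAt phi (-x * phi x) x := by
  unfold phi
  have h1 : HasDerivAt (fun x : ℝ => -x ^ 2 / 2) (-x) x := by
    have := ((hasDerivAt_pow 2 x).fun_neg).div_const 2
    exact this.congr_deriv (by simp; ring)
  exact ((h1.exp).const_mul (√(2 * π))⁻¹).congr_deriv (by ring)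

lemma integrable_phi : Integrable phi := by
  have : phi = gaussianPDFReal 0 1 := funext phi_eq
  rw [this]; exact integrable_gaussianPDFReal 0 1

lemma integral_phi : ∫ x, phi x = 1 := by
  have : phi = gaussianPDFReal 0 1 := funext phi_eq
  rw [this]; exact integral_gaussianPDFReal_eq_one 0 one_ne_zero

/-- integrals against the standard normal law -/
lemma integral_gauss (g : ℝ → ℝ) : ∫ x, g x ∂gaussianReal 0 1 = ∫ x, phi x * g x := by
  rw [integral_gaussianReal_eq_integral_smul one_ne_zero]
  simp [phi_eq]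

lemma integrable_gauss_iff (g : ℝ → ℝ) :
    Integrable g (gaussianReal 0 1) ↔ Integrable (fun x => phi x * g x) := by
  rw [gaussianReal_of_var_ne_zero _ one_ne_zero,
    integrable_withDensity_iff_integrable_smul' (measurable_gaussianPDF _ _)
      (ae_of_all _ fun x => gaussianPDF_lt_top)]
  simp [phi_eq]

lemma hasDerivAt_Phi (x : ℝ) : HasDerivAt Phi (phi x) x := by
  have h : ∀ y, Phi y = Phi 0 + ∫ t in (0:ℝ)..y, phi t := by
    intro y
    unfold Phi
    rw [← intervalIntegral.integral_Iic_sub_Iic integrable_phi.integrableOn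
      integrable_phi.integrableOn]
    ring
  have h2 : Phi = fun y => Phi 0 + ∫ t in (0:ℝ)..y, phi t := funext h
  rw [h2]
  exact (intervalIntegral.integral_hasDerivAt_right integrable_phi.intervalIntegrable
    continuous_phi.measurable.stronglyMeasurable.stronglyMeasurableAtFilter
    continuous_phi.continuousAt).const_add _

@[fun_prop]
lemma continuous_Phi : Continuous Phi :=
  continuous_iff_continuousAt.2 fun x => (hasDerivAt_Phi x).continuousAt

lemma strictMono_Phi : StrictMono Phi :=
  strictMono_of_deriv_pos fun x => by rw [(hasDerivAt_Phi x).deriv]; exact phi_pos x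

lemma monotone_Phi : Monotone Phi := strictMono_Phi.monotone

lemma Phi_neg (x : ℝ) : Phi (-x) = 1 - Phi x := by
  unfold Phi
  have h1 : ∫ t in Iic (-x), phi t = ∫ t in Ioi x, phi t := by
    rw [← integral_comp_neg_Ioi]; simp [phi_neg]
  have h2 := intervalIntegral.integral_Iic_add_Ioi (b := x) integrable_phi.integrableOn
    integrable_phi.integrableOn
  rw [integral_phi] at h2
  linarith

lemma Phi_nonneg (x : ℝ) : 0 ≤ Phi x :=
  setIntegral_nonneg measurableSet_Iic fun t _ => (phi_pos t).le

lemma Phi_pos (x : ℝ) : 0 < Phi x :=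
  lt_of_le_of_lt (Phi_nonneg (x - 1)) (strictMono_Phi (by linarith))

lemma Phi_lt_one (x : ℝ) : Phi x < 1 := by
  have := Phi_pos (-x); rw [Phi_neg] at this; linarith

lemma Phi_zero : Phi 0 = 1 / 2 := by
  have := Phi_neg 0; simp at this; linarith

lemma tendsto_Phi_atTop : Tendsto Phi atTop (𝓝 1) := by
  have h := MeasureTheory.tendsto_setIntegral_of_monotone (μ := volume) (f := phi)
    (s := fun x : ℝ => Iic x) (fun _ => measurableSet_Iic)
    (fun a b hab => Iic_subset_Iic.2 hab) integrable_phi.integrableOn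
  rw [iUnion_Iic, Measure.restrict_univ, integral_phi] at h
  exact h

lemma tendsto_Phi_atBot : Tendsto Phi atBot (𝓝 0) := by
  have h : Phi = fun x => 1 - Phi (-x) := by ext x; rw [Phi_neg]; ring
  rw [h]
  have := (tendsto_Phi_atTop.comp tendsto_neg_atBot_atTop).const_sub 1
  simpa using this

lemma exists_Phi_eq {p : ℝ} (h0 : 0 < p) (h1 : p < 1) : ∃ x, Phi x = p := by
  obtain ⟨a, ha⟩ := (tendsto_Phi_atBot.eventually (gt_mem_nhds h0)).exists
  obtain ⟨b, hb⟩ := (tendsto_Phi_atTop.eventually (lt_mem_nhds h1)).exists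
  exact intermediate_value_univ a b continuous_Phi ⟨ha.le, hb.le⟩

lemma Q_eq (x : ℝ) : Q x = 1 - Phi x := Phi_neg x

lemma Q_pos (x : ℝ) : 0 < Q x := Phi_pos _

lemma Q_lt_one (x : ℝ) : Q x < 1 := Phi_lt_one _

lemma Q_zero : Q 0 = 1 / 2 := by rw [Q_eq, Phi_zero]; norm_num

lemma strictAnti_Q : StrictAnti Q := fun _ _ h => strictMono_Phi (neg_lt_neg h)

lemma antitone_Q : Antitone Q := strictAnti_Q.antitone

@[fun_prop]
lemma continuous_Q : Continuous Q := by unfold Q; fun_prop

lemma hasDerivAt_Q (x : ℝ) : HasDerivAt Q (-phi x) x := by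
  have h : Q = fun x => 1 - Phi x := funext Q_eq
  rw [h]; exact (hasDerivAt_Phi x).const_sub 1

lemma exists_Q_eq {p : ℝ} (h0 : 0 < p) (h1 : p < 1) : ∃ x, Q x = p := by
  obtain ⟨x, hx⟩ := exists_Phi_eq h0 h1
  exact ⟨-x, by simp [Q, hx]⟩

lemma Q_eq_integral (x : ℝ) : Q x = ∫ t in Ioi x, phi t := by
  unfold Q Phi
  rw [← integral_comp_neg_Ioi]; simp [phi_neg]

lemma tendsto_Q_atTop : Tendsto Q atTop (𝓝 0) :=
  tendsto_Phi_atBot.comp tendsto_neg_atTop_atBot

lemma tendsto_phi_atTop : Tendsto phi atTop (𝓝 0) := by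
  have h1 : Tendsto (fun x : ℝ => -x ^ 2 / 2) atTop atBot := by
    have := (tendsto_pow_atTop (α := ℝ) (n := 2) two_ne_zero)
    exact (tendsto_neg_atTop_atBot.comp this).atBot_div_const (by norm_num)
  have := (Real.tendsto_exp_atBot.comp h1).const_mul (√(2 * π))⁻¹
  rw [mul_zero] at this
  exact this

@[fun_prop]
lemma continuous_H : Continuous H := by unfold H; fun_prop

lemma hasDerivAt_H (x : ℝ) : HasDerivAt H (-Q x) x := by
  unfold H
  exact ((hasDerivAt_phi x).fun_sub ((hasDerivAt_id' x).fun_mul (hasDerivAt_Q x))).congr_deriv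
    (by ring)

lemma integrable_id_mul_phi : Integrable (fun x => x * phi x) := by
  have := (integrable_gauss_iff (fun x => x)).1
    ((memLp_id_gaussianReal (μ := 0) (v := 1) 1).integrable (by simp))
  simpa [mul_comm] using this

lemma integral_Ioi_id_mul_phi (s : ℝ) : ∫ r in Ioi s, r * phi r = phi s := by
  have := integral_Ioi_of_hasDerivAt_of_tendsto (f := fun x => -phi x) (f' := fun r => r * phi r)
    (a := s) (m := 0) (by fun_prop) (fun x _ => (hasDerivAt_phi x).fun_neg.congr_deriv (by ring))
    integrable_id_mul_phi.integrableOn (by simpa using tendsto_phi_atTop.neg)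
  simpa using this

/-- `P(N > s) = Q s` -/
lemma integral_gauss_indicator_one (s : ℝ) :
    ∫ r, (if s < r then (1:ℝ) else 0) ∂gaussianReal 0 1 = Q s := by
  rw [integral_gauss, Q_eq_integral, ← integral_indicator measurableSet_Ioi]
  congr 1; ext r; simp [indicator]

/-- `E[N; N > s] = phi s` -/
lemma integral_gauss_indicator_id (s : ℝ) :
    ∫ r, (if s < r then r else 0) ∂gaussianReal 0 1 = phi s := by
  rw [integral_gauss, ← integral_Ioi_id_mul_phi, ← integral_indicator measurableSet_Ioi]
  congr 1; ext r; simp [indicator, mul_comm]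

/-- `E (N - s)₊ = H s` -/
lemma integral_gauss_posPart (s : ℝ) :
    ∫ r, max (r - s) 0 ∂gaussianReal 0 1 = H s := by
  rw [integral_gauss, H, Q_eq_integral, ← integral_Ioi_id_mul_phi, ← integral_const_mul,
    ← integral_sub integrable_id_mul_phi.integrableOn
      (integrable_phi.const_mul s).integrableOn, ← integral_indicator measurableSet_Ioi]
  congr 1; ext r
  by_cases h : s < r
  · simp [indicator, h, max_eq_left (sub_nonneg.2 h.le)]; ring
  · simp [indicator, h, max_eq_right (sub_nonpos.2 (not_lt.1 h))]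

lemma H_nonneg (s : ℝ) : 0 ≤ H s := by
  rw [← integral_gauss_posPart]; exact integral_nonneg fun r => le_max_right _ _

lemma antitone_H : Antitone H :=
  antitone_of_deriv_nonpos (fun x => (hasDerivAt_H x).differentiableAt)
    fun x => by rw [(hasDerivAt_H x).deriv]; linarith [Q_pos x]

lemma tendsto_H_atTop : Tendsto H atTop (𝓝 0) := by
  refine tendsto_of_tendsto_of_tendsto_of_le_of_le' tendsto_const_nhds tendsto_phi_atTop
    (Eventually.of_forall H_nonneg) ?_
  filter_upwards [eventually_ge_atTop 0] with x hx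
  unfold H; nlinarith [Q_pos x]

lemma abs_H_le (s : ℝ) : |H s| ≤ phi 0 + |s| := by
  rw [abs_of_nonneg (H_nonneg s)]
  unfold H
  have h1 := phi_le_phi_zero s
  have h2 := Q_pos s
  have h3 := Q_lt_one s
  have h4 := neg_abs_le s
  have h5 := abs_nonneg s
  nlinarith

/-- data of one cell: mass `a = Q t` and `y ≤ phi t * H t` -/
def CellY (y a : ℝ) : Prop := ∃ t, a = Q t ∧ y ≤ phi t * H t

/-- half-space bound for the barycentre of a cell of mass `a` (`x` = squared norm) -/
def CellX (x a : ℝ) : Prop := ∀ s, √x ≤ H s + s * a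

end Crest.Agent.R215
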