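import Crest.Agent.R215.Basic

/-! Resampling one coordinate of a standard Gaussian vector; basic integrability facts. -/

set_option autoImplicit false
open MeasureTheory ProbabilityTheory Real Set Filter Topology
open scoped RealInnerProductSpace NNReal

namespace Crest.Agent.R215

variable {E : Type*} [NormedAddCommGroup E] [InnerProductSpace ℝ E] [FiniteDimensional ℝ E]
  [MeasurableSpace E] [BorelSpace E]

/-- Replacing the `e`-coordinate of a standard Gaussian vector by an independent standard normal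
gives a standard Gaussian vector. -/
theorem resample (e : E) (he : ‖e‖ = 1) :
    ((stdGaussian E).prod (gaussianReal 0 1)).map (fun p : E × ℝ => p.1 + (p.2 - ⟪e, p.1⟫) • e)
      = stdGaussian E := by
  have hm : Measurable (fun p : E × ℝ => p.1 + (p.2 - ⟪e, p.1⟫) • e) := by fun_prop
  have : IsProbabilityMeasure (((stdGaussian E).prod (gaussianReal 0 1)).map
      (fun p : E × ℝ => p.1 + (p.2 - ⟪e, p.1⟫) • e)) :=
    Measure.isProbabilityMeasure_map hm.aemeasurable
  apply Measure.ext_of_charFun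
  ext t
  rw [charFun_apply, integral_map hm.aemeasurable (Measurable.aestronglyMeasurable (by fun_prop))]
  have h1 : ∀ p : E × ℝ, Complex.exp ((⟪p.1 + (p.2 - ⟪e, p.1⟫) • e, t⟫ : ℝ) * Complex.I)
      = Complex.exp ((⟪p.1, t - ⟪e, t⟫ • e⟫ : ℝ) * Complex.I)
        * Complex.exp (((⟪e, t⟫ : ℝ) : ℂ) * p.2 * Complex.I) := by
    intro p
    rw [← Complex.exp_add]
    congr 1
    simp only [inner_add_left, inner_sub_right, real_inner_smul_left, real_inner_smul_right,
      real_inner_comm e p.1]
    push_cast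
    ring
  simp_rw [h1]
  rw [integral_prod_mul (μ := stdGaussian E) (ν := gaussianReal 0 1)
    (fun x : E => Complex.exp ((⟪x, t - ⟪e, t⟫ • e⟫ : ℝ) * Complex.I))
    (fun r : ℝ => Complex.exp (((⟪e, t⟫ : ℝ) : ℂ) * r * Complex.I)),
    ← charFun_apply, ← charFun_apply_real, charFun_stdGaussian, charFun_stdGaussian,
    charFun_gaussianReal, ← Complex.exp_add]
  congr 1
  have h2 : ‖t - ⟪e, t⟫ • e‖ ^ 2 = ‖t‖ ^ 2 - ⟪e, t⟫ ^ 2 := by
    rw [norm_sub_sq_real, norm_smul, he, real_inner_smul_right, real_inner_comm e t]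
    simp only [Real.norm_eq_abs, mul_one, sq_abs]
    ring
  have h3 : ((‖t - ⟪e, t⟫ • e‖ : ℝ) : ℂ) ^ 2 = (‖t‖ : ℂ) ^ 2 - ((⟪e, t⟫ : ℝ) : ℂ) ^ 2 := by
    exact_mod_cast h2
  rw [h3]
  simp
  ring

lemma measurePreserving_resample (e : E) (he : ‖e‖ = 1) :
    MeasurePreserving (fun p : E × ℝ => p.1 + (p.2 - ⟪e, p.1⟫) • e)
      ((stdGaussian E).prod (gaussianReal 0 1)) (stdGaussian E) :=
  ⟨by fun_prop, resample e he⟩

/-- Fubini form of `resample`. -/
theorem integral_resample (e : E) (he : ‖e‖ = 1) {g : E → ℝ}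
    (hg : Integrable g (stdGaussian E)) :
    ∫ x, g x ∂stdGaussian E
      = ∫ x, ∫ r, g (x + (r - ⟪e, x⟫) • e) ∂gaussianReal 0 1 ∂stdGaussian E := by
  have hmp := measurePreserving_resample e he
  have hi := hmp.integrable_comp_of_integrable hg
  refine Eq.trans ?_ (integral_prod _ hi)
  conv_lhs => rw [← hmp.map_eq]
  rw [integral_map hmp.measurable.aemeasurable (by rw [hmp.map_eq]; exact hg.aestronglyMeasurable)]
  rfl

/-- Tonelli form of `resample`. -/
theorem lintegral_resample (e : E) (he : ‖e‖ = 1) {g : E → ENNReal} (hg : Measurable g) :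
    ∫⁻ x, g x ∂stdGaussian E
      = ∫⁻ x, ∫⁻ r, g (x + (r - ⟪e, x⟫) • e) ∂gaussianReal 0 1 ∂stdGaussian E := by
  have hmp := measurePreserving_resample e he
  rw [← hmp.lintegral_comp hg]
  exact lintegral_prod _ (hg.comp hmp.measurable).aemeasurable

omit [FiniteDimensional ℝ E] [MeasurableSpace E] [BorelSpace E] in
lemma inner_resample (e : E) (he : ‖e‖ = 1) (x : E) (r : ℝ) :
    ⟪e, x + (r - ⟪e, x⟫) • e⟫ = r := by
  rw [inner_add_right, real_inner_smul_right, real_inner_self_eq_norm_sq, he]; ring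

lemma integrable_norm_stdGaussian : Integrable (fun x : E => ‖x‖) (stdGaussian E) :=
  (IsGaussian.integrable_id (μ := stdGaussian E)).norm

lemma integrable_norm_sq_stdGaussian : Integrable (fun x : E => ‖x‖ ^ 2) (stdGaussian E) :=
  (IsGaussian.memLp_two_id (μ := stdGaussian E)).integrable_norm_pow (by norm_num)

/-- measurable functions of at most linear growth are integrable -/
lemma integrable_of_le_linear {g : E → ℝ} (hg : AEStronglyMeasurable g (stdGaussian E))
    (A B : ℝ) (h : ∀ x, |g x| ≤ A + B * ‖x‖) : Integrable g (stdGaussian E) :=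
  Integrable.mono' ((integrable_const A).add (integrable_norm_stdGaussian.const_mul B)) hg
    (ae_of_all _ h)

/-- measurable functions of at most quadratic growth are integrable -/
lemma integrable_of_le_quadratic {g : E → ℝ} (hg : AEStronglyMeasurable g (stdGaussian E))
    (A B : ℝ) (h : ∀ x, |g x| ≤ A + B * ‖x‖ ^ 2) : Integrable g (stdGaussian E) :=
  Integrable.mono' ((integrable_const A).add (integrable_norm_sq_stdGaussian.const_mul B)) hg
    (ae_of_all _ h)

omit [InnerProductSpace ℝ E] [FiniteDimensional ℝ E] [MeasurableSpace E] [BorelSpace E] in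
lemma abs_le_of_lipschitz {ψ : E → ℝ} {L : ℝ≥0} (hL : LipschitzWith L ψ) (x : E) :
    |ψ x| ≤ |ψ 0| + L * ‖x‖ := by
  have h := hL.dist_le_mul x 0
  rw [dist_zero_right, Real.dist_eq] at h
  have := abs_sub_abs_le_abs_sub (ψ x) (ψ 0)
  linarith

lemma integrable_of_lipschitz {ψ : E → ℝ} {L : ℝ≥0} (hL : LipschitzWith L ψ) :
    Integrable ψ (stdGaussian E) :=
  integrable_of_le_linear hL.continuous.aestronglyMeasurable _ _ (abs_le_of_lipschitz hL)

end Crest.Agent.R215
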