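import Crest.Agent.R215.Ehrhard1
import Crest.Agent.R215.Resample

/-! TASK T2: Ehrhard inequality in every dimension, and the corollary `EH`. -/

set_option autoImplicit false
open MeasureTheory ProbabilityTheory Real Set Filter Topology
open scoped RealInnerProductSpace NNReal

namespace Crest.Agent.R215

namespace EhrhardN

lemma dist_cons_left {n : ℕ} (r r' : ℝ) (x : Fin n → ℝ) :
    dist (Fin.cons r x : Fin (n + 1) → ℝ) (Fin.cons r' x) ≤ dist r r' := by
  refine (dist_pi_le_iff dist_nonneg).2 fun i => ?_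
  refine Fin.cases ?_ (fun j => ?_) i
  · simp
  · simp

lemma dist_cons_right {n : ℕ} (r : ℝ) (x y : Fin n → ℝ) :
    dist (Fin.cons r x : Fin (n + 1) → ℝ) (Fin.cons r y) ≤ dist x y := by
  refine (dist_pi_le_iff dist_nonneg).2 fun i => ?_
  refine Fin.cases ?_ (fun j => ?_) i
  · simp
  · simpa using dist_le_pi_dist x y j

lemma lipschitz_slice {n : ℕ} {w : (Fin (n + 1) → ℝ) → ℝ} {L : ℝ≥0} (h : LipschitzWith L w)
    (x : Fin n → ℝ) : LipschitzWith L (fun r : ℝ => w (Fin.cons r x)) :=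
  LipschitzWith.of_dist_le_mul fun r r' => (h.dist_le_mul _ _).trans
    (mul_le_mul_of_nonneg_left (dist_cons_left r r' x) L.coe_nonneg)

lemma cons_comb {n : ℕ} (l r r' : ℝ) (x y : Fin n → ℝ) :
    (1 - l) • (Fin.cons r x : Fin (n + 1) → ℝ) + l • (Fin.cons r' y : Fin (n + 1) → ℝ)
      = Fin.cons ((1 - l) * r + l * r') ((1 - l) • x + l • y) := by
  ext i
  refine Fin.cases ?_ (fun j => ?_) i
  · simp
  · simp

/-- integrating out the first coordinate -/
lemma exists_marginal {n : ℕ} {w : (Fin (n + 1) → ℝ) → ℝ} {L : ℝ≥0} (h : LipschitzWith L w) :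
    ∃ W : (Fin n → ℝ) → ℝ, LipschitzWith L W ∧
      (∀ x, ∫ r, Phi (w (Fin.cons r x)) ∂gaussianReal 0 1 = Phi (W x)) ∧
      ∫ x, Phi (W x) ∂(Measure.pi fun _ : Fin n => gaussianReal 0 1)
        = ∫ x, Phi (w x) ∂(Measure.pi fun _ : Fin (n + 1) => gaussianReal 0 1) := by
  have hm : ∀ x : Fin n → ℝ, AEMeasurable (fun r : ℝ => w (Fin.cons r x)) (gaussianReal 0 1) :=
    fun x => (lipschitz_slice h x).continuous.measurable.aemeasurable
  choose W hW using fun x : Fin n → ℝ => exists_integral_Phi_eq (gaussianReal 0 1) (hm x)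
  refine ⟨W, ?_, hW, ?_⟩
  · refine LipschitzWith.of_le_add_mul L fun x y => ?_
    refine shift_le (gaussianReal 0 1) (hm x) (hm y) (by positivity) (fun r => ?_) (hW x) (hW y)
    refine (h.le_add_mul _ (Fin.cons r y)).trans ?_
    have := mul_le_mul_of_nonneg_left (dist_cons_right r x y) L.coe_nonneg
    linarith
  · have hmp := (measurePreserving_piFinSuccAbove
      (fun _ : Fin (n + 1) => gaussianReal 0 1) 0).symm
    have hi : Integrable (fun x => Phi (w x))
        (Measure.pi fun _ : Fin (n + 1) => gaussianReal 0 1) :=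
      integrable_Phi_comp h.continuous.measurable.aemeasurable
    rw [← hmp.integral_comp' (fun x => Phi (w x))]
    refine Eq.trans ?_ (integral_prod_symm _ (hmp.integrable_comp_of_integrable hi)).symm
    refine integral_congr_ae (ae_of_all _ fun x => ?_)
    simp only [← hW x]
    refine integral_congr_ae (ae_of_all _ fun r => ?_)
    simp [MeasurableEquiv.piFinSuccAbove_symm_apply, Fin.insertNthEquiv]

/-- differentiation of `s ↦ ∫ h (ψ + s)` -/
lemma hasDerivAt_integral_add {Ω : Type*} [MeasurableSpace Ω] {μ : Measure Ω} [IsFiniteMeasure μ]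
    {ψ : Ω → ℝ} (hψ : Measurable ψ) {h h' : ℝ → ℝ} (hh : ∀ x, HasDerivAt h (h' x) x)
    (hc : Continuous h') {C : ℝ} (hC : ∀ x, |h' x| ≤ C) (s : ℝ)
    (hi : Integrable (fun x => h (ψ x + s)) μ) :
    HasDerivAt (fun s => ∫ x, h (ψ x + s) ∂μ) (∫ x, h' (ψ x + s) ∂μ) s := by
  have hcont : Continuous h := continuous_iff_continuousAt.2 fun x => (hh x).continuousAt
  exact (hasDerivAt_integral_of_dominated_loc_of_deriv_le (μ := μ)
    (F := fun s x => h (ψ x + s)) (F' := fun s x => h' (ψ x + s)) (x₀ := s) (s := univ)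
    (bound := fun _ => C) univ_mem
    (Eventually.of_forall fun s =>
      (hcont.measurable.comp (hψ.add_const s)).aestronglyMeasurable)
    hi (hc.measurable.comp (hψ.add_const s)).aestronglyMeasurable
    (ae_of_all _ fun x s _ => hC _) (integrable_const C)
    (ae_of_all _ fun x s _ => HasDerivAt.comp_const_add (ψ x) s (hh _))).2

/-- a function vanishing at `0` and nonnegative on `[0,1]` has nonnegative derivative at `0` -/
lemma deriv_nonneg_of {D : ℝ → ℝ} {d : ℝ} (hD : HasDerivAt D d 0) (h0 : D 0 = 0)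
    (h : ∀ l, 0 ≤ l → l ≤ 1 → 0 ≤ D l) : 0 ≤ d := by
  have h1 := hD.tendsto_slope_zero_right
  refine ge_of_tendsto h1 ?_
  have h2 : Ioc (0 : ℝ) 1 ∈ 𝓝[>] (0 : ℝ) := Ioc_mem_nhdsGT one_pos
  filter_upwards [h2] with l hl
  rw [zero_add, h0, sub_zero, smul_eq_mul]
  exact mul_nonneg (inv_nonneg.2 hl.1.le) (h l hl.1.le hl.2)

end EhrhardN

open EhrhardN

/-- Tensorisation.  Induction on `n` (sup metric on `Fin n → ℝ`).  For `n + 1` split off one
coordinate (`MeasureTheory.measurePreserving_piFinSuccAbove` / `integral_prod`), put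
`W_j x' = Φ⁻¹ ∫ Φ (w_j (Fin.cons r x')) dγ(r)` (choose with `exists_integral_Phi_eq`); `W_j` is
`L`-Lipschitz by `shift_le`, satisfies the same three-function inequality by `ehrhard_one`, and
`∫ Φ (W_j) = ∫ Φ (w_j)` by Fubini. -/
theorem ehrhard_pi (n : ℕ) {w0 w1 w2 : (Fin n → ℝ) → ℝ} {L : ℝ≥0} (h0 : LipschitzWith L w0)
    (h1 : LipschitzWith L w1) (h2 : LipschitzWith L w2) {l : ℝ} (hl0 : 0 ≤ l) (hl1 : l ≤ 1)
    (hw : ∀ x y, (1 - l) * w0 x + l * w1 y ≤ w2 ((1 - l) • x + l • y))
    {u0 u1 u2 : ℝ}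
    (hu0 : ∫ x, Phi (w0 x) ∂(Measure.pi fun _ : Fin n => gaussianReal 0 1) = Phi u0)
    (hu1 : ∫ x, Phi (w1 x) ∂(Measure.pi fun _ : Fin n => gaussianReal 0 1) = Phi u1)
    (hu2 : ∫ x, Phi (w2 x) ∂(Measure.pi fun _ : Fin n => gaussianReal 0 1) = Phi u2) :
    (1 - l) * u0 + l * u1 ≤ u2 := by
  induction n generalizing u0 u1 u2 with
  | zero =>
    have key : ∀ w : (Fin 0 → ℝ) → ℝ,
        ∫ x, Phi (w x) ∂(Measure.pi fun _ : Fin 0 => gaussianReal 0 1) = Phi (w 0) := by
      intro w
      have : (fun x : Fin 0 → ℝ => Phi (w x)) = fun _ => Phi (w 0) := by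
        ext x; rw [Subsingleton.elim x 0]
      rw [this]; simp
    rw [key] at hu0 hu1 hu2
    rw [← strictMono_Phi.injective hu0, ← strictMono_Phi.injective hu1,
      ← strictMono_Phi.injective hu2]
    have := hw 0 0
    simpa using this
  | succ n ih =>
    obtain ⟨W0, hL0, hW0, hI0⟩ := exists_marginal h0
    obtain ⟨W1, hL1, hW1, hI1⟩ := exists_marginal h1
    obtain ⟨W2, hL2, hW2, hI2⟩ := exists_marginal h2
    refine ih hL0 hL1 hL2 (fun x y => ?_) (hI0.trans hu0) (hI1.trans hu1) (hI2.trans hu2)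
    refine ehrhard_one (lipschitz_slice h0 x) (lipschitz_slice h1 y)
      (lipschitz_slice h2 ((1 - l) • x + l • y)) hl0 hl1 (fun r r' => ?_) (hW0 x) (hW1 y) (hW2 _)
    rw [← cons_comb]
    exact hw _ _

variable {E : Type*} [NormedAddCommGroup E] [InnerProductSpace ℝ E] [FiniteDimensional ℝ E]
  [MeasurableSpace E] [BorelSpace E]

/-- Transfer along the (linear, hence Lipschitz) map `x ↦ ∑ i, x i • b i` defining `stdGaussian`. -/
theorem ehrhard_E {w0 w1 w2 : E → ℝ} {L : ℝ≥0} (h0 : LipschitzWith L w0)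
    (h1 : LipschitzWith L w1) (h2 : LipschitzWith L w2) {l : ℝ} (hl0 : 0 ≤ l) (hl1 : l ≤ 1)
    (hw : ∀ x y, (1 - l) * w0 x + l * w1 y ≤ w2 ((1 - l) • x + l • y))
    {u0 u1 u2 : ℝ}
    (hu0 : ∫ x, Phi (w0 x) ∂stdGaussian E = Phi u0)
    (hu1 : ∫ x, Phi (w1 x) ∂stdGaussian E = Phi u1)
    (hu2 : ∫ x, Phi (w2 x) ∂stdGaussian E = Phi u2) :
    (1 - l) * u0 + l * u1 ≤ u2 := by
  let T : (Fin (Module.finrank ℝ E) → ℝ) →L[ℝ] E :=
    ∑ i, (ContinuousLinearMap.proj i).smulRight (stdOrthonormalBasis ℝ E i)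
  have hT : ∀ x, T x = ∑ i, x i • stdOrthonormalBasis ℝ E i := by
    intro x; simp [T]
  have hI : ∀ {w : E → ℝ}, LipschitzWith L w →
      ∫ x, Phi (w (T x)) ∂(Measure.pi fun _ : Fin (Module.finrank ℝ E) => gaussianReal 0 1)
        = ∫ x, Phi (w x) ∂stdGaussian E := by
    intro w hw
    have hT' : (fun x : Fin (Module.finrank ℝ E) → ℝ => ∑ i, x i • stdOrthonormalBasis ℝ E i)
        = T := funext fun x => (hT x).symm
    unfold stdGaussian
    rw [hT']
    exact (integral_map T.continuous.measurable.aemeasurable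
      (continuous_Phi.comp hw.continuous).aestronglyMeasurable).symm
  refine ehrhard_pi (Module.finrank ℝ E) (h0.comp T.lipschitz) (h1.comp T.lipschitz)
    (h2.comp T.lipschitz) hl0 hl1 (fun x y => ?_) ((hI h0).trans hu0) ((hI h1).trans hu1)
    ((hI h2).trans hu2)
  simp only [Function.comp, map_add, map_smul]
  exact hw _ _

/-- The corollary used in the propeller proof.  Let `g s = Φ⁻¹ ∫ Φ (-ψ - s)` (note
`Q x = Phi (-x)`).  By `ehrhard_E` applied to `w_s = -ψ - s` (jointly concave in `(x,s)`), `g` is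
concave, `g 0 = -t`.  With `f = ∫ phi ψ > 0`, `β = f / phi t`: `s ↦ ∫ Q (ψ + s)` has derivative
`-f` at `0` (differentiate under the integral, `|phi| ≤ phi 0`).  Concavity gives, for `s > 0` and
`0 < l ≤ 1`, `g (l s) ≥ (1-l) g 0 + l g s`, so `∫ Q (ψ + l s) ≥ Q (t + l (-(g s) - t))`; both sides
agree at `l = 0`; compare derivatives in `l` at `0⁺`: `-f s ≥ -phi t * (-(g s) - t)`, i.e.
`g s ≤ -t - β s`, i.e. `∫ Q (ψ + s) ≤ Q (t + β s)`.  Integrate over `s ∈ (0,∞)` (Tonelli;
`∫_0^∞ Q (a + s) ds = H a` by `hasDerivAt_H`, `tendsto_H_atTop`): `∫ H ψ ≤ H t / β`.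
(Alternative without Tonelli: `s ↦ H (t + β s) / β - ∫ H (ψ + s)` has derivative `≤ 0` and
tends to `0` at `∞` by dominated convergence, `abs_H_le`, `antitone_H`.) -/
theorem EH {ψ : E → ℝ} {L : ℝ≥0} (hc : ConvexOn ℝ univ ψ) (hL : LipschitzWith L ψ) {t : ℝ}
    (ht : ∫ x, Q (ψ x) ∂stdGaussian E = Q t) :
    (∫ x, phi (ψ x) ∂stdGaussian E) * (∫ x, H (ψ x) ∂stdGaussian E) ≤ phi t * H t := by
  set μ := stdGaussian E with hμ
  have hm : Measurable ψ := hL.continuous.measurable
  set f := ∫ x, phi (ψ x) ∂μ with hf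
  have hphi : Integrable (fun x => phi (ψ x)) μ :=
    Integrable.of_bound (continuous_phi.measurable.comp hm).aestronglyMeasurable (phi 0)
      (ae_of_all _ fun x => by
        rw [Real.norm_eq_abs, abs_of_pos (phi_pos _)]; exact phi_le_phi_zero _)
  have hfpos : 0 < f := by
    rw [hf, integral_pos_iff_support_of_nonneg (fun x => (phi_pos _).le) hphi]
    have : Function.support (fun x => phi (ψ x)) = univ := by
      ext x; simp [(phi_pos _).ne']
    rw [this]; simp
  set β := f / phi t with hβ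
  have hβpos : 0 < β := div_pos hfpos (phi_pos t)
  have hLs : ∀ s : ℝ, LipschitzWith L (fun x => -(ψ x + s)) := fun s =>
    LipschitzWith.of_dist_le_mul fun x y => by
      rw [dist_neg_neg, dist_add_right]; exact hL.dist_le_mul x y
  have hQi : ∀ s : ℝ, Integrable (fun x => Q (ψ x + s)) μ := fun s =>
    integrable_Phi_comp (hLs s).continuous.measurable.aemeasurable
  -- derivative of `F` at `0`
  have hF : HasDerivAt (fun s => ∫ x, Q (ψ x + s) ∂μ) (-f) 0 := by
    have := hasDerivAt_integral_add (μ := μ) hm hasDerivAt_Q continuous_phi.neg (C := phi 0)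
      (fun x => by rw [abs_neg, abs_of_pos (phi_pos _)]; exact phi_le_phi_zero _) 0 (hQi 0)
    simp only [add_zero, integral_neg] at this
    exact this
  have step1 : ∀ s : ℝ, ∫ x, Q (ψ x + s) ∂μ ≤ Q (t + β * s) := by
    intro s
    obtain ⟨a, ha⟩ := exists_integral_Phi_eq μ (hLs s).continuous.measurable.aemeasurable
    have h0 : ∫ x, Phi (-(ψ x + 0)) ∂μ = Phi (-t) := by
      simp only [add_zero]; exact ht
    have hD : HasDerivAt (fun l => ∫ x, Q (ψ x + l * s) ∂μ - Phi (-t + l * (a + t)))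
        (-f * s - phi t * (a + t)) 0 := by
      have e1 : HasDerivAt (fun l : ℝ => l * s) s 0 := by
        simpa using (hasDerivAt_id (0 : ℝ)).mul_const s
      have e2 : HasDerivAt (fun l : ℝ => -t + l * (a + t)) (a + t) 0 := by
        simpa using ((hasDerivAt_id (0 : ℝ)).mul_const (a + t)).const_add (-t)
      have e3 : HasDerivAt (fun s => ∫ x, Q (ψ x + s) ∂μ) (-f) ((fun l : ℝ => l * s) 0) := by
        simpa using hF
      have e4 : HasDerivAt Phi (phi t) ((fun l : ℝ => -t + l * (a + t)) 0) := by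
        simpa [phi_neg] using hasDerivAt_Phi (-t)
      exact (e3.comp 0 e1).fun_sub (e4.comp 0 e2)
    have hd := deriv_nonneg_of hD (by simp only [zero_mul, add_zero]; rw [ht]; simp [Q]) (by
      intro l hl0 hl1
      obtain ⟨b, hb⟩ := exists_integral_Phi_eq μ (hLs (l * s)).continuous.measurable.aemeasurable
      have := ehrhard_E (hLs 0) (hLs s) (hLs (l * s)) hl0 hl1 (fun x y => by
        have := hc.2 (mem_univ x) (mem_univ y) (sub_nonneg.2 hl1) hl0 (by ring)
        simp only [smul_eq_mul] at this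
        nlinarith) h0 ha hb
      have hb' : ∫ x, Q (ψ x + l * s) ∂μ = Phi b := hb
      rw [hb', sub_nonneg]
      exact monotone_Phi (by linarith))
    have ha' : ∫ x, Q (ψ x + s) ∂μ = Phi a := ha
    rw [ha']
    refine monotone_Phi ?_
    have hp := phi_pos t
    have : a + t ≤ -(β * s) := by
      rw [hβ, div_mul_eq_mul_div, ← neg_div, le_div_iff₀ hp]
      linarith
    linarith
  have hHi : ∀ s : ℝ, Integrable (fun x => H (ψ x + s)) μ := fun s =>
    Integrable.mono' ((integrable_const (phi 0)).add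
      (((integrable_of_lipschitz hL).add (integrable_const s)).abs))
      (continuous_H.measurable.comp (hm.add_const s)).aestronglyMeasurable
      (ae_of_all _ fun x => abs_H_le _)
  let Θ : ℝ → ℝ := fun s => H (t + β * s) / β - ∫ x, H (ψ x + s) ∂μ
  have hΘ : ∀ s, HasDerivAt Θ (-Q (t + β * s) + ∫ x, Q (ψ x + s) ∂μ) s := by
    intro s
    have e1 : HasDerivAt (fun s : ℝ => t + β * s) β s := by
      simpa using ((hasDerivAt_id s).const_mul β).const_add t
    have e2 := ((hasDerivAt_H (t + β * s)).comp s e1).div_const β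
    have e3 := hasDerivAt_integral_add (μ := μ) hm hasDerivAt_H continuous_Q.neg (C := 1)
      (fun x => by rw [abs_neg, abs_of_pos (Q_pos _)]; exact (Q_lt_one _).le) s (hHi s)
    rw [integral_neg] at e3
    refine (e2.fun_sub e3).congr_deriv ?_
    field_simp
    ring
  have hanti : Antitone Θ :=
    antitone_of_deriv_nonpos (fun s => (hΘ s).differentiableAt) fun s => by
      rw [(hΘ s).deriv]; linarith [step1 s]
  have hlim : Tendsto Θ atTop (𝓝 0) := by
    have l1 : Tendsto (fun s => H (t + β * s) / β) atTop (𝓝 0) := by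
      have : Tendsto (fun s => t + β * s) atTop atTop :=
        tendsto_atTop_add_const_left _ _ (tendsto_id.const_mul_atTop hβpos)
      simpa using (tendsto_H_atTop.comp this).div_const β
    have l2 : Tendsto (fun s => ∫ x, H (ψ x + s) ∂μ) atTop (𝓝 (∫ _x, (0 : ℝ) ∂μ)) := by
      refine tendsto_integral_filter_of_dominated_convergence (fun x => H (ψ x + 0))
        (Eventually.of_forall fun s => (hHi s).aestronglyMeasurable) ?_ (hHi 0)
        (ae_of_all _ fun x => tendsto_H_atTop.comp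
          (tendsto_atTop_add_const_left _ _ tendsto_id))
      filter_upwards [eventually_ge_atTop 0] with s hs
      refine ae_of_all _ fun x => ?_
      rw [Real.norm_eq_abs, abs_of_nonneg (H_nonneg _)]
      exact antitone_H (by linarith)
    simpa using l1.sub l2
  have hfin : 0 ≤ Θ 0 :=
    le_of_tendsto hlim (by
      filter_upwards [eventually_ge_atTop 0] with s hs using hanti hs)
  simp only [Θ, mul_zero, add_zero, sub_nonneg] at hfin
  rw [le_div_iff₀ hβpos, hβ, ← mul_div_assoc, div_le_iff₀ (phi_pos t)] at hfin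
  linarith

end Crest.Agent.R215
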