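import Crest.Agent.R215.Trace

/-! TASK T4c: spectral argument and the combined second-order inequality. -/

set_option autoImplicit false
open MeasureTheory ProbabilityTheory Real Set Filter Topology
open scoped RealInnerProductSpace NNReal

namespace Crest.Agent.R215

variable {E : Type*} [NormedAddCommGroup E] [InnerProductSpace ℝ E] [FiniteDimensional ℝ E]
  [MeasurableSpace E] [BorelSpace E]

namespace SecondAux

omit [MeasurableSpace E] [BorelSpace E] in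
/-- diagonalisation of the quadratic form `v ↦ ∑ j, ⟪y j, v⟫²` -/
lemma exists_diag {J : Type*} (B : Finset J) (y : J → E) :
    ∃ (u : OrthonormalBasis (Fin (Module.finrank ℝ E)) ℝ E) (lam : Fin (Module.finrank ℝ E) → ℝ),
      ∀ v : E, ∑ j ∈ B, ⟪y j, v⟫ ^ 2 = ∑ a, lam a * ⟪u a, v⟫ ^ 2 := by
  let Y : E →ₗ[ℝ] E := ∑ j ∈ B, (innerₛₗ ℝ (y j)).smulRight (y j)
  have hY : ∀ v, Y v = ∑ j ∈ B, ⟪y j, v⟫ • y j := by
    intro v
    simp [Y, LinearMap.sum_apply]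
  have hq : ∀ v v' : E, ⟪Y v, v'⟫ = ∑ j ∈ B, ⟪y j, v⟫ * ⟪y j, v'⟫ := by
    intro v v'
    rw [hY, sum_inner]
    exact Finset.sum_congr rfl fun j _ => real_inner_smul_left _ _ _
  have hs : Y.IsSymmetric := by
    intro v v'
    rw [hq, real_inner_comm, hq]
    exact Finset.sum_congr rfl fun j _ => mul_comm _ _
  refine ⟨hs.eigenvectorBasis rfl, hs.eigenvalues rfl, fun v => ?_⟩
  have h1 : ∑ j ∈ B, ⟪y j, v⟫ ^ 2 = ⟪Y v, v⟫ := by
    rw [hq]; exact Finset.sum_congr rfl fun j _ => sq _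
  rw [h1, ← (hs.eigenvectorBasis rfl).sum_inner_mul_inner]
  refine Finset.sum_congr rfl fun a _ => ?_
  rw [hs v, hs.apply_eigenvectorBasis rfl a, real_inner_smul_right, real_inner_comm]
  simp only [RCLike.ofReal_real_eq_id, id]
  ring

omit [FiniteDimensional ℝ E] in
lemma integrable_inner_sq [SecondCountableTopology E] {Ω : Type*} [MeasurableSpace Ω]
    (ν : Measure Ω) {w : Ω → ℝ} {b : Ω → E}
    (hw0 : ∀ x, 0 ≤ w x) (hw : Measurable w) (hb : Measurable b)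
    (hint : Integrable (fun x => w x * ‖b x‖ ^ 2) ν) (h : E) :
    Integrable (fun x => w x * ⟪h, b x⟫ ^ 2) ν := by
  refine Integrable.mono' (hint.const_mul (‖h‖ ^ 2)) (Measurable.aestronglyMeasurable ?_)
    (ae_of_all _ fun x => ?_)
  · fun_prop
  · have h1 : ⟪h, b x⟫ ^ 2 ≤ ‖h‖ ^ 2 * ‖b x‖ ^ 2 := by
      rw [← mul_pow, ← sq_abs]
      exact pow_le_pow_left₀ (abs_nonneg _) (abs_real_inner_le_norm _ _) 2
    rw [Real.norm_eq_abs, abs_of_nonneg (mul_nonneg (hw0 x) (sq_nonneg _))]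
    nlinarith [hw0 x]

end SecondAux

open SecondAux

/-- Proof.  Let `Y v = ∑ j, ⟪y j, v⟫ • y j` (symmetric), `u a` an orthonormal eigenbasis
(`LinearMap.IsSymmetric.eigenvectorBasis`), eigenvalues `lam a = ∑ j, ⟪y j, u a⟫² ∈ [0, Λ]`,
`∑ a, lam a = ∑ j, ‖y j‖²`, `∑ j, ⟪y j, v⟫² = ⟪Y v, v⟫ = ∑ a, lam a * ⟪u a, v⟫²`.  With
`M a = ∫ w ⟪u a, b⟫² ≤ f` and `∑ a, M a = ∫ w ‖b‖² ≥ (n-1) f`:
`∑ lam a (f - M a) ≤ Λ ∑ (f - M a) ≤ Λ f`. -/
theorem spectral_bound {Ω : Type*} [MeasurableSpace Ω] (ν : Measure Ω) {w : Ω → ℝ} {b : Ω → E}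
    (hw0 : ∀ x, 0 ≤ w x) (hw : Measurable w) (hb : Measurable b)
    (hint : Integrable (fun x => w x * ‖b x‖ ^ 2) ν) {f : ℝ}
    (hM : ∀ h : E, ∫ x, w x * ⟪h, b x⟫ ^ 2 ∂ν ≤ f * ‖h‖ ^ 2)
    (htr : ((Module.finrank ℝ E : ℝ) - 1) * f ≤ ∫ x, w x * ‖b x‖ ^ 2 ∂ν)
    {J : Type*} (B : Finset J) (y : J → E) {Λ : ℝ} (hΛ0 : 0 ≤ Λ)
    (hΛ : ∀ h : E, ∑ j ∈ B, ⟪y j, h⟫ ^ 2 ≤ Λ * ‖h‖ ^ 2) :
    (∑ j ∈ B, ‖y j‖ ^ 2 - Λ) * f ≤ ∫ x, w x * ∑ j ∈ B, ⟪y j, b x⟫ ^ 2 ∂ν := by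
  obtain ⟨u, lam, hq⟩ := exists_diag B y
  have hlam : ∀ a, lam a = ∑ j ∈ B, ⟪y j, u a⟫ ^ 2 := by
    intro a
    rw [hq, Finset.sum_eq_single a]
    · simp
    · intro c _ hc
      rw [u.orthonormal.2 hc]; simp
    · simp
  have hlamΛ : ∀ a, lam a ≤ Λ := by
    intro a
    have := hΛ (u a)
    rw [u.orthonormal.1 a] at this
    rw [hlam]; linarith
  have hsum : ∑ a, lam a = ∑ j ∈ B, ‖y j‖ ^ 2 := by
    simp_rw [hlam]
    rw [Finset.sum_comm]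
    refine Finset.sum_congr rfl fun j _ => ?_
    rw [← real_inner_self_eq_norm_sq, ← u.sum_inner_mul_inner]
    refine Finset.sum_congr rfl fun a _ => ?_
    rw [real_inner_comm (y j) (u a)]; ring
  have hI := integrable_inner_sq ν hw0 hw hb hint
  set M : Fin (Module.finrank ℝ E) → ℝ := fun a => ∫ x, w x * ⟪u a, b x⟫ ^ 2 ∂ν with hMdef
  have hMf : ∀ a, M a ≤ f := by
    intro a
    have := hM (u a)
    rw [u.orthonormal.1 a] at this
    simpa using this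
  have hMsum : ∑ a, M a = ∫ x, w x * ‖b x‖ ^ 2 ∂ν := by
    rw [hMdef, ← integral_finsetSum _ fun a _ => hI (u a)]
    refine integral_congr_ae (ae_of_all _ fun x => ?_)
    simp only
    rw [← Finset.mul_sum, ← real_inner_self_eq_norm_sq, ← u.sum_inner_mul_inner]
    congr 1
    refine Finset.sum_congr rfl fun a _ => ?_
    rw [real_inner_comm (u a) (b x)]; ring
  have hR : ∫ x, w x * ∑ j ∈ B, ⟪y j, b x⟫ ^ 2 ∂ν = ∑ a, lam a * M a := by
    simp only [hMdef, ← integral_const_mul]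
    rw [← integral_finsetSum _ fun a _ => (hI (u a)).const_mul _]
    refine integral_congr_ae (ae_of_all _ fun x => ?_)
    simp only
    rw [hq, Finset.mul_sum]
    exact Finset.sum_congr rfl fun a _ => by ring
  have h1 : ∑ a, lam a * (f - M a) ≤ ∑ a, Λ * (f - M a) :=
    Finset.sum_le_sum fun a _ => mul_le_mul_of_nonneg_right (hlamΛ a) (sub_nonneg.2 (hMf a))
  have h2 : ∑ a, Λ * (f - M a) = Λ * (Module.finrank ℝ E * f - ∑ a, M a) := by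
    rw [← Finset.mul_sum, Finset.sum_sub_distrib]; simp
  have h3 : ∑ a, lam a * (f - M a) = (∑ a, lam a) * f - ∑ a, lam a * M a := by
    rw [Finset.sum_mul, ← Finset.sum_sub_distrib]
    exact Finset.sum_congr rfl fun a _ => by ring
  have h4 : Λ * (Module.finrank ℝ E * f - ∑ a, M a) ≤ Λ * f :=
    mul_le_mul_of_nonneg_left (by rw [hMsum]; linarith) hΛ0
  rw [hR, ← hsum]
  linarith

/-- Combination of `fatou_bound`, `trace_bound`, `spectral_bound` with `w = phi ∘ ψ`,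
`b = bd e ψ`, `f = ∫ w = μ κ' > 0`:
`(∑ ‖y j‖² - Λ) f ≤ ∫ w ∑ ⟪y j, b⟫² ≤ C ∫ w ⟪v, b⟫² ≤ C f ‖v‖²`. -/
theorem second_order (e : E) (he : ‖e‖ = 1) {ψ : E → ℝ} {L : ℝ≥0} (hL : LipschitzWith L ψ)
    (hinv : ∀ (x : E) (r : ℝ), ψ (x + r • e) = ψ x)
    (hhom : ∀ t : ℝ, 0 < t → ∀ x, ψ (t • x) = t * ψ x) {μ κ' : ℝ} (hμ : 0 < μ)
    (hK : ∀ (h : E) (ε : ℝ), 0 < ε →
      ∫ x, max (ε * |⟪h, x⟫| - μ * |⟪e, x⟫ - ψ x|) 0 ∂stdGaussian E ≤ ε ^ 2 * (κ' * ‖h‖ ^ 2))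
    (hf : ∫ x, phi (ψ x) ∂stdGaussian E = μ * κ')
    {J : Type*} (B : Finset J) (y : J → E) {Λ : ℝ} (hΛ0 : 0 ≤ Λ)
    (hΛ : ∀ h : E, ∑ j ∈ B, ⟪y j, h⟫ ^ 2 ≤ Λ * ‖h‖ ^ 2)
    (v : E) {C : ℝ} (hC : 0 ≤ C)
    (hsupp : ∀ x, ∑ j ∈ B, ⟪y j, bd e ψ x⟫ ^ 2 ≤ C * ⟪v, bd e ψ x⟫ ^ 2) :
    ∑ j ∈ B, ‖y j‖ ^ 2 - Λ ≤ C * ‖v‖ ^ 2 := by
  have hψ : Continuous ψ := hL.continuous
  have hw0 : ∀ x, 0 ≤ phi (ψ x) := fun x => (phi_pos _).le
  have hwc : Continuous fun x => phi (ψ x) := by fun_prop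
  have hbc : Continuous (bd e ψ) := by unfold bd; fun_prop
  have hψ0 : ψ 0 = 0 := by
    have := hhom 2 (by norm_num) 0
    rw [smul_zero] at this
    linarith
  have hbn : ∀ x, ‖bd e ψ x‖ ≤ (2 + L) * ‖x‖ := by
    intro x
    have h1 := abs_le_of_lipschitz hL x
    rw [hψ0, abs_zero, zero_add] at h1
    have h2 : |⟪e, x⟫| ≤ ‖x‖ := by
      have := abs_real_inner_le_norm e x
      rwa [he, one_mul] at this
    have h3 : |ψ x - ⟪e, x⟫| ≤ |ψ x| + |⟪e, x⟫| := abs_sub _ _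
    calc ‖bd e ψ x‖ ≤ ‖x‖ + ‖(ψ x - ⟪e, x⟫) • e‖ := norm_add_le _ _
      _ = ‖x‖ + |ψ x - ⟪e, x⟫| := by rw [norm_smul, he, mul_one, Real.norm_eq_abs]
      _ ≤ (2 + L) * ‖x‖ := by linarith
  have hint : Integrable (fun x => phi (ψ x) * ‖bd e ψ x‖ ^ 2) (stdGaussian E) := by
    refine integrable_of_le_quadratic (Continuous.aestronglyMeasurable (by fun_prop)) 0
      (phi 0 * (2 + L) ^ 2) fun x => ?_
    rw [abs_of_nonneg (mul_nonneg (hw0 x) (sq_nonneg _)), zero_add, mul_assoc, ← mul_pow]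
    exact mul_le_mul (phi_le_phi_zero _) (pow_le_pow_left₀ (norm_nonneg _) (hbn x) 2)
      (sq_nonneg _) (phi_pos 0).le
  have hwint : Integrable (fun x => phi (ψ x)) (stdGaussian E) := by
    refine integrable_of_le_quadratic hwc.aestronglyMeasurable (phi 0) 0 fun x => ?_
    rw [abs_of_nonneg (hw0 x), zero_mul, add_zero]
    exact phi_le_phi_zero _
  have hfpos : 0 < μ * κ' := by
    rw [← hf, integral_pos_iff_support_of_nonneg hw0 hwint]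
    have : Function.support (fun x => phi (ψ x)) = univ := by
      ext x; simp [(phi_pos (ψ x)).ne']
    rw [this]; simp
  have hM : ∀ h : E, ∫ x, phi (ψ x) * ⟪h, bd e ψ x⟫ ^ 2 ∂stdGaussian E ≤ μ * κ' * ‖h‖ ^ 2 := by
    intro h
    have := fatou_bound e he hL hinv hμ h (hK h)
    linarith
  have htr := trace_bound e he hL hinv hhom
  rw [hf] at htr
  have h1 := spectral_bound (stdGaussian E) hw0 hwc.measurable hbc.measurable hint hM htr B y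
    hΛ0 hΛ
  have hI := integrable_inner_sq (stdGaussian E) hw0 hwc.measurable hbc.measurable hint
  have h2 : ∫ x, phi (ψ x) * ∑ j ∈ B, ⟪y j, bd e ψ x⟫ ^ 2 ∂stdGaussian E
      ≤ ∫ x, C * (phi (ψ x) * ⟪v, bd e ψ x⟫ ^ 2) ∂stdGaussian E := by
    refine integral_mono_of_nonneg (ae_of_all _ fun x => ?_) ((hI v).const_mul C)
      (ae_of_all _ fun x => ?_)
    · exact mul_nonneg (hw0 x) (Finset.sum_nonneg fun j _ => sq_nonneg _)
    · have := mul_le_mul_of_nonneg_left (hsupp x) (hw0 x)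
      simp only
      linarith
  rw [integral_const_mul] at h2
  have h3 := mul_le_mul_of_nonneg_left (hM v) hC
  have h4 : (∑ j ∈ B, ‖y j‖ ^ 2 - Λ) * (μ * κ') ≤ (C * ‖v‖ ^ 2) * (μ * κ') := by linarith
  exact le_of_mul_le_mul_right h4 hfpos

end Crest.Agent.R215
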