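import Crest.Agent.R215.Opt
import Crest.Agent.R215.EhrhardN
import Crest.Agent.R215.Second

/-! Each cell of the maximiser is the epigraph of a convex homogeneous function. -/

set_option autoImplicit false
set_option linter.unusedSectionVars false
open MeasureTheory ProbabilityTheory Real Set Filter Topology
open scoped RealInnerProductSpace NNReal

namespace Crest.Agent.R215

variable {E : Type*} [NormedAddCommGroup E] [InnerProductSpace ℝ E] [FiniteDimensional ℝ E]
  [MeasurableSpace E] [BorelSpace E] {ι : Type*} [Fintype ι] [DecidableEq ι] {z : ι → E}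

lemma card_del (i : ι) : (Fintype.card {l // l ≠ i} : ℝ) = Fintype.card ι - 1 := by
  have := sum_del (fun _ : ι => (1:ℝ)) i
  simpa using this

lemma Opt.const_of_sum (h : Opt z) (c : ι → ℝ) (hc : ∑ l, c l • z l = 0) (l l' : ι) :
    c l = c l' := by
  have : Nonempty ι := ⟨l⟩
  obtain ⟨j, -, hj⟩ := Finset.exists_max_image Finset.univ c Finset.univ_nonempty
  have h1 : ∑ m, (c m - c j) * ⟪z j, z m⟫ = 0 := by
    have h2 : ∑ m, (c m - c j) • z m = 0 := by
      simp_rw [sub_smul]
      rw [Finset.sum_sub_distrib, hc, ← Finset.smul_sum, h.sum_eq_zero]; simp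
    have h3 := congrArg (fun v => ⟪z j, v⟫) h2
    simpa [inner_sum, real_inner_smul_right] using h3
  have h4 : ∀ m, 0 ≤ (c m - c j) * ⟪z j, z m⟫ := by
    intro m
    by_cases hm : m = j
    · simp [hm]
    · exact mul_nonneg_of_nonpos_of_nonpos (sub_nonpos.2 (hj m (Finset.mem_univ m)))
        (h.inner_neg (Ne.symm hm)).le
  have h5 : ∀ m, c m = c j := by
    intro m
    by_cases hm : m = j
    · rw [hm]
    · have := (Finset.sum_eq_zero_iff_of_nonneg (fun m _ => h4 m)).1 h1 m (Finset.mem_univ m)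
      rcases mul_eq_zero.1 this with h6 | h6
      · linarith
      · exact absurd h6 (h.inner_neg (Ne.symm hm)).ne
  rw [h5 l, h5 l']

/-- direction data of the cell `i` -/
structure Dir (z : ι → E) (i : ι) (e : E) (ν : ℝ) : Prop where
  he : ‖e‖ = 1
  hν : 0 < ν
  hl : ∀ l, l ≠ i → ⟪z l, e⟫ = -ν
  hi : ⟪z i, e⟫ = (Fintype.card ι - 1) * ν

lemma Opt.exists_dir (h : Opt z) (i : ι) : ∃ e ν, Dir z i e ν := by
  have hne := nonempty_del h.two_le i
  let T : ({l // l ≠ i} → ℝ) →ₗ[ℝ] E := Fintype.linearCombination ℝ (del i z)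
  have hT : LinearMap.ker T = ⊥ := by
    rw [LinearMap.ker_eq_bot']
    intro c hc
    let c' : ι → ℝ := fun l => if hl : l = i then 0 else c ⟨l, hl⟩
    have h1 : ∑ l, c' l • z l = 0 := by
      rw [Fintype.sum_eq_add_sum_subtype_ne _ i]
      simp only [c', dif_pos, zero_smul, zero_add]
      rw [← hc]
      simp only [T, Fintype.linearCombination_apply, del]
      refine Finset.sum_congr rfl fun l _ => ?_
      rw [dif_neg l.2]
    ext l
    have := h.const_of_sum c' h1 l i
    simpa [c', dif_neg l.2] using this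
  obtain ⟨g, hg⟩ := T.exists_leftInverse_of_injective hT
  let f : E →ₗ[ℝ] ℝ := -(∑ m, LinearMap.proj m) ∘ₗ g
  have hf : ∀ l (hl : l ≠ i), f (z l) = -1 := by
    intro l hl
    have h1 : T (Pi.single ⟨l, hl⟩ 1) = z l := by
      simp [T, Fintype.linearCombination_apply_single, del]
    have h2 : g (z l) = Pi.single ⟨l, hl⟩ 1 := by
      rw [← h1]; exact LinearMap.congr_fun hg _
    simp [f, h2]
  have := FiniteDimensional.complete ℝ E
  let v : E := (InnerProductSpace.toDual ℝ E).symm (LinearMap.toContinuousLinearMap f)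
  have hv : ∀ x, ⟪v, x⟫ = f x := fun x => InnerProductSpace.toDual_symm_apply
  have hv0 : v ≠ 0 := by
    obtain ⟨⟨l, hl⟩⟩ := hne
    intro h0
    have := hv (z l)
    rw [h0, hf l hl] at this
    simp at this
  have hn : 0 < ‖v‖ := norm_pos_iff.2 hv0
  have hl : ∀ l, l ≠ i → ⟪z l, ‖v‖⁻¹ • v⟫ = -‖v‖⁻¹ := by
    intro l hl
    rw [real_inner_smul_right, real_inner_comm, hv, hf l hl]; ring
  refine ⟨‖v‖⁻¹ • v, ‖v‖⁻¹, ?_, inv_pos.2 hn, hl, ?_⟩
  · rw [norm_smul, norm_inv, norm_norm, inv_mul_cancel₀ hn.ne']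
  · have h1 := congrArg (fun w => ⟪w, ‖v‖⁻¹ • v⟫) h.sum_eq_zero
    simp only [sum_inner, inner_zero_left] at h1
    rw [Fintype.sum_eq_add_sum_subtype_ne _ i,
      Finset.sum_congr rfl fun (l : {l // l ≠ i}) _ => hl l l.2] at h1
    simp only [Finset.sum_const, Finset.card_univ, nsmul_eq_mul] at h1
    rw [card_del] at h1
    linarith

/-- the function whose epigraph (in direction `e`) is the cell -/
noncomputable def psi (z : ι → E) (i : ι) (e : E) (μ : ℝ) (x : E) : ℝ := ⟪e, x⟫ - Dl z i x / μ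

namespace Dir
variable {i : ι} {e : E} {ν : ℝ}

lemma mu_pos (d : Dir z i e ν) : 0 < Fintype.card ι * ν := by
  have : Nonempty ι := ⟨i⟩
  have : (0:ℝ) < Fintype.card ι := by exact_mod_cast Fintype.card_pos
  exact mul_pos this d.hν

variable [Nonempty {l // l ≠ i}]

lemma Dl_add (d : Dir z i e ν) (x : E) (r : ℝ) :
    Dl z i (x + r • e) = Dl z i x + Fintype.card ι * ν * r := by
  have h1 : mx (del i z) (x + r • e) = mx (del i z) x + -ν * r :=
    mx_eq_add fun l => by
      rw [inner_add_right, real_inner_smul_right, del, d.hl l l.2]; ring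
  unfold Dl
  rw [h1, inner_add_right, real_inner_smul_right, d.hi]; ring

lemma psi_inv (d : Dir z i e ν) (x : E) (r : ℝ) :
    psi z i e (Fintype.card ι * ν) (x + r • e) = psi z i e (Fintype.card ι * ν) x := by
  have := d.mu_pos
  unfold psi
  rw [d.Dl_add, inner_add_right, real_inner_smul_right, real_inner_self_eq_norm_sq, d.he]
  generalize Fintype.card ι * ν = μ at *
  field_simp
  ring

lemma Dl_eq (d : Dir z i e ν) (x : E) :
    Dl z i x = Fintype.card ι * ν * (⟪e, x⟫ - psi z i e (Fintype.card ι * ν) x) := by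
  have := d.mu_pos
  unfold psi
  generalize Fintype.card ι * ν = μ at *
  field_simp
  ring

lemma psi_eq {μ : ℝ} (x : E) :
    psi z i e μ x = ⟪e - μ⁻¹ • z i, x⟫ + μ⁻¹ * mx (del i z) x := by
  unfold psi Dl
  rw [inner_sub_left, real_inner_smul_left]; ring

lemma psi_lip {μ : ℝ} (hμ : 0 < μ) : ∃ L : ℝ≥0, LipschitzWith L (psi z i e μ) := by
  refine ⟨_, LipschitzWith.of_le_add_mul' (‖e - μ⁻¹ • z i‖ + μ⁻¹ * ∑ l, ‖del i z l‖)
    fun x y => ?_⟩
  rw [psi_eq, psi_eq, dist_eq_norm]
  have h1 := mul_le_mul_of_nonneg_left (mx_sub_le (del i z) x y) (inv_nonneg.2 hμ.le)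
  have h2 : ⟪e - μ⁻¹ • z i, x⟫ = ⟪e - μ⁻¹ • z i, y⟫ + ⟪e - μ⁻¹ • z i, x - y⟫ := by
    rw [inner_sub_right]; ring
  have h3 := real_inner_le_norm (e - μ⁻¹ • z i) (x - y)
  nlinarith

lemma psi_convex {μ : ℝ} (hμ : 0 < μ) : ConvexOn ℝ univ (psi z i e μ) := by
  refine ⟨convex_univ, fun x _ y _ a b ha hb hab => ?_⟩
  have h1 := (convexOn_mx (del i z)).2 (mem_univ x) (mem_univ y) ha hb hab
  have h2 := mul_le_mul_of_nonneg_left h1 (inv_nonneg.2 hμ.le)
  simp only [psi_eq, inner_add_right, real_inner_smul_right, smul_eq_mul] at h2 ⊢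
  nlinarith

lemma psi_hom {μ : ℝ} (t : ℝ) (ht : 0 < t) (x : E) :
    psi z i e μ (t • x) = t * psi z i e μ x := by
  have h1 : mx (del i z) (t • x) = t * mx (del i z) x :=
    mx_eq_mul ht.le fun l => real_inner_smul_right _ _ _
  rw [psi_eq, psi_eq, h1, real_inner_smul_right]; ring

lemma Dl_resample (d : Dir z i e ν) (x : E) (r : ℝ) :
    Dl z i (x + (r - ⟪e, x⟫) • e)
      = Fintype.card ι * ν * (r - psi z i e (Fintype.card ι * ν) x) := by
  rw [d.Dl_eq, d.psi_inv, inner_resample e d.he]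

lemma chi_resample (d : Dir z i e ν) (x : E) (r : ℝ) :
    chi z i (x + (r - ⟪e, x⟫) • e) = if psi z i e (Fintype.card ι * ν) x < r then 1 else 0 := by
  unfold chi
  rw [d.Dl_resample]
  simp only [mul_pos_iff_of_pos_left d.mu_pos, sub_pos]

lemma integral_chi (d : Dir z i e ν) :
    ∫ x, chi z i x ∂stdGaussian E = ∫ x, Q (psi z i e (Fintype.card ι * ν) x) ∂stdGaussian E := by
  rw [integral_resample e d.he (integrable_chi z i)]
  simp_rw [d.chi_resample, integral_gauss_indicator_one]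

lemma inner_bc_eq (d : Dir z i e ν) :
    ⟪e, bc z i⟫ = ∫ x, phi (psi z i e (Fintype.card ι * ν) x) ∂stdGaussian E := by
  rw [inner_bc, integral_resample e d.he (integrable_chi_mul z i e)]
  simp_rw [d.chi_resample, inner_resample e d.he, ite_mul, one_mul, zero_mul,
    integral_gauss_indicator_id]

lemma F_sub (d : Dir z i e ν) :
    F z - F (del i z)
      = Fintype.card ι * ν * ∫ x, H (psi z i e (Fintype.card ι * ν) x) ∂stdGaussian E := by
  have : Nonempty ι := ⟨i⟩
  have h1 : ∀ x, mx z x - mx (del i z) x = max (Dl z i x) 0 := by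
    intro x
    rw [mx_eq_max z x i, Dl, ← max_sub_sub_right, sub_self]
  have hi : Integrable (fun x => mx z x - mx (del i z) x) (stdGaussian E) :=
    (integrable_mx z).sub (integrable_mx _)
  unfold F
  rw [← integral_sub (integrable_mx z) (integrable_mx _), integral_resample e d.he hi,
    ← integral_const_mul]
  congr 1; ext x
  simp_rw [h1, d.Dl_resample]
  rw [← integral_gauss_posPart, ← integral_const_mul]
  congr 1; ext r
  rw [mul_max_of_nonneg _ _ d.mu_pos.le, mul_zero]

end Dir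

namespace Opt

lemma integral_phi_psi (h : Opt z) {i : ι} {e : E} {ν : ℝ} (d : Dir z i e ν) :
    ∫ x, phi (psi z i e (Fintype.card ι * ν) x) ∂stdGaussian E
      = Fintype.card ι * ν * ((Fintype.card ι - 1) / Fintype.card ι) := by
  have := nonempty_del h.two_le i
  have hk : (0:ℝ) < Fintype.card ι := by have := h.card; positivity
  rw [← d.inner_bc_eq, h.bc_eq, real_inner_comm, d.hi]
  field_simp

/-- Ehrhard's inequality for the cell `i` -/
theorem cellY (h : Opt z) (i : ι) :
    CellY ((Fintype.card ι - 1) / Fintype.card ι * (∑ l, ‖z l‖ ^ 2 - F (del i z)))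
      (∫ x, chi z i x ∂stdGaussian E) := by
  have := nonempty_del h.two_le i
  obtain ⟨e, ν, d⟩ := h.exists_dir i
  obtain ⟨L, hL⟩ := Dir.psi_lip (z := z) (i := i) (e := e) d.mu_pos
  obtain ⟨u, hu⟩ := exists_integral_Phi_eq (stdGaussian E)
    (w := fun x => -psi z i e (Fintype.card ι * ν) x) hL.continuous.neg.aemeasurable
  have ht : ∫ x, Q (psi z i e (Fintype.card ι * ν) x) ∂stdGaussian E = Q (-u) := by
    simpa [Q] using hu
  refine ⟨-u, by rw [d.integral_chi, ht], ?_⟩
  have := EH (Dir.psi_convex d.mu_pos) hL ht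
  rw [h.integral_phi_psi d] at this
  rw [← h.hF, d.F_sub]
  linarith

lemma ne_zero (h : Opt z) (i : ι) : z i ≠ 0 := by
  obtain ⟨⟨l, hl⟩⟩ := nonempty_del h.two_le i
  intro h0
  have := h.inner_neg hl
  simp [h0] at this

theorem cellX (h : Opt z) (i : ι) : CellX (‖z i‖ ^ 2) (∫ x, chi z i x ∂stdGaussian E) := by
  have := nonempty_del h.two_le i
  intro s
  have hn : 0 < ‖z i‖ := norm_pos_iff.2 (h.ne_zero i)
  set u := ‖z i‖⁻¹ • z i with hu
  have hu1 : ‖u‖ = 1 := by rw [hu, norm_smul, norm_inv, norm_norm, inv_mul_cancel₀ hn.ne']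
  have h1 : ⟪u, bc z i⟫ = ‖z i‖ := by
    rw [h.bc_eq, hu, real_inner_smul_left, real_inner_self_eq_norm_sq]
    field_simp
  rw [Real.sqrt_sq hn.le, ← h1, inner_bc, ← integral_gauss_posPart,
    ← integral_comp_inner_unit u hu1 (g := fun r => max (r - s) 0) (by fun_prop),
    ← integral_const_mul]
  have hi : Integrable (fun x => max (⟪u, x⟫ - s) 0) (stdGaussian E) :=
    ((integrable_inner_left u).sub (integrable_const s)).pos_part
  rw [← integral_add hi ((integrable_chi z i).const_mul s)]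
  refine integral_mono (integrable_chi_mul z i u) (hi.add ((integrable_chi z i).const_mul s))
    fun x => ?_
  simp only [chi]
  split_ifs
  · linarith [le_max_left (⟪u, x⟫ - s) 0]
  · linarith [le_max_right (⟪u, x⟫ - s) 0]

theorem del_bound (h : Opt z) (i : ι) :
    F (del i z) ≤ √c2 * √(∑ l, ‖z l‖ ^ 2 - Fintype.card ι / (Fintype.card ι - 1) * ‖z i‖ ^ 2) := by
  have := nonempty_del h.two_le i
  have h1 := F_le_centered (h.hdel i) (del i z)
  have h2 := sum_del (fun l => ‖z l‖ ^ 2) i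
  have h3 := sum_del z i
  simp only [del] at h1
  rw [h2, h3, h.sum_eq_zero, card_del] at h1
  have hk : (4:ℝ) ≤ Fintype.card ι := by exact_mod_cast h.card
  have hk' : (Fintype.card ι : ℝ) - 1 ≠ 0 := by linarith
  convert h1 using 3
  rw [zero_sub, norm_neg]
  field_simp
  ring

lemma F_update_le (h : Opt z) (i : ι) (v : E) :
    F (Function.update z i (z i + v)) ≤ ∑ l, ‖z l‖ ^ 2 + ⟪z i, v⟫
      + (Fintype.card ι - 1) / Fintype.card ι * ‖v‖ ^ 2 / 2 := by
  have : Nonempty ι := ⟨i⟩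
  have h1 := F_le_centered h.hmax (Function.update z i (z i + v))
  have h2 : ∑ l, ‖Function.update z i (z i + v) l‖ ^ 2
      = ∑ l, ‖z l‖ ^ 2 + (2 * ⟪z i, v⟫ + ‖v‖ ^ 2) := by
    have : ∀ l, ‖Function.update z i (z i + v) l‖ ^ 2
        = ‖z l‖ ^ 2 + if l = i then 2 * ⟪z i, v⟫ + ‖v‖ ^ 2 else 0 := by
      intro l
      by_cases hl : l = i
      · subst hl; simp [norm_add_sq_real]; ring
      · simp [hl]
    simp_rw [this]
    rw [Finset.sum_add_distrib]; simp
  have h3 : ∑ l, Function.update z i (z i + v) l = v := by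
    have : ∀ l, Function.update z i (z i + v) l = z l + if l = i then v else 0 := by
      intro l
      by_cases hl : l = i
      · subst hl; simp
      · simp [hl]
    simp_rw [this]
    rw [Finset.sum_add_distrib, h.sum_eq_zero]; simp
  rw [h2, h3] at h1
  set S := ∑ l, ‖z l‖ ^ 2
  set T := S + (2 * ⟪z i, v⟫ + ‖v‖ ^ 2) - ‖v‖ ^ 2 / Fintype.card ι with hT
  have hk : (0:ℝ) < Fintype.card ι := by have := h.card; positivity
  have hT0 : 0 ≤ T := by
    have := sum_norm_sub_mean_sq Finset.univ (Function.update z i (z i + v)) Finset.univ_nonempty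
    rw [h2, h3] at this
    rw [hT, ← Finset.card_univ, ← this]
    exact Finset.sum_nonneg fun _ _ => sq_nonneg _
  have h4 : √S * √T ≤ (S + T) / 2 := by
    nlinarith [sq_nonneg (√S - √T), Real.sq_sqrt hT0, Real.sq_sqrt h.S_pos.le]
  have h5 : (S + T) / 2 = S + ⟪z i, v⟫ + (Fintype.card ι - 1) / Fintype.card ι * ‖v‖ ^ 2 / 2 := by
    rw [hT]; field_simp; ring
  linarith

/-- second variation inequality -/
lemma second_var (h : Opt z) (i : ι) (v : E) :
    ∫ x, max (|⟪v, x⟫| - |Dl z i x|) 0 ∂stdGaussian E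
      ≤ (Fintype.card ι - 1) / Fintype.card ι * ‖v‖ ^ 2 := by
  have := nonempty_del h.two_le i
  have : Nonempty ι := ⟨i⟩
  have hd : ∀ w : E, del i (Function.update z i w) = del i z := by
    intro w; ext l; simp [del, l.2]
  have h1 : ∀ x, max (|⟪v, x⟫| - |Dl z i x|) 0 = mx (Function.update z i (z i + v)) x
      + mx (Function.update z i (z i + -v)) x - 2 * mx z x := by
    intro x
    rw [mx_eq_max _ x i, mx_eq_max (Function.update z i (z i + -v)) x i, mx_eq_max z x i, hd, hd,
      Dl]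
    simp only [Function.update_self, inner_add_left, inner_neg_left]
    generalize ⟪v, x⟫ = p; generalize ⟪z i, x⟫ = q; generalize mx (del i z) x = r
    simp only [max_def, abs]
    split_ifs <;> linarith
  simp_rw [h1]
  have hi : Integrable (fun x => mx (Function.update z i (z i + v)) x
      + mx (Function.update z i (z i + -v)) x) (stdGaussian E) :=
    (integrable_mx _).add (integrable_mx _)
  rw [integral_sub hi ((integrable_mx z).const_mul 2), integral_add (integrable_mx _)
    (integrable_mx _), integral_const_mul]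
  have h2 := h.F_update_le i v
  have h3 := h.F_update_le i (-v)
  have h4 := h.hF
  rw [inner_neg_right, norm_neg] at h3
  unfold F at h2 h3 h4
  linarith

/-- the second-order inequality for the cell `i` -/
theorem second (h : Opt z) (i : ι) {J : Type*} (B : Finset J) (y : J → E) {Λ : ℝ} (hΛ0 : 0 ≤ Λ)
    (hΛ : ∀ v : E, ∑ j ∈ B, ⟪y j, v⟫ ^ 2 ≤ Λ * ‖v‖ ^ 2) (v : E) {C : ℝ} (hC : 0 ≤ C)
    (hsupp : ∀ x, (∀ l, ⟪z l, x⟫ ≤ ⟪z i, x⟫) → ∑ j ∈ B, ⟪y j, x⟫ ^ 2 ≤ C * ⟪v, x⟫ ^ 2) :
    ∑ j ∈ B, ‖y j‖ ^ 2 - Λ ≤ C * ‖v‖ ^ 2 := by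
  have := nonempty_del h.two_le i
  obtain ⟨e, ν, d⟩ := h.exists_dir i
  obtain ⟨L, hL⟩ := Dir.psi_lip (z := z) (i := i) (e := e) d.mu_pos
  refine second_order e d.he hL d.psi_inv Dir.psi_hom d.mu_pos
    (κ' := (Fintype.card ι - 1) / Fintype.card ι) (fun w ε hε => ?_) (h.integral_phi_psi d)
    B y hΛ0 hΛ v hC fun x => hsupp _ fun l => ?_
  · have h1 := h.second_var i (ε • w)
    simp_rw [real_inner_smul_left, d.Dl_eq, abs_mul _ (⟪w, _⟫ : ℝ), abs_mul _ (_ - _ : ℝ),
      abs_of_pos hε, abs_of_pos d.mu_pos, norm_smul, mul_pow, Real.norm_eq_abs, sq_abs] at h1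
    linarith
  · by_cases hl : l = i
    · rw [hl]
    · have h1 := le_mx_del z (bd e (psi z i e (Fintype.card ι * ν)) x) hl
      have h2 : Dl z i (bd e (psi z i e (Fintype.card ι * ν)) x) = 0 := by
        rw [bd, d.Dl_resample, sub_self, mul_zero]
      unfold Dl at h2
      linarith

end Opt

end Crest.Agent.R215
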