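import Crest.Agent.R215.Heat3

/-! TASK T1: one-dimensional functional Ehrhard inequality (Borell's heat-flow proof). -/

set_option autoImplicit false
open MeasureTheory ProbabilityTheory Real Set Filter Topology
open scoped NNReal

namespace Crest.Agent.R215

/-- **Ehrhard inequality in dimension one** (functional form, Lipschitz data).

Proof (Borell).  The cases `l = 0`, `l = 1` follow from monotonicity of the integral; let
`0 < l < 1`.  For an `L`-Lipschitz `w` put `f = Phi ∘ w` (continuous, values in `(0,1)`),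
`U t x = ∫ f (x + √t z) dγ(z)` (`= ∫ f y * p_t (y - x) dy` for `t > 0`, `p_t` the heat kernel) and
let `u t x` be the unique real with `Phi (u t x) = U t x` (`exists_integral_Phi_eq`; define an
inverse `PhiInv` of `Phi` on `(0,1)`, it is continuous, and differentiable with derivative
`1 / phi (PhiInv p)`, e.g. `HasStrictDerivAt.localInverse` / `HasDerivAt.of_local_left_inverse`).
* `u` is jointly continuous on `[0,1] × ℝ` (dominated convergence), `u 0 = w`, `u 1 0 = Φ⁻¹ E Φ w`.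
* `u t ·` is `L`-Lipschitz for every `t` (`shift_le`), so `|u_x| ≤ L`, and `|u t x| ≤ A + L |x|` on
  `[0,1] × ℝ` (`A` = max of `|u t 0|`).
* for `t > 0`: `U` has `∂_t U`, `∂_x U`, `∂_xx U` (differentiate the kernel under the integral,
  `hasDerivAt_integral_of_dominated_loc_of_deriv_le`) and `U_t = U_xx / 2`; hence
  `u_x = U_x / phi u`, `u_xx = U_xx / phi u + u * u_x ^ 2`, `u_t = u_xx / 2 - u * u_x ^ 2 / 2`.
* Let `C t x y = u2 t ((1-l) x + l y) - (1-l) u0 t x - l u1 t y`; `C 0 ≥ 0`; goal `C 1 0 0 ≥ 0`.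
  Fix `ε > 0`, `K = 3 + 2 L A + 2 L ^ 2` (any larger also works) and
  `G = C + ε (1 + x² + y²) exp (K t)`.  `G → ∞` uniformly as `|(x,y)| → ∞`, so `G` has a minimum on
  `[0,1] × ℝ²` at `(t,x,y)`.  Suppose it is `< 0`.  Then `t > 0`, `∂_t G ≤ 0` (one-sided from the
  left), `∂_x G = ∂_y G = 0`, and the second derivative of `s ↦ G t (x+s) (y+s)` at `0` is `≥ 0`.
  With `p_j = ∂_x u_j`, `e = ε exp (K t)`: `(1-l)(p2 - p0) = -2 e x`, `l (p2 - p1) = -2 e y`,
  `u2'' - (1-l) u0'' - l u1'' ≥ -4 e`, and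
  `C_t = (u2'' - (1-l) u0'' - l u1'')/2 - p2² C / 2 - ((1-l) u0 (p2² - p0²) + l u1 (p2² - p1²))/2`
  `≥ -2 e - 2 e L ((A + L|x|)|x| + (A + L|y|)|y|)` (as `C < 0`), so
  `∂_t G = C_t + K e (1 + x² + y²) > 0`, a contradiction.  Hence `G ≥ 0`; let `ε → 0`. -/
theorem ehrhard_one {w0 w1 w2 : ℝ → ℝ} {L : ℝ≥0} (h0 : LipschitzWith L w0)
    (h1 : LipschitzWith L w1) (h2 : LipschitzWith L w2) {l : ℝ} (hl0 : 0 ≤ l) (hl1 : l ≤ 1)
    (hw : ∀ x y, (1 - l) * w0 x + l * w1 y ≤ w2 ((1 - l) * x + l * y))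
    {u0 u1 u2 : ℝ} (hu0 : ∫ x, Phi (w0 x) ∂gaussianReal 0 1 = Phi u0)
    (hu1 : ∫ x, Phi (w1 x) ∂gaussianReal 0 1 = Phi u1)
    (hu2 : ∫ x, Phi (w2 x) ∂gaussianReal 0 1 = Phi u2) :
    (1 - l) * u0 + l * u1 ≤ u2 := by
  obtain ⟨A0, s0⟩ := Heat.exists_sol h0
  obtain ⟨A1, s1⟩ := Heat.exists_sol h1
  obtain ⟨A2, s2⟩ := Heat.exists_sol h2
  have key := Heat.max_principle (A := |A0| + |A1| + |A2|) L.2 (by positivity)
    (s0.mono (by linarith [le_abs_self A0, abs_nonneg A1, abs_nonneg A2]))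
    (s1.mono (by linarith [le_abs_self A1, abs_nonneg A0, abs_nonneg A2]))
    (s2.mono (by linarith [le_abs_self A2, abs_nonneg A0, abs_nonneg A1])) hl0 hl1
    (fun x y => by simpa only [Heat.uu_zero] using hw x y)
  rwa [Heat.uu_one hu0, Heat.uu_one hu1, Heat.uu_one hu2] at key

end Crest.Agent.R215
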