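import Crest.Agent.R215.Resample

/-! TASK T4a: second variation bound localises on the boundary of the cell. -/

set_option autoImplicit false
open MeasureTheory ProbabilityTheory Real Set Filter Topology
open scoped RealInnerProductSpace NNReal

namespace Crest.Agent.R215

variable {E : Type*} [NormedAddCommGroup E] [InnerProductSpace ℝ E] [FiniteDimensional ℝ E]
  [MeasurableSpace E] [BorelSpace E]

/-- boundary point of the cell `{x | ψ x < ⟪e, x⟫}` on the line `x + ℝ e` -/
noncomputable def bd (e : E) (ψ : E → ℝ) (x : E) : E := x + (ψ x - ⟪e, x⟫) • e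

namespace FatouAux

/-- affine substitution `r = a + ε u` in a lower integral over the line -/
lemma lintegral_affine (f : ℝ → ENNReal) (hf : Measurable f) (a : ℝ) {ε : ℝ} (hε : 0 < ε) :
    ∫⁻ r, f r = ENNReal.ofReal ε * ∫⁻ u, f (a + ε * u) := by
  rw [← lintegral_add_left_eq_self f a]
  conv_lhs => rw [← Real.smul_map_volume_mul_left hε.ne']
  rw [lintegral_smul_measure, lintegral_map (by fun_prop) (by fun_prop), abs_of_pos hε,
    smul_eq_mul]

lemma lintegral_gauss (g : ℝ → ℝ) (hg : Measurable g) :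
    ∫⁻ r, ENNReal.ofReal (g r) ∂gaussianReal 0 1 = ∫⁻ r, ENNReal.ofReal (phi r * g r) := by
  rw [gaussianReal_of_var_ne_zero _ one_ne_zero,
    lintegral_withDensity_eq_lintegral_mul _ (measurable_gaussianPDF _ _) (by fun_prop)]
  refine lintegral_congr fun r => ?_
  rw [Pi.mul_apply, ENNReal.ofReal_mul (phi_pos r).le, phi_eq]
  rfl

/-- the area under a tent -/
lemma tent {a μ : ℝ} (ha : 0 ≤ a) (hμ : 0 < μ) :
    ENNReal.ofReal (a ^ 2 / μ) ≤ ∫⁻ u, ENNReal.ofReal (max (a - μ * |u|) 0) := by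
  have hb : 0 ≤ a / μ := by positivity
  have hc : Continuous fun u : ℝ => a - μ * |u| := by fun_prop
  have h1 : ∫ u in (-(a / μ))..0, (a - μ * |u|) = a ^ 2 / μ / 2 := by
    rw [intervalIntegral.integral_congr (g := fun u => a + μ * u)]
    · rw [intervalIntegral.integral_add (by simp) (by apply Continuous.intervalIntegrable; fun_prop),
        intervalIntegral.integral_const_mul, integral_id]
      simp only [intervalIntegral.integral_const, smul_eq_mul]
      field_simp
      ring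
    · intro u hu
      rw [uIcc_of_le (by linarith)] at hu
      simp only [abs_of_nonpos hu.2]
      ring
  have h2 : ∫ u in (0:ℝ)..(a / μ), (a - μ * |u|) = a ^ 2 / μ / 2 := by
    rw [intervalIntegral.integral_congr (g := fun u => a - μ * u)]
    · rw [intervalIntegral.integral_sub (by simp) (by apply Continuous.intervalIntegrable; fun_prop),
        intervalIntegral.integral_const_mul, integral_id]
      simp only [intervalIntegral.integral_const, smul_eq_mul]
      field_simp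
      ring
    · intro u hu
      rw [uIcc_of_le hb] at hu
      simp only [abs_of_nonneg hu.1]
  have h3 : ∫ u in (-(a / μ))..(a / μ), (a - μ * |u|) = a ^ 2 / μ := by
    rw [← intervalIntegral.integral_add_adjacent_intervals (b := 0) (hc.intervalIntegrable _ _)
      (hc.intervalIntegrable _ _), h1, h2]
    ring
  rw [← h3, intervalIntegral.integral_of_le (by linarith), ofReal_integral_eq_lintegral_ofReal]
  · refine le_trans (lintegral_mono fun u => ?_) (setLIntegral_le_lintegral _ _)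
    exact ENNReal.ofReal_le_ofReal (le_max_left _ _)
  · exact (hc.integrableOn_Icc).mono_set Ioc_subset_Icc_self
  · refine (ae_restrict_iff' measurableSet_Ioc).2 (ae_of_all _ fun u hu => ?_)
    have : |u| ≤ a / μ := abs_le.2 ⟨hu.1.le, hu.2⟩
    have h4 := mul_le_mul_of_nonneg_left this hμ.le
    rw [mul_div_cancel₀ _ hμ.ne'] at h4
    simp only [Pi.zero_apply]
    linarith

/-- the blown-up integrand -/
noncomputable def F (e : E) (ψ : E → ℝ) (μ : ℝ) (h : E) (ε : ℝ) (p : E × ℝ) : ℝ :=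
  phi (ψ p.1 + ε * p.2) * max (|⟪h, bd e ψ p.1⟫ + ε * p.2 * ⟪h, e⟫| - μ * |p.2|) 0

omit [FiniteDimensional ℝ E] [MeasurableSpace E] [BorelSpace E] in
lemma continuous_F (e : E) {ψ : E → ℝ} (hψ : Continuous ψ) (μ : ℝ) (h : E) :
    Continuous (fun q : ℝ × (E × ℝ) => F e ψ μ h q.1 q.2) := by
  unfold F bd
  fun_prop

lemma lintegral_F_le (e : E) (he : ‖e‖ = 1) {ψ : E → ℝ} (hψ : Continuous ψ)
    (hinv : ∀ (x : E) (r : ℝ), ψ (x + r • e) = ψ x) {μ K : ℝ} (hμ : 0 < μ) (h : E) {ε : ℝ}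
    (hε : 0 < ε)
    (hK : ∫ x, max (ε * |⟪h, x⟫| - μ * |⟪e, x⟫ - ψ x|) 0 ∂stdGaussian E ≤ ε ^ 2 * K) :
    ∫⁻ p, ENNReal.ofReal (F e ψ μ h ε p) ∂(stdGaussian E).prod volume ≤ ENNReal.ofReal K := by
  have hFc : Continuous (F e ψ μ h ε) :=
    (continuous_F e hψ μ h).comp (continuous_const.prodMk continuous_id)
  have hgc : Continuous fun x : E => max (ε * |⟪h, x⟫| - μ * |⟪e, x⟫ - ψ x|) 0 := by fun_prop
  have hgi : Integrable (fun x : E => max (ε * |⟪h, x⟫| - μ * |⟪e, x⟫ - ψ x|) 0)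
      (stdGaussian E) := by
    refine integrable_of_le_linear hgc.aestronglyMeasurable 0 (ε * ‖h‖) fun x => ?_
    rw [abs_of_nonneg (le_max_right _ _)]
    have h1 := abs_real_inner_le_norm h x
    have h2 := mul_le_mul_of_nonneg_left h1 hε.le
    have h3 : 0 ≤ μ * |⟪e, x⟫ - ψ x| := by positivity
    refine max_le (by nlinarith) (by positivity)
  have h1 := ENNReal.ofReal_le_ofReal hK
  rw [ofReal_integral_eq_lintegral_ofReal hgi (ae_of_all _ fun x => le_max_right _ _),
    lintegral_resample e he hgc.measurable.ennreal_ofReal] at h1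
  have h2 : ∀ x : E, ∫⁻ r, ENNReal.ofReal (max (ε * |⟪h, x + (r - ⟪e, x⟫) • e⟫| -
      μ * |⟪e, x + (r - ⟪e, x⟫) • e⟫ - ψ (x + (r - ⟪e, x⟫) • e)|) 0) ∂gaussianReal 0 1 =
      ENNReal.ofReal (ε ^ 2) * ∫⁻ u, ENNReal.ofReal (F e ψ μ h ε (x, u)) := by
    intro x
    simp only [inner_resample e he, hinv]
    rw [lintegral_gauss _ (by fun_prop), lintegral_affine _ (by fun_prop) (ψ x) hε,
      ← lintegral_const_mul' _ _ ENNReal.ofReal_ne_top,
      ← lintegral_const_mul' _ _ ENNReal.ofReal_ne_top]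
    refine lintegral_congr fun u => ?_
    rw [← ENNReal.ofReal_mul hε.le, ← ENNReal.ofReal_mul (by positivity)]
    congr 1
    have e1 : ⟪h, x + (ψ x + ε * u - ⟪e, x⟫) • e⟫ = ⟪h, bd e ψ x⟫ + ε * u * ⟪h, e⟫ := by
      simp only [bd, inner_add_right, real_inner_smul_right]
      ring
    have e2 : |ψ x + ε * u - ψ x| = ε * |u| := by
      rw [add_sub_cancel_left, abs_mul, abs_of_pos hε]
    rw [e1, e2, F]
    have e3 : ∀ t : ℝ, max (ε * t - μ * (ε * |u|)) 0 = ε * max (t - μ * |u|) 0 := by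
      intro t
      rw [mul_max_of_nonneg _ _ hε.le, mul_zero]
      congr 1
      ring
    rw [e3]
    ring
  simp only [h2] at h1
  rw [lintegral_const_mul' _ _ ENNReal.ofReal_ne_top, ENNReal.ofReal_mul (by positivity),
    ENNReal.mul_le_mul_iff_right (by simp; positivity) ENNReal.ofReal_ne_top] at h1
  rwa [lintegral_prod _ hFc.measurable.ennreal_ofReal.aemeasurable]

end FatouAux

open FatouAux in
/-- Proof.  By `integral_resample` / `lintegral_resample` and `hinv`, the left side of `hK` is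
`∫ x, ∫ r, phi r * max (ε |⟪h, bd x + (r - ψ x) e⟫| - μ |r - ψ x|) 0 dr`; substituting
`r = ψ x + ε u` the inner integral is
`ε² ∫ u, phi (ψ x + ε u) * max (|⟪h, bd x⟫ + ε u ⟪h, e⟫| - μ |u|) 0 du`.  As `ε = 1/(n+1) → 0` the
integrand tends pointwise (in `(x,u)`) to `phi (ψ x) * max (|⟪h, bd x⟫| - μ |u|) 0`, whose
`u`-integral is `phi (ψ x) * ⟪h, bd x⟫² / μ` (`∫ (a - μ|u|)₊ du = a² / μ` for `a ≥ 0`).  Fatou
(`lintegral_liminf_le` on `stdGaussian E ×ˢ volume`) gives the claim; the limit function is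
integrable (quadratic growth, `integrable_of_le_quadratic`, `abs_le_of_lipschitz`). -/
theorem fatou_bound (e : E) (he : ‖e‖ = 1) {ψ : E → ℝ} {L : ℝ≥0} (hL : LipschitzWith L ψ)
    (hinv : ∀ (x : E) (r : ℝ), ψ (x + r • e) = ψ x) {μ K : ℝ} (hμ : 0 < μ) (h : E)
    (hK : ∀ ε : ℝ, 0 < ε →
      ∫ x, max (ε * |⟪h, x⟫| - μ * |⟪e, x⟫ - ψ x|) 0 ∂stdGaussian E ≤ ε ^ 2 * K) :
    ∫ x, phi (ψ x) * ⟪h, bd e ψ x⟫ ^ 2 ∂stdGaussian E ≤ μ * K := by
  have hψ : Continuous ψ := hL.continuous
  have hK0 : 0 ≤ K := by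
    have h1 := hK 1 one_pos
    have h2 : 0 ≤ ∫ x, max (1 * |⟪h, x⟫| - μ * |⟪e, x⟫ - ψ x|) 0 ∂stdGaussian E :=
      integral_nonneg fun x => le_max_right _ _
    linarith
  have hFc : ∀ ε, Continuous (F e ψ μ h ε) := fun ε =>
    (continuous_F e hψ μ h).comp (continuous_const.prodMk continuous_id)
  have hlim : ∀ p : E × ℝ, Tendsto (fun n : ℕ => ENNReal.ofReal (F e ψ μ h (1 / ((n : ℝ) + 1)) p))
      atTop (𝓝 (ENNReal.ofReal (F e ψ μ h 0 p))) := by
    intro p
    refine ENNReal.tendsto_ofReal ?_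
    have h1 : Continuous fun ε : ℝ => F e ψ μ h ε p :=
      (continuous_F e hψ μ h).comp (continuous_id.prodMk continuous_const)
    exact (h1.tendsto 0).comp tendsto_one_div_add_atTop_nhds_zero_nat
  have hfat := lintegral_liminf_le (μ := (stdGaussian E).prod volume) (u := atTop)
    (f := fun (n : ℕ) p => ENNReal.ofReal (F e ψ μ h (1 / ((n : ℝ) + 1)) p))
    (fun n => (hFc _).measurable.ennreal_ofReal)
  simp only [fun p => (hlim p).liminf_eq] at hfat
  have h1 : ∫⁻ p, ENNReal.ofReal (F e ψ μ h 0 p) ∂(stdGaussian E).prod volume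
      ≤ ENNReal.ofReal K := by
    refine hfat.trans (liminf_le_of_frequently_le' (Frequently.of_forall fun n => ?_))
    have hn : (0 : ℝ) < 1 / ((n : ℝ) + 1) := by positivity
    exact lintegral_F_le e he hψ hinv hμ h hn (hK _ hn)
  rw [lintegral_prod _ (hFc 0).measurable.ennreal_ofReal.aemeasurable] at h1
  have hc : Continuous fun x : E => phi (ψ x) * ⟪h, bd e ψ x⟫ ^ 2 := by
    unfold bd
    fun_prop
  rw [integral_eq_lintegral_of_nonneg_ae
    (ae_of_all _ fun x => mul_nonneg (phi_pos _).le (sq_nonneg _)) hc.aestronglyMeasurable]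
  refine ENNReal.toReal_le_of_le_ofReal (by positivity) ?_
  rw [ENNReal.ofReal_mul hμ.le]
  refine le_trans ?_ (mul_le_mul_right h1 _)
  rw [← lintegral_const_mul' _ _ ENNReal.ofReal_ne_top]
  refine lintegral_mono fun x => ?_
  have h2 : ∀ u, ENNReal.ofReal (F e ψ μ h 0 (x, u)) = ENNReal.ofReal (phi (ψ x)) *
      ENNReal.ofReal (max (|⟪h, bd e ψ x⟫| - μ * |u|) 0) := by
    intro u
    rw [← ENNReal.ofReal_mul (phi_pos _).le]
    simp [F]
  simp only [h2]
  rw [lintegral_const_mul' _ _ ENNReal.ofReal_ne_top]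
  refine le_trans ?_ (mul_le_mul_right (mul_le_mul_right (tent (abs_nonneg _) hμ) _) _)
  rw [← ENNReal.ofReal_mul (phi_pos _).le, ← ENNReal.ofReal_mul hμ.le, sq_abs]
  refine le_of_eq (congrArg _ ?_)
  field_simp

end Crest.Agent.R215
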