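import Crest.Agent.R215.Tree4b

/-! Generated branch-and-bound tree. -/

set_option autoImplicit false
set_option linter.unusedVariables false
set_option linter.style.longLine false

namespace Crest.Agent.R215

variable {x1 x2 x3 x4 y1 y2 y3 y4 a1 a2 a3 a4 : ℝ}

lemma T4_52 (c : Ctx4 x1 x2 x3 x4 y1 y2 y3 y4 a1 a2 a3 a4)
    (x1l : 0 ≤ x1)
    (x1u : x1 ≤ (1369/10000))
    (y1l : (56207/1000000) ≤ y1)
    (y2u : y2 ≤ (56207/1000000))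
    (y3u : y3 ≤ (8923/200000))
    (y4u : y4 ≤ (8923/200000))
    : False := by
  rcases le_total (34819/500000) (y1) with y1l | y1u
  · exact T4_50 c x1l x1u y1l y2u y3u y4u
  · exact T4_51 c y1l y1u y2u y3u y4u

lemma T4_53 (c : Ctx4 x1 x2 x3 x4 y1 y2 y3 y4 a1 a2 a3 a4)
    (x1l : (1369/10000) ≤ x1)
    (x1u : x1 ≤ (4/25))
    (y2u : y2 ≤ (56207/1000000))
    (y3u : y3 ≤ (8923/200000))
    (y4u : y4 ≤ (8923/200000))
    : False := by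
  rcases le_total (30571/1000000) (y4) with y4l | y4u
  · rcases le_total (8923/200000) (y2) with y2l | y2u
    · rcases le_total (30571/1000000) (y3) with y3l | y3u
      · linarith only [c.S, x1l, xi_5_7_1 c.X1 x1l x1u, c.D2.t3, y2u, ch_4_5 c.C2 y2u y2l, c.D3.t2, ch_5_6 c.C3 y3u y3l, c.D4.t2, ch_5_6 c.C4 y4u y4l, c.sum]
      · linarith only [c.p3, c.S, xi_5_7_1 c.X1 x1l x1u, c.D2.t3, y2u, ch_4_5 c.C2 y2u y2l, c.D3.t2, y3u, inf_6 c.C3 y3u, c.D4.t2, ch_5_6 c.C4 y4u y4l, c.sum]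
    · linarith only [c.p2, c.o3, c.S, x1l, xi_5_7_1 c.X1 x1l x1u, c.D2.t2, inf_5 c.C2 y2u, c.D3.t2, inf_5 c.C3 y3u, c.D4.t2, ch_5_6 c.C4 y4u y4l, c.sum]
  · rcases le_total (30571/1000000) (y3) with y3l | y3u
    · rcases le_total (8923/200000) (y2) with y2l | y2u
      · linarith only [c.S, c.P2.q1, c.P3.q1, x1l, xi_5_7_1 c.X1 x1l x1u, y2u, ch_4_5 c.C2 y2u y2l, y3u, ch_5_6 c.C3 y3u y3l, c.D4.t1, inf_6 c.C4 y4u, c.sum]
      · linarith only [c.o2, c.S, xi_5_7_1 c.X1 x1l x1u, c.D2.t3, y2u, inf_5 c.C2 y2u, c.D3.t3, ch_5_6 c.C3 y3u y3l, c.D4.t1, c.D4.t2, inf_6 c.C4 y4u, c.sum]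
    · linarith only [c.S, xi_5_7_0 c.X1 x1l x1u, xi_5_7_1 c.X1 x1l x1u, c.D2.t3, y2u, inf_4 c.C2 y2u, c.D3.t2, inf_6 c.C3 y3u, c.D4.t2, inf_6 c.C4 y4u, c.sum]

lemma T4_54 (c : Ctx4 x1 x2 x3 x4 y1 y2 y3 y4 a1 a2 a3 a4)
    (x1l : 0 ≤ x1)
    (x1u : x1 ≤ (4/25))
    (y1l : (56207/1000000) ≤ y1)
    (y2u : y2 ≤ (56207/1000000))
    (y3u : y3 ≤ (8923/200000))
    (y4u : y4 ≤ (8923/200000))
    : False := by
  rcases le_total x1 (1369/10000) with x1u | x1l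
  · exact T4_52 c x1l x1u y1l y2u y3u y4u
  · exact T4_53 c x1l x1u y2u y3u y4u

lemma T4_55 (c : Ctx4 x1 x2 x3 x4 y1 y2 y3 y4 a1 a2 a3 a4)
    (x1l : 0 ≤ x1)
    (x1u : x1 ≤ (4/25))
    (y2u : y2 ≤ (56207/1000000))
    (y3u : y3 ≤ (8923/200000))
    (y4u : y4 ≤ (8923/200000))
    : False := by
  rcases le_total (56207/1000000) (y1) with y1l | y1u
  · exact T4_54 c x1l x1u y1l y2u y3u y4u
  · linarith only [c.o1, c.S, c.D1.t3, y1u, inf_4 c.C1 y1u, c.D2.t3, inf_4 c.C2 y2u, c.D3.t2, inf_5 c.C3 y3u, c.D4.t2, inf_5 c.C4 y4u, c.sum]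

lemma T4_56 (c : Ctx4 x1 x2 x3 x4 y1 y2 y3 y4 a1 a2 a3 a4)
    (x1l : 0 ≤ x1)
    (x1u : x1 ≤ (4/25))
    (y2u : y2 ≤ (56207/1000000))
    (y4u : y4 ≤ (8923/200000))
    : False := by
  rcases le_total (8923/200000) (y3) with y3l | y3u
  · exact T4_47 c x1l x1u y2u y3l y4u
  · exact T4_55 c x1l x1u y2u y3u y4u

lemma T4_57 (c : Ctx4 x1 x2 x3 x4 y1 y2 y3 y4 a1 a2 a3 a4)
    (x1l : 0 ≤ x1)
    (x1u : x1 ≤ (4/25))
    (x2l : 0 ≤ x2)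
    (x2u : x2 ≤ (4/25))
    (y4u : y4 ≤ (8923/200000))
    : False := by
  rcases le_total (56207/1000000) (y2) with y2l | y2u
  · exact T4_40 c x1l x1u x2l x2u y2l y4u
  · exact T4_56 c x1l x1u y2u y4u

lemma T4_58 (c : Ctx4 x1 x2 x3 x4 y1 y2 y3 y4 a1 a2 a3 a4)
    (x1l : 0 ≤ x1)
    (x1u : x1 ≤ (4/25))
    (x2l : 0 ≤ x2)
    (x2u : x2 ≤ (4/25))
    : False := by
  rcases le_total (8923/200000) (y4) with y4l | y4u
  · exact T4_5 c x1u x2u y4l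
  · exact T4_57 c x1l x1u x2l x2u y4u

theorem core4 (c : Ctx4 x1 x2 x3 x4 y1 y2 y3 y4 a1 a2 a3 a4) : False :=
  T4_58 c c.x1l c.x1u c.x2l c.x2u

end Crest.Agent.R215
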