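import Crest.Agent.R215.LinAlg
import Crest.Agent.R215.Tree5d
import Crest.Agent.R215.Tree4c

/-! Assembly: no minimal counterexample exists. -/

set_option autoImplicit false
set_option linter.unusedSectionVars false
open MeasureTheory ProbabilityTheory Real Set Filter Topology
open scoped RealInnerProductSpace NNReal

namespace Crest.Agent.R215

variable {E : Type*} [NormedAddCommGroup E] [InnerProductSpace ℝ E] [FiniteDimensional ℝ E]
  [MeasurableSpace E] [BorelSpace E] {ι : Type*} [Fintype ι] [DecidableEq ι] {z : ι → E}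

/-- normalised deletion loss -/
noncomputable def yy (z : ι → E) (i : ι) : ℝ :=
  (Fintype.card ι - 1) / Fintype.card ι * (∑ l, ‖z l‖ ^ 2 - F (del i z))

/-- mass of the cell -/
noncomputable def aa (z : ι → E) (i : ι) : ℝ := ∫ x, chi z i x ∂stdGaussian E

namespace Opt

lemma cw (h : Opt z) (i : ι) : CW (yy z i) (aa z i) := (h.cellY i).cw

lemma sum_aa (h : Opt z) : ∑ i, aa z i = 1 := sum_integral_chi h.two_le h.injective

lemma two_mul_le (h : Opt z) (i : ι) : 2 * ‖z i‖ ^ 2 ≤ ∑ l, ‖z l‖ ^ 2 := by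
  have h1 := h.norm_sum_sq_le (Finset.univ.erase i)
  have h2 := Finset.add_sum_erase Finset.univ z (Finset.mem_univ i)
  have h3 := Finset.add_sum_erase Finset.univ (fun l => ‖z l‖ ^ 2) (Finset.mem_univ i)
  rw [h.sum_eq_zero] at h2
  rw [eq_neg_of_add_eq_zero_right h2, norm_neg] at h1
  linarith

lemma del_line (h : Opt z) (i : ι) {τ c : ℝ} (hτ : 1 / 2 ≤ τ)
    (hc : c2 * ((Fintype.card ι - 1) / Fintype.card ι) ≤ c) :
    ‖z i‖ ^ 2 * (1 / (2 * τ)) - c * ((1 - τ) ^ 2 / (2 * τ)) ≤ yy z i := by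
  have hk : (4:ℝ) ≤ Fintype.card ι := by exact_mod_cast h.card
  have h1 := h.del_bound i
  have h2 := h.two_mul_le i
  have hgt := h.hgt
  unfold yy
  set S := ∑ l, ‖z l‖ ^ 2
  set k : ℝ := (Fintype.card ι : ℝ)
  set x := ‖z i‖ ^ 2 with hx
  have hx0 : 0 ≤ x := sq_nonneg _
  have hτ0 : 0 < τ := by linarith
  have hκ : k / (k - 1) ≤ 2 := by rw [div_le_iff₀ (by linarith)]; linarith
  have hw : 0 ≤ S - k / (k - 1) * x := by nlinarith
  set w := S - k / (k - 1) * x with hwdef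
  have h3 : √c2 * √w ≤ (τ * c2 + w / τ) / 2 := by
    have h4 := Real.sq_sqrt c2_pos.le
    have h5 := Real.sq_sqrt hw
    have h6 : (τ * c2 + w / τ) / 2 - √c2 * √w = (τ * √c2 - √w) ^ 2 / (2 * τ) := by
      conv_lhs => rw [← h4, ← h5]
      rw [Real.sqrt_sq (Real.sqrt_nonneg _), Real.sqrt_sq (Real.sqrt_nonneg _)]
      field_simp; ring
    have h7 : 0 ≤ (τ * √c2 - √w) ^ 2 / (2 * τ) := by positivity
    linarith
  have h8 : 0 ≤ 1 - 1 / (2 * τ) := by
    rw [sub_nonneg, div_le_one (by linarith)]; linarith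
  have h9 := mul_le_mul_of_nonneg_right hgt.le h8
  have h10 : k / (k - 1) * x * (1 / (2 * τ)) - c2 * ((1 - τ) ^ 2 / (2 * τ)) ≤ S - F (del i z) := by
    have e1 : (τ * c2 + w / τ) / 2
        = τ * c2 / 2 + S * (1 / (2 * τ)) - k / (k - 1) * x * (1 / (2 * τ)) := by
      rw [hwdef]; field_simp; ring
    have e2 : c2 * ((1 - τ) ^ 2 / (2 * τ)) = τ * c2 / 2 - c2 * (1 - 1 / (2 * τ)) := by
      field_simp; ring
    rw [e2]
    nlinarith
  have hκ' : 0 ≤ (k - 1) / k := div_nonneg (by linarith) (by linarith)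
  have h11 := mul_le_mul_of_nonneg_left h10 hκ'
  have e3 : (k - 1) / k * (k / (k - 1) * x * (1 / (2 * τ)) - c2 * ((1 - τ) ^ 2 / (2 * τ)))
      = x * (1 / (2 * τ)) - c2 * ((k - 1) / k) * ((1 - τ) ^ 2 / (2 * τ)) := by
    have : k - 1 ≠ 0 := by linarith
    have : k ≠ 0 := by linarith
    field_simp
  have h12 := mul_le_mul_of_nonneg_right hc (by positivity : 0 ≤ (1 - τ) ^ 2 / (2 * τ))
  linarith

lemma del' (h : Opt z) (i : ι) {c : ℝ} (hc : c2 * ((Fintype.card ι - 1) / Fintype.card ι) ≤ c) :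
    Del c (‖z i‖ ^ 2) (yy z i) := by
  refine ⟨?_, ?_, ?_, ?_⟩
  · have := h.del_line i (τ := 1) (by norm_num) hc
    norm_num at this; linarith
  · have := h.del_line i (τ := 93 / 100) (by norm_num) hc
    norm_num at this; linarith
  · have := h.del_line i (τ := 87 / 100) (by norm_num) hc
    norm_num at this; linarith
  · have := h.del_line i (τ := 81 / 100) (by norm_num) hc
    norm_num at this; linarith

lemma top (h : Opt z) (i : ι) : ‖z i‖ ^ 2 ≤ 159156 / 1000000 := by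
  have h1 := h.cellX i 0
  rw [Real.sqrt_sq (norm_nonneg _)] at h1
  simp only [H, zero_mul, sub_zero, add_zero] at h1
  have h2 := h1.trans phi_zero_le
  nlinarith [norm_nonneg (z i)]

lemma amgm (d : ℝ) {t : ℝ} (ht : 0 < t) : d ≤ d ^ 2 * (1 / (2 * t)) + t / 2 := by
  have : d ^ 2 * (1 / (2 * t)) + t / 2 - d = (d - t) ^ 2 / (2 * t) := by field_simp; ring
  have h : 0 ≤ (d - t) ^ 2 / (2 * t) := by positivity
  linarith

lemma per (h : Opt z) {b u v w : ι} (hbu : u ≠ b) (hbv : v ≠ b) (hbw : w ≠ b) (huv : u ≠ v)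
    (huw : u ≠ w) (hvw : v ≠ w) (hU : Finset.univ = {b, u, v, w}) :
    Per (∑ l, ‖z l‖ ^ 2) (‖z w‖ ^ 2) (‖z b‖ ^ 2) (yy z b) := by
  have hsum : ∀ {M : Type _} [AddCommMonoid M] (g : ι → M), ∑ l, g l = g b + g u + g v + g w := by
    intro M _ g
    rw [hU, Finset.sum_insert (by simp [hbu.symm, hbv.symm, hbw.symm]),
      Finset.sum_insert (by simp [huv, huw]), Finset.sum_insert (by simp [hvw]),
      Finset.sum_singleton]
    simp only [add_assoc]
  have hcard : (Fintype.card ι : ℝ) = 4 := by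
    have := hsum (fun _ => (1:ℝ))
    simp only [Finset.sum_const, Finset.card_univ, nsmul_eq_mul, mul_one] at this
    linarith
  have hF : F (del b z) = phi 0 / 2 * (‖z u - z v‖ + ‖z u - z w‖ + ‖z v - z w‖) := by
    refine F_three (del b z) (a := ⟨u, hbu⟩) (b := ⟨v, hbv⟩) (c := ⟨w, hbw⟩) ?_
    rintro ⟨l, hl⟩
    have : l ∈ ({b, u, v, w} : Finset ι) := hU ▸ Finset.mem_univ l
    simpa [hl] using this
  have hz : z b + z u + z v + z w = 0 := by
    have := h.sum_eq_zero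
    rw [hU, Finset.sum_insert (by simp [hbu.symm, hbv.symm, hbw.symm]),
      Finset.sum_insert (by simp [huv, huw]), Finset.sum_insert (by simp [hvw]),
      Finset.sum_singleton] at this
    rw [← this]; simp only [add_assoc]
  have hS := hsum (fun l => ‖z l‖ ^ 2)
  have e1 : ‖z b‖ ^ 2 = ‖z u‖ ^ 2 + ‖z v‖ ^ 2 + ‖z w‖ ^ 2
      + 2 * (⟪z u, z v⟫ + ⟪z u, z w⟫ + ⟪z v, z w⟫) := by
    have : z b = -(z u + z v + z w) := by rw [← sub_eq_zero, ← hz]; abel
    rw [this, norm_neg, norm_add_sq_real, norm_add_sq_real, inner_add_left]; ring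
  have e2 : ⟪z b, z w⟫ + ⟪z u, z w⟫ + ⟪z v, z w⟫ + ‖z w‖ ^ 2 = 0 := by
    have := congrArg (fun y => ⟪y, z w⟫) hz
    simpa [inner_add_left] using this
  have e3 := h.inner_neg hbw.symm
  have d1 := norm_sub_sq_real (z u) (z v)
  have d2 := norm_sub_sq_real (z u) (z w)
  have d3 := norm_sub_sq_real (z v) (z w)
  have hp := phi_zero_le
  have hper0 : 0 ≤ ‖z u - z v‖ + ‖z u - z w‖ + ‖z v - z w‖ := by positivity
  have hF2 : F (del b z) ≤ 3989424 / 20000000 * (‖z u - z v‖ + ‖z u - z w‖ + ‖z v - z w‖) := by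
    rw [hF]; exact mul_le_mul_of_nonneg_right (by linarith) hper0
  have hy : yy z b = 3 / 4 * (∑ l, ‖z l‖ ^ 2 - F (del b z)) := by
    unfold yy; rw [hcard]; norm_num
  rw [hy, hS]
  refine ⟨?_, ?_⟩
  · have a1 := amgm ‖z u - z v‖ (t := 57 / 100) (by norm_num)
    have a2 := amgm ‖z u - z w‖ (t := 77 / 200) (by norm_num)
    have a3 := amgm ‖z v - z w‖ (t := 77 / 200) (by norm_num)
    rw [d1] at a1; rw [d2] at a2; rw [d3] at a3
    linarith
  · have a1 := amgm ‖z u - z v‖ (t := 54 / 100) (by norm_num)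
    have a2 := amgm ‖z u - z w‖ (t := 41 / 100) (by norm_num)
    have a3 := amgm ‖z v - z w‖ (t := 41 / 100) (by norm_num)
    rw [d1] at a1; rw [d2] at a2; rw [d3] at a3
    linarith

end Opt

lemma exists_top_four (hc : 4 ≤ Fintype.card ι) (x : ι → ℝ) :
    ∃ i1 i2 i3 i4 : ι, i2 ≠ i1 ∧ i3 ≠ i1 ∧ i3 ≠ i2 ∧ i4 ≠ i1 ∧ i4 ≠ i2 ∧ i4 ≠ i3 ∧
      (∀ l, x l ≤ x i1) ∧ (∀ l, l ≠ i1 → x l ≤ x i2) ∧ (∀ l, l ≠ i1 → l ≠ i2 → x l ≤ x i3) ∧
      (∀ l, l ≠ i1 → l ≠ i2 → l ≠ i3 → x l ≤ x i4) := by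
  have hne : ∀ s : Finset ι, s.card ≤ 3 → (sᶜ).Nonempty := by
    intro s hs
    rw [← Finset.card_pos, Finset.card_compl]; omega
  obtain ⟨i1, -, h1⟩ := Finset.exists_max_image (∅ᶜ) x (hne ∅ (by simp))
  obtain ⟨i2, m2, h2⟩ := Finset.exists_max_image ({i1}ᶜ) x (hne {i1} (by simp))
  obtain ⟨i3, m3, h3⟩ := Finset.exists_max_image ({i1, i2}ᶜ) x
    (hne {i1, i2} (Finset.card_le_two.trans (by norm_num)))
  obtain ⟨i4, m4, h4⟩ := Finset.exists_max_image ({i1, i2, i3}ᶜ) x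
    (hne {i1, i2, i3} Finset.card_le_three)
  simp only [Finset.mem_compl, Finset.mem_insert, Finset.mem_singleton, not_or] at m2 m3 m4 h2 h3 h4
  exact ⟨i1, i2, i3, i4, m2, m3.1, m3.2, m4.1, m4.2.1, m4.2.2, fun l => h1 l (by simp), h2,
    fun l a b => h3 l ⟨a, b⟩, fun l a b c => h4 l ⟨a, b, c⟩⟩

theorem Opt.false (h : Opt z) : False := by
  obtain ⟨i1, i2, i3, i4, n21, n31, n32, n41, n42, n43, m1, m2, m3, m4⟩ :=
    exists_top_four h.card (fun l => ‖z l‖ ^ 2)
  set R : Finset ι := ({i1, i2, i3, i4} : Finset ι)ᶜ with hR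
  have hmemR : ∀ l, l ∈ R ↔ l ≠ i1 ∧ l ≠ i2 ∧ l ≠ i3 ∧ l ≠ i4 := by
    intro l; simp [hR]
  have s3 : ∀ g : ι → ℝ, ∑ l ∈ {i1, i2, i3}, g l = g i1 + g i2 + g i3 := by
    intro g
    rw [Finset.sum_insert (by simp [n21.symm, n31.symm]), Finset.sum_insert (by simp [n32.symm]),
      Finset.sum_singleton, add_assoc]
  have s4 : ∀ g : ι → ℝ, ∑ l ∈ {i1, i2, i3, i4}, g l = g i1 + g i2 + g i3 + g i4 := by
    intro g
    rw [Finset.sum_insert (by simp [n21.symm, n31.symm, n41.symm]),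
      Finset.sum_insert (by simp [n32.symm, n42.symm]), Finset.sum_insert (by simp [n43.symm]),
      Finset.sum_singleton]
    ring
  have sall : ∀ g : ι → ℝ, ∑ l, g l = g i1 + g i2 + g i3 + g i4 + ∑ l ∈ R, g l := by
    intro g; rw [← s4, hR, Finset.sum_add_sum_compl]
  have s3c : ∀ g : ι → ℝ, ∑ l ∈ ({i1, i2, i3} : Finset ι)ᶜ, g l = g i4 + ∑ l ∈ R, g l := by
    intro g
    have := Finset.sum_add_sum_compl {i1, i2, i3} g
    rw [s3, sall] at this
    linarith
  have c3 : (({i1, i2, i3} : Finset ι).card : ℝ) = 3 := by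
    have := s3 fun _ => 1
    simp only [Finset.sum_const, nsmul_eq_mul, mul_one] at this
    linarith
  have c4 : (({i1, i2, i3, i4} : Finset ι).card : ℝ) = 4 := by
    have := s4 fun _ => 1
    simp only [Finset.sum_const, nsmul_eq_mul, mul_one] at this
    linarith
  have o1 := m1 i2
  have o2 := m2 i3 n31
  have o3 := m3 i4 n41 n42
  have hx2 : 0 < ‖z i2‖ ^ 2 := pow_pos (norm_pos_iff.2 (h.ne_zero i2)) 2
  have hΛ := h.laplace i1 hx2 m2 o1
  have hΛ0 : 0 ≤ ‖z i1‖ ^ 2 + ‖z i2‖ ^ 2 := by positivity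
  have L3 := fun i => h.Lm i {i1, i2, i3} (by simp) hΛ0 hΛ
  have L4 := fun i => h.Lm i {i1, i2, i3, i4} (by simp) hΛ0 hΛ
  simp only [s3, s3c, c3] at L3
  simp only [s4, c4, ← hR] at L4
  have hS := c2_ge.trans h.hgt.le
  have hk : (4:ℝ) ≤ Fintype.card ι := by exact_mod_cast h.card
  have hsum := h.sum_aa
  rw [sall] at hsum
  set y1 := yy z i1
  set y2 := min y1 (yy z i2) with hy2
  set y3 := min y2 (yy z i3) with hy3
  set y4 := min y3 (yy z i4) with hy4
  have hD : ∀ {c : ℝ}, c2 * ((Fintype.card ι - 1) / Fintype.card ι) ≤ c →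
      Del c (‖z i1‖ ^ 2) y1 ∧ Del c (‖z i2‖ ^ 2) y2 ∧ Del c (‖z i3‖ ^ 2) y3
        ∧ Del c (‖z i4‖ ^ 2) y4 := by
    intro c hc
    have D1 : Del c (‖z i1‖ ^ 2) y1 := h.del' i1 hc
    have D2 : Del c (‖z i2‖ ^ 2) y2 := (D1.mono o1).min (h.del' i2 hc)
    have D3 : Del c (‖z i3‖ ^ 2) y3 := (D2.mono o2).min (h.del' i3 hc)
    exact ⟨D1, D2, D3, (D3.mono o3).min (h.del' i4 hc)⟩
  have C1 : CW y1 (aa z i1) := h.cw i1
  have C2 : CW y2 (aa z i2) := (h.cw i2).mono (min_le_right _ _)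
  have C3 : CW y3 (aa z i3) := (h.cw i3).mono (min_le_right _ _)
  have C4 : CW y4 (aa z i4) := (h.cw i4).mono (min_le_right _ _)
  rcases R.eq_empty_or_nonempty with hRe | ⟨j0, hj0⟩
  · have hU : (Finset.univ : Finset ι) = {i1, i2, i3, i4} := by
      rw [hR, Finset.compl_eq_empty_iff] at hRe; exact hRe.symm
    have hcard : (Fintype.card ι : ℝ) = 4 := by rw [← Finset.card_univ, hU, c4]
    obtain ⟨D1, D2, D3, D4⟩ := hD (c := 358099 / 1000000 * (3 / 4))
      (by rw [hcard]; linarith [c2_le])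
    have hS4 : ∑ l, ‖z l‖ ^ 2 = ‖z i1‖ ^ 2 + ‖z i2‖ ^ 2 + ‖z i3‖ ^ 2 + ‖z i4‖ ^ 2 := by
      rw [sall, hRe]; simp
    have P1 := h.per n21 n31 n41 n32.symm n42.symm n43.symm hU
    have P2 := h.per n21.symm n32 n42 n31.symm n41.symm n43.symm
      (by rw [hU, Finset.insert_comm])
    have P3 := h.per n31.symm n32.symm n43 n21.symm n41.symm n42.symm
      (by rw [hU, Finset.insert_comm i3 i1, Finset.insert_comm i3 i2])
    rw [hS4] at P1 P2 P3 hS
    have P2' := (P1.mono o1).min P2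
    have P3' := (P2'.mono o2).min P3
    have L := L3 i4
    rw [hRe] at L hsum
    simp only [Finset.sum_empty, add_zero] at L hsum
    exact core4 ⟨o1, o2, o3, min_le_left _ _, min_le_left _ _, min_le_left _ _, h.top i1,
      C1, C2, C3, C4, h.cellX i1, h.cellX i2, h.cellX i3, D1, D2, D3, D4, P1, P2', P3', hS,
      sq_nonneg _, by linarith, hsum⟩
  · have hc : c2 * ((Fintype.card ι - 1) / Fintype.card ι) ≤ 358099 / 1000000 := by
      have h1 : ((Fintype.card ι : ℝ) - 1) / Fintype.card ι ≤ 1 := by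
        rw [div_le_one (by linarith)]; linarith
      have := mul_le_mul_of_nonneg_left h1 c2_pos.le
      linarith [c2_le]
    obtain ⟨D1, D2, D3, D4⟩ := hD hc
    have hRx : ∀ j ∈ R, ‖z j‖ ^ 2 ≤ ‖z i4‖ ^ 2 := by
      intro j hj
      obtain ⟨a, b, c, -⟩ := (hmemR j).1 hj
      exact m4 j a b c
    have hRc : ∀ j ∈ R, CW (‖z j‖ ^ 2 / 2) (aa z j) := fun j _ =>
      (h.cw j).mono (h.del' j hc).t0
    rw [sall] at hS
    refine core5 (e := ∑ l ∈ R, ‖z l‖ ^ 2) (xs := ‖z j0‖ ^ 2) (ae := ∑ l ∈ R, aa z l)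
      ⟨o1, o2, o3, min_le_left _ _, min_le_left _ _, min_le_left _ _, h.top i1,
      C1, C2, C3, C4, h.cellX i1, h.cellX i2, h.cellX i3, D1, D2, D3, D4, hS, hRx j0 hj0,
      Finset.single_le_sum (f := fun l => ‖z l‖ ^ 2) (fun _ _ => sq_nonneg _) hj0,
      sq_nonneg _, by linarith [L3 j0], by linarith [L4 j0], ?_, ?_, hsum⟩
    · rw [Finset.sum_div]
      exact CW.sum R ⟨j0, hj0⟩ _ _ hRc
    · intro Yb β hβ hy
      rw [Finset.sum_div, Finset.mul_sum]
      refine Finset.sum_le_sum fun j hj => hβ _ _ (hRc j hj) ?_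
      linarith [hRx j hj, D4.t0]

universe v

theorem key_all (n : ℕ) (hn : 3 ≤ n) :
    ∀ (ι : Type v) [Fintype ι], Fintype.card ι = n → Key E ι := by
  induction n, hn using Nat.le_induction with
  | base => intro ι _ h; exact key_three h
  | succ n hn ih =>
    intro ι _ h
    classical
    by_contra hk
    obtain ⟨z, hz⟩ := exists_opt (E := E) (ι := ι) (by omega) (fun i => ih _ (by
      have := card_del i
      rw [h] at this
      push_cast at this
      exact_mod_cast (by linarith : (Fintype.card {l // l ≠ i} : ℝ) = n))) hk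
    exact hz.false

theorem propeller (ι : Type v) [Fintype ι] (A : ι → Set E) (hA : ∀ i, MeasurableSet (A i))
    (hdisj : Pairwise fun i j => Disjoint (A i) (A j)) (hcov : ⋃ i, A i = Set.univ) :
    ∑ i, ‖∫ x in A i, x ∂stdGaussian E‖ ^ 2 ≤ 9 / (8 * Real.pi) := by
  classical
  set b : ι → E := fun i => ∫ x in A i, x ∂stdGaussian E with hb
  let w : ι ⊕ ULift.{v} (Fin 3) → E := Sum.elim b 0
  have hK := key_all (E := E) _ (by simp) (ι ⊕ ULift.{v} (Fin 3)) rfl w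
  have hw : ∑ i, ‖w i‖ ^ 2 = ∑ i, ‖b i‖ ^ 2 := by simp [w, Fintype.sum_sum_type]
  rw [hw] at hK
  have hid : Integrable (fun x : E => x) (stdGaussian E) := IsGaussian.integrable_id
  have h1 : ∀ i, ‖b i‖ ^ 2 = ∫ x, (A i).indicator (fun x => ⟪b i, x⟫) x ∂stdGaussian E := by
    intro i
    rw [integral_indicator (hA i), integral_inner hid.integrableOn, real_inner_self_eq_norm_sq]
  have h2 : ∑ i, ‖b i‖ ^ 2 ≤ F w := by
    simp_rw [h1]
    have hi : ∀ i, Integrable ((A i).indicator fun x => ⟪b i, x⟫) (stdGaussian E) :=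
      fun i => (integrable_inner_left (b i)).indicator (hA i)
    rw [← integral_finsetSum _ fun i _ => hi i]
    refine integral_mono (integrable_finsetSum _ fun i _ => hi i) (integrable_mx w) fun x => ?_
    obtain ⟨i, hx⟩ := mem_iUnion.1 (hcov ▸ mem_univ x : x ∈ ⋃ i, A i)
    simp only
    rw [Finset.sum_eq_single i (fun j _ hj => indicator_of_notMem
      (fun hxj => Set.disjoint_left.1 (hdisj hj) hxj hx) _) (by simp), indicator_of_mem hx]
    exact le_mx w x (Sum.inl i)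
  exact Opt.le_c2_of (h2.trans hK) le_rfl

end Crest.Agent.R215
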