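import Crest.Agent.R215.Shift

/-! Heat flow of a bounded continuous function: joint continuity, derivatives, heat equation. -/

set_option autoImplicit false
open MeasureTheory ProbabilityTheory Real Set Filter Topology

namespace Crest.Agent.R215.Heat

/-- heat kernel -/
noncomputable def K (t z : ℝ) : ℝ := phi 0 * Real.exp (-Real.log t / 2 - z ^ 2 / (2 * t))

/-- heat flow -/
noncomputable def U (f : ℝ → ℝ) (t x : ℝ) : ℝ := ∫ z, f (x + √t * z) ∂gaussianReal 0 1

/-- first space derivative -/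
noncomputable def U1 (f : ℝ → ℝ) (t x : ℝ) : ℝ := ∫ y, f y * ((y - x) / t * K t (y - x))

/-- second space derivative -/
noncomputable def U2 (f : ℝ → ℝ) (t x : ℝ) : ℝ :=
  ∫ y, f y * (((y - x) ^ 2 / t ^ 2 - 1 / t) * K t (y - x))

lemma K_pos (t z : ℝ) : 0 < K t z := mul_pos (phi_pos 0) (Real.exp_pos _)

lemma continuous_K (t : ℝ) : Continuous (K t) := by unfold K; fun_prop

lemma exp_neg_log_half {t : ℝ} (ht : 0 < t) : Real.exp (-Real.log t / 2) = (√t)⁻¹ := by
  have h : Real.exp (Real.log t / 2) = √t := by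
    rw [eq_comm, Real.sqrt_eq_iff_mul_self_eq ht.le (Real.exp_pos _).le, ← Real.exp_add,
      add_halves, Real.exp_log ht]
  rw [← h, ← Real.exp_neg, neg_div]

lemma K_sqrt_mul {t : ℝ} (ht : 0 < t) (z : ℝ) : K t (√t * z) = (√t)⁻¹ * phi z := by
  unfold K
  rw [sub_eq_add_neg, Real.exp_add, exp_neg_log_half ht, mul_pow, Real.sq_sqrt ht.le, phi_zero]
  unfold phi
  have : -(t * z ^ 2 / (2 * t)) = -z ^ 2 / 2 := by field_simp
  rw [this]; ring

lemma U_eq (f : ℝ → ℝ) {t : ℝ} (ht : 0 < t) (x : ℝ) :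
    U f t x = ∫ y, f y * K t (y - x) := by
  have hs : 0 < √t := Real.sqrt_pos.2 ht
  unfold U
  rw [integral_gauss]
  have h1 := Measure.integral_comp_mul_left (fun z => f (x + z) * K t z) (√t)
  have h2 := integral_add_left_eq_self (μ := volume) (fun y => f y * K t (y - x)) x
  simp only [add_sub_cancel_left] at h2
  rw [← h2]
  simp only [K_sqrt_mul ht, abs_of_pos (inv_pos.2 hs), smul_eq_mul] at h1
  have h3 : ∫ z, f (x + √t * z) * ((√t)⁻¹ * phi z) = (√t)⁻¹ * ∫ z, phi z * f (x + √t * z) := by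
    rw [← integral_const_mul]; congr 1; ext z; ring
  rw [h3] at h1
  exact mul_left_cancel₀ (inv_pos.2 hs).ne' h1

lemma continuous_U {f : ℝ → ℝ} (hf : Continuous f) (hb : ∀ x, |f x| ≤ 1) :
    Continuous (fun p : ℝ × ℝ => U f p.1 p.2) := by
  unfold U
  refine continuous_of_dominated (bound := fun _ => 1) (fun p => ?_)
    (fun p => ae_of_all _ fun z => hb _) (integrable_const _) (ae_of_all _ fun z => by fun_prop)
  exact (by fun_prop : Continuous fun z : ℝ => f (p.2 + √p.1 * z)).aestronglyMeasurable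

lemma integrable_bound (C a x0 : ℝ) (ha : 0 < a) :
    Integrable (fun y : ℝ => C * ((1 + (y - x0) ^ 2) * Real.exp (-a * (y - x0) ^ 2))) := by
  have h1 := integrable_exp_neg_mul_sq ha
  have h2 := integrable_rpow_mul_exp_neg_mul_sq ha (s := 2) (by norm_num)
  have h3 : Integrable (fun y : ℝ => (1 + y ^ 2) * Real.exp (-a * y ^ 2)) := by
    refine (h1.add h2).congr (ae_of_all _ fun y => ?_)
    simp only [Pi.add_apply, Real.rpow_two]; ring
  exact (h3.comp_sub_right x0).const_mul C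

lemma hasDerivAt_K_x {t : ℝ} (ht : 0 < t) (y x : ℝ) :
    HasDerivAt (fun x => K t (y - x)) ((y - x) / t * K t (y - x)) x := by
  unfold K
  have h1 : HasDerivAt (fun x : ℝ => y - x) (-1) x := (hasDerivAt_id' x).const_sub y
  have h2 : HasDerivAt (fun x : ℝ => -Real.log t / 2 - (y - x) ^ 2 / (2 * t)) ((y - x) / t) x := by
    refine (((h1.fun_pow 2).div_const (2 * t)).const_sub _).congr_deriv ?_
    simp; field_simp
  exact (h2.exp.const_mul (phi 0)).congr_deriv (by ring)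

lemma hasDerivAt_K_xx {t : ℝ} (ht : 0 < t) (y x : ℝ) :
    HasDerivAt (fun x => (y - x) / t * K t (y - x))
      (((y - x) ^ 2 / t ^ 2 - 1 / t) * K t (y - x)) x := by
  have h1 : HasDerivAt (fun x : ℝ => y - x) (-1) x := (hasDerivAt_id' x).const_sub y
  exact ((h1.div_const t).fun_mul (hasDerivAt_K_x ht y x)).congr_deriv (by ring)

lemma hasDerivAt_K_t {t : ℝ} (ht : 0 < t) (z : ℝ) :
    HasDerivAt (fun t => K t z) ((z ^ 2 / t ^ 2 - 1 / t) * K t z / 2) t := by
  unfold K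
  have h1 : HasDerivAt (fun t : ℝ => -Real.log t / 2) (-t⁻¹ / 2) t :=
    ((Real.hasDerivAt_log ht.ne').fun_neg).div_const 2
  have h2 : HasDerivAt (fun t : ℝ => z ^ 2 / (2 * t)) (-(z ^ 2) / (2 * t ^ 2)) t := by
    have h3 := ((hasDerivAt_inv ht.ne').const_mul (z ^ 2 / 2))
    have h4 : (fun t : ℝ => z ^ 2 / (2 * t)) = fun t : ℝ => z ^ 2 / 2 * t⁻¹ := by
      ext s; rw [div_mul_eq_div_div, div_eq_mul_inv]
    rw [h4]
    exact h3.congr_deriv (by field_simp)
  exact ((h1.fun_sub h2).exp.const_mul (phi 0)).congr_deriv (by field_simp; ring)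

/-- kernel bound for `x` near `x0` -/
lemma K_le_x {t : ℝ} (ht : 0 < t) {x x0 : ℝ} (hx : |x - x0| ≤ 1) (y : ℝ) :
    K t (y - x) ≤ phi 0 * Real.exp (-Real.log t / 2 + 1 / (2 * t)) *
      Real.exp (-(1 / (4 * t)) * (y - x0) ^ 2) := by
  unfold K
  rw [mul_assoc, ← Real.exp_add]
  refine mul_le_mul_of_nonneg_left (Real.exp_le_exp.2 ?_) (phi_pos 0).le
  have h1 : (x - x0) ^ 2 ≤ 1 := by rw [← sq_abs]; nlinarith [abs_nonneg (x - x0)]
  have h2 : (y - x0) ^ 2 / 2 - 1 ≤ (y - x) ^ 2 := by nlinarith [sq_nonneg (y - x - (x - x0))]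
  have h3 : ((y - x0) ^ 2 / 2 - 1) / (2 * t) ≤ (y - x) ^ 2 / (2 * t) := by gcongr
  have h4 : ((y - x0) ^ 2 / 2 - 1) / (2 * t) = 1 / (4 * t) * (y - x0) ^ 2 - 1 / (2 * t) := by
    field_simp; ring
  linarith

lemma sq_le_x {x x0 : ℝ} (hx : |x - x0| ≤ 1) (y : ℝ) : (y - x) ^ 2 ≤ 2 * (1 + (y - x0) ^ 2) := by
  have h1 : (x - x0) ^ 2 ≤ 1 := by rw [← sq_abs]; nlinarith [abs_nonneg (x - x0)]
  nlinarith [sq_nonneg (y - x0 + (x - x0))]

lemma abs_mul_mul_le {a b k B k' : ℝ} (ha : |a| ≤ 1) (hb : |b| ≤ B) (hk0 : 0 ≤ k) (hk : k ≤ k') :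
    ‖a * (b * k)‖ ≤ B * k' := by
  rw [Real.norm_eq_abs, abs_mul, abs_mul, abs_of_nonneg hk0]
  have h0 : 0 ≤ |b| * k := mul_nonneg (abs_nonneg _) hk0
  calc |a| * (|b| * k) ≤ 1 * (|b| * k) := mul_le_mul_of_nonneg_right ha h0
    _ = |b| * k := one_mul _
    _ ≤ B * k' := mul_le_mul hb hk hk0 ((abs_nonneg _).trans hb)

lemma integrable_f_K {f : ℝ → ℝ} (hf : Continuous f) (hb : ∀ x, |f x| ≤ 1) {t : ℝ} (ht : 0 < t)
    (x : ℝ) : Integrable (fun y => f y * K t (y - x)) := by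
  refine (integrable_bound (phi 0 * Real.exp (-Real.log t / 2 + 1 / (2 * t))) (1 / (4 * t)) x
    (by positivity)).mono' ?_ (ae_of_all _ fun y => ?_)
  · have := continuous_K t
    exact (by fun_prop : Continuous fun y => f y * K t (y - x)).aestronglyMeasurable
  · have h1 := K_le_x ht (x := x) (x0 := x) (by simp) y
    have h2 := abs_mul_mul_le (a := f y) (b := 1) (B := 1 + (y - x) ^ 2) (hb y)
      (by rw [abs_one]; nlinarith [sq_nonneg (y - x)]) (K_pos t (y - x)).le h1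
    rw [one_mul] at h2
    refine h2.trans (le_of_eq ?_); ring

lemma hasDerivAt_U_x {f : ℝ → ℝ} (hf : Continuous f) (hb : ∀ x, |f x| ≤ 1) {t : ℝ} (ht : 0 < t)
    (x0 : ℝ) : Integrable (fun y => f y * ((y - x0) / t * K t (y - x0))) ∧
      HasDerivAt (U f t) (U1 f t x0) x0 := by
  have hU : U f t = fun x => ∫ y, f y * K t (y - x) := funext fun x => U_eq f ht x
  rw [hU]
  have hK := continuous_K t
  refine hasDerivAt_integral_of_dominated_loc_of_deriv_le (s := Metric.closedBall x0 1)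
    (F := fun x y => f y * K t (y - x))
    (F' := fun x y => f y * ((y - x) / t * K t (y - x)))
    (bound := fun y => (3 / t * (phi 0 * Real.exp (-Real.log t / 2 + 1 / (2 * t)))) *
      ((1 + (y - x0) ^ 2) * Real.exp (-(1 / (4 * t)) * (y - x0) ^ 2)))
    (Metric.closedBall_mem_nhds x0 one_pos)
    (Eventually.of_forall fun x => (integrable_f_K hf hb ht x).aestronglyMeasurable)
    (integrable_f_K hf hb ht x0)
    (by fun_prop : Continuous fun y => f y * ((y - x0) / t * K t (y - x0))).aestronglyMeasurable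
    (ae_of_all _ fun y x hx => ?_) (integrable_bound _ _ _ (by positivity))
    (ae_of_all _ fun y x _ => (hasDerivAt_K_x ht y x).const_mul (f y))
  have hx' : |x - x0| ≤ 1 := by simpa [Real.dist_eq] using hx
  have h1 := K_le_x ht hx' y
  have h2 := sq_le_x hx' y
  have h3 : |(y - x) / t| ≤ 3 / t * (1 + (y - x0) ^ 2) := by
    rw [abs_div, abs_of_pos ht, div_mul_eq_mul_div]
    gcongr
    nlinarith [sq_abs (y - x), sq_nonneg (|y - x| - 1), sq_nonneg (y - x0)]
  refine (abs_mul_mul_le (hb y) h3 (K_pos t (y - x)).le h1).trans (le_of_eq ?_); ring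

lemma hasDerivAt_U_xx {f : ℝ → ℝ} (hf : Continuous f) (hb : ∀ x, |f x| ≤ 1) {t : ℝ} (ht : 0 < t)
    (x0 : ℝ) : HasDerivAt (U1 f t) (U2 f t x0) x0 := by
  have hK := continuous_K t
  refine (hasDerivAt_integral_of_dominated_loc_of_deriv_le (s := Metric.closedBall x0 1)
    (F := fun x y => f y * ((y - x) / t * K t (y - x)))
    (F' := fun x y => f y * (((y - x) ^ 2 / t ^ 2 - 1 / t) * K t (y - x)))
    (bound := fun y => ((2 / t ^ 2 + 1 / t) *
      (phi 0 * Real.exp (-Real.log t / 2 + 1 / (2 * t)))) *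
      ((1 + (y - x0) ^ 2) * Real.exp (-(1 / (4 * t)) * (y - x0) ^ 2)))
    (Metric.closedBall_mem_nhds x0 one_pos)
    (Eventually.of_forall fun x => (hasDerivAt_U_x hf hb ht x).1.aestronglyMeasurable)
    (hasDerivAt_U_x hf hb ht x0).1
    (by fun_prop : Continuous fun y =>
      f y * (((y - x0) ^ 2 / t ^ 2 - 1 / t) * K t (y - x0))).aestronglyMeasurable
    (ae_of_all _ fun y x hx => ?_) (integrable_bound _ _ _ (by positivity))
    (ae_of_all _ fun y x _ => (hasDerivAt_K_xx ht y x).const_mul (f y))).2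
  have hx' : |x - x0| ≤ 1 := by simpa [Real.dist_eq] using hx
  have h1 := K_le_x ht hx' y
  have h2 := sq_le_x hx' y
  have h3 : |(y - x) ^ 2 / t ^ 2 - 1 / t| ≤ (2 / t ^ 2 + 1 / t) * (1 + (y - x0) ^ 2) := by
    have h4 : (y - x) ^ 2 / t ^ 2 ≤ 2 / t ^ 2 * (1 + (y - x0) ^ 2) := by
      rw [div_mul_eq_mul_div]; gcongr
    have h5 : 1 / t ≤ 1 / t * (1 + (y - x0) ^ 2) :=
      le_mul_of_one_le_right (by positivity) (by nlinarith [sq_nonneg (y - x0)])
    have h6 : 0 ≤ (y - x) ^ 2 / t ^ 2 := by positivity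
    have h7 : 0 ≤ 1 / t := by positivity
    rw [abs_le]; constructor <;> nlinarith
  refine (abs_mul_mul_le (hb y) h3 (K_pos t (y - x)).le h1).trans (le_of_eq ?_); ring

lemma hasDerivAt_U_t {f : ℝ → ℝ} (hf : Continuous f) (hb : ∀ x, |f x| ≤ 1) {t0 : ℝ} (ht : 0 < t0)
    (x : ℝ) : HasDerivAt (fun t => U f t x) (U2 f t0 x / 2) t0 := by
  have hK := continuous_K t0
  have hnb : Icc (t0 / 2) (2 * t0) ∈ 𝓝 t0 := Icc_mem_nhds (by linarith) (by linarith)
  have key := (hasDerivAt_integral_of_dominated_loc_of_deriv_le (μ := volume)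
    (s := Icc (t0 / 2) (2 * t0))
    (F := fun t y => f y * K t (y - x))
    (F' := fun t y => f y * ((((y - x) ^ 2 / t ^ 2 - 1 / t) / 2) * K t (y - x)))
    (bound := fun y => ((2 / t0 ^ 2 + 1 / t0) * (phi 0 * Real.exp (-Real.log (t0 / 2) / 2))) *
      ((1 + (y - x) ^ 2) * Real.exp (-(1 / (4 * t0)) * (y - x) ^ 2)))
    hnb
    (by filter_upwards [lt_mem_nhds ht] with t h using
      (integrable_f_K hf hb h x).aestronglyMeasurable)
    (integrable_f_K hf hb ht x)
    (by fun_prop : Continuous fun y =>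
      f y * ((((y - x) ^ 2 / t0 ^ 2 - 1 / t0) / 2) * K t0 (y - x))).aestronglyMeasurable
    (ae_of_all _ fun y t hx => ?_) (integrable_bound _ _ _ (by positivity))
    (ae_of_all _ fun y t hx => ((hasDerivAt_K_t (by linarith [hx.1]) (y - x)).const_mul
      (f y)).congr_deriv (by ring))).2
  · have h1 : (fun t => U f t x) =ᶠ[𝓝 t0] fun t => ∫ y, f y * K t (y - x) := by
      filter_upwards [lt_mem_nhds ht] with t h using U_eq f h x
    refine (key.congr_of_eventuallyEq h1).congr_deriv ?_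
    unfold U2
    rw [← integral_div]; congr 1; ext y; ring
  · obtain ⟨ha, hc⟩ := hx
    have htp : 0 < t := by linarith
    have h1 : K t (y - x) ≤ phi 0 * Real.exp (-Real.log (t0 / 2) / 2) *
        Real.exp (-(1 / (4 * t0)) * (y - x) ^ 2) := by
      unfold K
      rw [mul_assoc, ← Real.exp_add]
      refine mul_le_mul_of_nonneg_left (Real.exp_le_exp.2 ?_) (phi_pos 0).le
      have h2 : Real.log (t0 / 2) ≤ Real.log t := Real.log_le_log (by linarith) ha
      have h3 : (y - x) ^ 2 / (4 * t0) ≤ (y - x) ^ 2 / (2 * t) := by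
        gcongr ?_ / ?_
        · rfl
        · linarith
      have h4 : (y - x) ^ 2 / (4 * t0) = 1 / (4 * t0) * (y - x) ^ 2 := by ring
      linarith
    have h3 : |((y - x) ^ 2 / t ^ 2 - 1 / t) / 2| ≤ (2 / t0 ^ 2 + 1 / t0) * (1 + (y - x) ^ 2) := by
      have h4 : (y - x) ^ 2 / t ^ 2 ≤ (y - x) ^ 2 / (t0 / 2) ^ 2 := by gcongr
      have h4' : (y - x) ^ 2 / (t0 / 2) ^ 2 = 2 * (2 / t0 ^ 2 * (y - x) ^ 2) := by
        field_simp
      have h5 : 1 / t ≤ 1 / (t0 / 2) := by gcongr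
      have h5' : 1 / (t0 / 2) = 2 * (1 / t0) := by field_simp
      have h6 : 0 ≤ (y - x) ^ 2 / t ^ 2 := by positivity
      have h7 : 0 ≤ 1 / t := by positivity
      have h8 : 0 ≤ 2 / t0 ^ 2 := by positivity
      have h9 : 0 ≤ 1 / t0 * (y - x) ^ 2 := by positivity
      have h10 : 0 ≤ 2 / t0 ^ 2 * (y - x) ^ 2 := by positivity
      have h11 : 0 ≤ 1 / t0 := by positivity
      rw [abs_le]; constructor <;> nlinarith
    refine (abs_mul_mul_le (hb y) h3 (K_pos t (y - x)).le h1).trans (le_of_eq ?_); ring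

end Crest.Agent.R215.Heat
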