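import Crest.Agent.R215.Heat1

/-! The inverse of `Phi` and the nonlinear equation solved by `Φ⁻¹` of the heat flow. -/

set_option autoImplicit false
open MeasureTheory ProbabilityTheory Real Set Filter Topology
open scoped NNReal

namespace Crest.Agent.R215.Heat

/-- inverse of `Phi` -/
noncomputable def PhiInv : ℝ → ℝ := Function.invFun Phi

lemma PhiInv_Phi (x : ℝ) : PhiInv (Phi x) = x :=
  Function.leftInverse_invFun strictMono_Phi.injective x

lemma Phi_PhiInv {p : ℝ} (hp : p ∈ Ioo (0:ℝ) 1) : Phi (PhiInv p) = p :=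
  Function.invFun_eq (exists_Phi_eq hp.1 hp.2)

lemma continuousAt_PhiInv (x : ℝ) : ContinuousAt PhiInv (Phi x) := by
  refine continuousAt_of_monotoneOn_of_image_mem_nhds (s := Ioo 0 1) (fun p hp q hq hpq => ?_)
    (Ioo_mem_nhds (Phi_pos x) (Phi_lt_one x)) ?_
  · refine strictMono_Phi.le_iff_le.1 ?_
    rwa [Phi_PhiInv hp, Phi_PhiInv hq]
  · have : PhiInv '' Ioo 0 1 = univ :=
      eq_univ_of_forall fun y => ⟨Phi y, ⟨Phi_pos y, Phi_lt_one y⟩, PhiInv_Phi y⟩
    rw [this]; exact univ_mem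

lemma hasDerivAt_PhiInv (x : ℝ) : HasDerivAt PhiInv (phi x)⁻¹ (Phi x) := by
  refine HasDerivAt.of_local_left_inverse (f := Phi) (continuousAt_PhiInv x) ?_ (phi_pos x).ne' ?_
  · rw [PhiInv_Phi]; exact hasDerivAt_Phi x
  · filter_upwards [Ioo_mem_nhds (Phi_pos x) (Phi_lt_one x)] with p hp using Phi_PhiInv hp

/-- the properties of `u = Φ⁻¹ ∘ (heat flow of Φ ∘ w)` used in the maximum principle -/
structure Sol (L A : ℝ) (u : ℝ → ℝ → ℝ) : Prop where
  cont : Continuous (fun p : ℝ × ℝ => u p.1 p.2)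
  growth : ∀ t ∈ Icc (0:ℝ) 1, ∀ x, |u t x| ≤ A + L * |x|
  der : ∀ t, 0 < t → ∃ ux uxx : ℝ → ℝ, (∀ x, HasDerivAt (u t) (ux x) x) ∧
    (∀ x, HasDerivAt ux (uxx x) x) ∧ (∀ x, |ux x| ≤ L) ∧
    ∀ x, HasDerivAt (fun s => u s x) (uxx x / 2 - u t x * ux x ^ 2 / 2) t

lemma Sol.mono {L A B : ℝ} {u : ℝ → ℝ → ℝ} (h : Sol L A u) (hAB : A ≤ B) : Sol L B u :=
  ⟨h.cont, fun t ht x => (h.growth t ht x).trans (by linarith), h.der⟩

/-- `Φ⁻¹` of the heat flow -/
noncomputable def uu (w : ℝ → ℝ) (t x : ℝ) : ℝ := PhiInv (U (fun y => Phi (w y)) t x)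

lemma abs_Phi_le (x : ℝ) : |Phi x| ≤ 1 := by
  rw [abs_of_pos (Phi_pos x)]; exact (Phi_lt_one x).le

lemma Phi_uu {w : ℝ → ℝ} (hw : Continuous w) (t x : ℝ) :
    U (fun y => Phi (w y)) t x = Phi (uu w t x) := by
  obtain ⟨u, hu⟩ := exists_integral_Phi_eq (gaussianReal 0 1) (w := fun z => w (x + √t * z))
    (by fun_prop : Continuous fun z => w (x + √t * z)).measurable.aemeasurable
  have : U (fun y => Phi (w y)) t x = Phi u := hu
  unfold uu
  rw [this, PhiInv_Phi]

lemma uu_zero (w : ℝ → ℝ) (x : ℝ) : uu w 0 x = w x := by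
  unfold uu U
  simp [PhiInv_Phi]

lemma uu_one {w : ℝ → ℝ} {u : ℝ} (hu : ∫ x, Phi (w x) ∂gaussianReal 0 1 = Phi u) :
    uu w 1 0 = u := by
  unfold uu U
  simp [hu, PhiInv_Phi]

lemma continuous_uu {w : ℝ → ℝ} (hw : Continuous w) :
    Continuous (fun p : ℝ × ℝ => uu w p.1 p.2) := by
  have h := continuous_U (f := fun y => Phi (w y)) (by fun_prop) fun x => abs_Phi_le _
  refine continuous_iff_continuousAt.2 fun p => ?_
  have h2 : ContinuousAt PhiInv (U (fun y => Phi (w y)) p.1 p.2) := by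
    rw [Phi_uu hw]; exact continuousAt_PhiInv _
  exact ContinuousAt.comp (f := fun p : ℝ × ℝ => U (fun y => Phi (w y)) p.1 p.2) h2 h.continuousAt

lemma lipschitz_uu {w : ℝ → ℝ} {L : ℝ≥0} (hw : LipschitzWith L w) (t : ℝ) :
    LipschitzWith L (uu w t) := by
  have hc := hw.continuous
  refine LipschitzWith.of_le_add_mul L fun x y => ?_
  refine shift_le (gaussianReal 0 1) (v := fun z => w (x + √t * z)) (w := fun z => w (y + √t * z))
    (by fun_prop : Continuous fun z => w (x + √t * z)).measurable.aemeasurable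
    (by fun_prop : Continuous fun z => w (y + √t * z)).measurable.aemeasurable
    (by positivity) (fun z => ?_) (Phi_uu hc t x) (Phi_uu hc t y)
  have := hw.le_add_mul (x + √t * z) (y + √t * z)
  rwa [dist_add_right] at this

lemma exists_sol {w : ℝ → ℝ} {L : ℝ≥0} (hw : LipschitzWith L w) : ∃ A, Sol L A (uu w) := by
  have hc := hw.continuous
  have hcu := continuous_uu hc
  have hc0 : Continuous fun t : ℝ => uu w t 0 :=
    hcu.comp (f := fun t : ℝ => (t, (0:ℝ))) (by fun_prop)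
  obtain ⟨A, hA⟩ := isCompact_Icc.exists_bound_of_continuousOn (s := Icc (0:ℝ) 1) hc0.continuousOn
  refine ⟨A, hcu, fun t ht x => ?_, fun t ht => ?_⟩
  · have h1 := (lipschitz_uu hw t).dist_le_mul x 0
    have h2 := hA t ht
    rw [Real.dist_eq, Real.dist_eq, sub_zero] at h1
    rw [Real.norm_eq_abs] at h2
    have h3 := abs_add_le (uu w t x - uu w t 0) (uu w t 0)
    rw [sub_add_cancel] at h3
    linarith
  · set f : ℝ → ℝ := fun y => Phi (w y) with hf
    have hfc : Continuous f := by fun_prop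
    have hfb : ∀ x, |f x| ≤ 1 := fun x => abs_Phi_le _
    have hinv : ∀ x, HasDerivAt PhiInv (phi (uu w t x))⁻¹ (U f t x) := fun x => by
      rw [hf, Phi_uu hc]; exact hasDerivAt_PhiInv _
    have hx : ∀ x, HasDerivAt (uu w t) (U1 f t x / phi (uu w t x)) x := fun x =>
      ((hinv x).comp x (hasDerivAt_U_x hfc hfb ht x).2).congr_deriv (by ring)
    refine ⟨fun x => U1 f t x / phi (uu w t x),
      fun x => U2 f t x / phi (uu w t x) + uu w t x * (U1 f t x / phi (uu w t x)) ^ 2,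
      hx, fun x => ?_, fun x => (hx x).le_of_lipschitz (lipschitz_uu hw t), fun x => ?_⟩
    · have h1 := (hasDerivAt_phi (uu w t x)).comp x (hx x)
      have hp := (phi_pos (uu w t x)).ne'
      refine ((hasDerivAt_U_xx hfc hfb ht x).fun_div h1 hp).congr_deriv ?_
      simp only [Function.comp]
      field_simp
      ring
    · have h1 := HasDerivAt.comp (h₂ := PhiInv) (h := fun s => U f s x) t (hinv x)
        (hasDerivAt_U_t hfc hfb ht x)
      exact h1.congr_deriv (by ring)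

end Crest.Agent.R215.Heat
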