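import Crest.Agent.R215.Heat2

/-! The maximum principle in Borell's proof of the Ehrhard inequality. -/

set_option autoImplicit false
open MeasureTheory ProbabilityTheory Real Set Filter Topology
open scoped NNReal

namespace Crest.Agent.R215.Heat

lemma deriv_nonpos_of_min_left {g : ℝ → ℝ} {g' t : ℝ} (ht : 0 < t) (hg : HasDerivAt g g' t)
    (hmin : ∀ s ∈ Icc 0 t, g t ≤ g s) : g' ≤ 0 := by
  have h1 : Tendsto (slope g t) (𝓝[<] t) (𝓝 g') :=
    (hasDerivAt_iff_tendsto_slope.1 hg).mono_left (nhdsWithin_mono _ fun x hx => ne_of_lt hx)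
  refine le_of_tendsto h1 ?_
  filter_upwards [Ioo_mem_nhdsLT ht] with s hs
  rw [slope_def_field]
  exact div_nonpos_of_nonneg_of_nonpos (sub_nonneg.2 (hmin s ⟨hs.1.le, hs.2.le⟩))
    (sub_nonpos.2 hs.2.le)

lemma deriv_eq_zero_of_min {g : ℝ → ℝ} {g' x : ℝ} (hg : HasDerivAt g g' x)
    (hmin : ∀ s, g x ≤ g s) : g' = 0 :=
  IsLocalMin.hasDerivAt_eq_zero (Eventually.of_forall hmin) hg

lemma deriv2_nonneg_of_min {g g1 : ℝ → ℝ} {g2 : ℝ} (hg : ∀ s, HasDerivAt g (g1 s) s)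
    (hg1 : HasDerivAt g1 g2 0) (hmin : ∀ s, g 0 ≤ g s) : 0 ≤ g2 := by
  by_contra hneg
  push Not at hneg
  have h0 : g1 0 = 0 := deriv_eq_zero_of_min (hg 0) hmin
  have h1 : Tendsto (slope g1 0) (𝓝[>] 0) (𝓝 g2) :=
    (hasDerivAt_iff_tendsto_slope.1 hg1).mono_left (nhdsWithin_mono _ fun x hx => ne_of_gt hx)
  have h2 : ∀ᶠ s in 𝓝[>] (0:ℝ), g1 s < 0 := by
    filter_upwards [h1.eventually (gt_mem_nhds hneg), self_mem_nhdsWithin] with s hs hs0
    rw [slope_def_field, h0, sub_zero, sub_zero] at hs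
    have hs1 : (0:ℝ) < s := hs0
    exact (div_neg_iff.1 hs).resolve_left (fun h => absurd h.2 (not_lt.2 hs1.le)) |>.1
  obtain ⟨δ, hδ, hsub⟩ := (mem_nhdsGT_iff_exists_Ioc_subset).1 h2
  have hδ0 : (0:ℝ) < δ := hδ
  obtain ⟨c, hc, hc2⟩ := exists_hasDerivAt_eq_slope g g1 hδ0
    (fun s _ => (hg s).continuousAt.continuousWithinAt) (fun s _ => hg s)
  have h3 : g1 c < 0 := hsub ⟨hc.1, hc.2.le⟩
  rw [hc2, sub_zero] at h3
  have h4 := div_nonneg (sub_nonneg.2 (hmin δ)) hδ0.le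
  linarith

/-- the algebraic core of the maximum principle -/
lemma core_ineq {L A l e x y u0 u1 u2 p0 p1 p2 q0 q1 q2 : ℝ} (hL : 0 ≤ L) (hA : 0 ≤ A)
    (he : 0 < e) (hu0 : |u0| ≤ A + L * |x|) (hu1 : |u1| ≤ A + L * |y|)
    (hp0 : |p0| ≤ L) (hp1 : |p1| ≤ L) (hp2 : |p2| ≤ L)
    (hx : (1 - l) * p2 - (1 - l) * p0 + 2 * e * x = 0) (hy : l * p2 - l * p1 + 2 * e * y = 0)
    (hq : 0 ≤ q2 - (1 - l) * q0 - l * q1 + 4 * e)
    (hC : u2 - (1 - l) * u0 - l * u1 < 0) :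
    0 < (q2 / 2 - u2 * p2 ^ 2 / 2) - (1 - l) * (q0 / 2 - u0 * p0 ^ 2 / 2)
      - l * (q1 / 2 - u1 * p1 ^ 2 / 2)
      + (3 + 2 * L * A + 2 * L ^ 2) * e * (1 + x ^ 2 + y ^ 2) := by
  have key : ∀ z u p : ℝ, |u| ≤ A + L * |z| → |p| ≤ L →
      -(L * A * (1 + z ^ 2) + 2 * L ^ 2 * z ^ 2) ≤ z * u * (p2 + p) := by
    intro z u p hu hp
    have h1 : |p2 + p| ≤ 2 * L := (abs_add_le _ _).trans (by linarith)
    have h2 : |z * u * (p2 + p)| ≤ |z| * (A + L * |z|) * (2 * L) := by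
      rw [abs_mul, abs_mul]; gcongr
    have h3 : |z| * (A + L * |z|) * (2 * L) = L * A * (2 * |z|) + 2 * L ^ 2 * z ^ 2 := by
      rw [← sq_abs z]; ring
    have h4 : 2 * |z| ≤ 1 + z ^ 2 := by nlinarith [sq_abs z, sq_nonneg (|z| - 1)]
    have h5 : L * A * (2 * |z|) ≤ L * A * (1 + z ^ 2) := by gcongr
    linarith [neg_abs_le (z * u * (p2 + p))]
  have k0 := mul_le_mul_of_nonneg_left (key x u0 p0 hu0 hp0) he.le
  have k1 := mul_le_mul_of_nonneg_left (key y u1 p1 hu1 hp1) he.le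
  have e0 : (1 - l) * u0 * (p2 ^ 2 - p0 ^ 2) = -2 * (e * (x * u0 * (p2 + p0))) := by
    linear_combination (u0 * (p2 + p0)) * hx
  have e1 : l * u1 * (p2 ^ 2 - p1 ^ 2) = -2 * (e * (y * u1 * (p2 + p1))) := by
    linear_combination (u1 * (p2 + p1)) * hy
  have hCp : (u2 - (1 - l) * u0 - l * u1) * p2 ^ 2 ≤ 0 :=
    mul_nonpos_of_nonpos_of_nonneg hC.le (sq_nonneg _)
  have hLA : 0 ≤ L * A := mul_nonneg hL hA
  have r1 : 0 ≤ e * (L * A * (x ^ 2 + y ^ 2)) := by positivity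
  have r2 : 0 ≤ e * (x ^ 2 + y ^ 2) := by positivity
  have r3 : 0 ≤ e * L ^ 2 := by positivity
  nlinarith

theorem max_principle {L A l : ℝ} {u0 u1 u2 : ℝ → ℝ → ℝ} (hL : 0 ≤ L) (hA : 0 ≤ A)
    (s0 : Sol L A u0) (s1 : Sol L A u1) (s2 : Sol L A u2) (hl0 : 0 ≤ l) (hl1 : l ≤ 1)
    (h0 : ∀ x y, (1 - l) * u0 0 x + l * u1 0 y ≤ u2 0 ((1 - l) * x + l * y)) :
    (1 - l) * u0 1 0 + l * u1 1 0 ≤ u2 1 0 := by
  set Kc : ℝ := 3 + 2 * L * A + 2 * L ^ 2 with hKc
  have hKc0 : 0 ≤ Kc := by positivity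
  have hl' : 0 ≤ 1 - l := by linarith
  suffices hε : ∀ ε : ℝ, 0 < ε → (1 - l) * u0 1 0 + l * u1 1 0 ≤ u2 1 0 + ε * Real.exp Kc by
    refine le_of_forall_pos_le_add fun δ hδ => ?_
    have := hε (δ / Real.exp Kc) (by positivity)
    rwa [div_mul_cancel₀ _ (Real.exp_pos _).ne'] at this
  intro ε hε
  by_contra hcon
  push Not at hcon
  let G : ℝ → ℝ → ℝ → ℝ := fun t x y => u2 t ((1 - l) * x + l * y) - (1 - l) * u0 t x
    - l * u1 t y + ε * Real.exp (Kc * t) * (1 + x ^ 2 + y ^ 2)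
  have hG100 : G 1 0 0 < 0 := by simp only [G]; norm_num; linarith
  have hGc : Continuous fun p : ℝ × ℝ × ℝ => G p.1 p.2.1 p.2.2 := by
    have c2 : Continuous fun p : ℝ × ℝ × ℝ => u2 p.1 ((1 - l) * p.2.1 + l * p.2.2) :=
      s2.cont.comp (f := fun p : ℝ × ℝ × ℝ => (p.1, (1 - l) * p.2.1 + l * p.2.2)) (by fun_prop)
    have c0 : Continuous fun p : ℝ × ℝ × ℝ => u0 p.1 p.2.1 :=
      s0.cont.comp (f := fun p : ℝ × ℝ × ℝ => (p.1, p.2.1)) (by fun_prop)
    have c1 : Continuous fun p : ℝ × ℝ × ℝ => u1 p.1 p.2.2 :=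
      s1.cont.comp (f := fun p : ℝ × ℝ × ℝ => (p.1, p.2.2)) (by fun_prop)
    exact ((c2.sub (continuous_const.mul c0)).sub (continuous_const.mul c1)).add (by fun_prop)
  -- coercivity
  set R : ℝ := 1 + (2 * A + 2 * L) / ε with hR
  have hR1 : 1 ≤ R := by rw [hR]; linarith [div_nonneg (by positivity : 0 ≤ 2 * A + 2 * L) hε.le]
  have hεR : 2 * A + 2 * L ≤ ε * R := by
    rw [hR, mul_add, mul_div_cancel₀ _ hε.ne']; linarith
  have hfar : ∀ t ∈ Icc (0:ℝ) 1, ∀ x y, (R ≤ |x| ∨ R ≤ |y|) → 0 ≤ G t x y := by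
    intro t ht x y hxy
    set m := max |x| |y| with hm
    have hxm : |x| ≤ m := le_max_left _ _
    have hym : |y| ≤ m := le_max_right _ _
    have hRm : R ≤ m := hxy.elim (fun h => h.trans hxm) fun h => h.trans hym
    have hm2 : m ^ 2 ≤ 1 + x ^ 2 + y ^ 2 := by
      rcases max_choice |x| |y| with h | h <;> rw [hm, h, sq_abs] <;>
        nlinarith [sq_nonneg x, sq_nonneg y]
    have hz : |(1 - l) * x + l * y| ≤ m := by
      refine (abs_add_le _ _).trans ?_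
      rw [abs_mul, abs_mul, abs_of_nonneg hl', abs_of_nonneg hl0]
      nlinarith
    have g2 : -(A + L * m) ≤ u2 t ((1 - l) * x + l * y) := by
      have := s2.growth t ht ((1 - l) * x + l * y)
      have h3 : L * |(1 - l) * x + l * y| ≤ L * m := by gcongr
      linarith [neg_abs_le (u2 t ((1 - l) * x + l * y))]
    have g0 : u0 t x ≤ A + L * m := by
      have := s0.growth t ht x
      have h3 : L * |x| ≤ L * m := by gcongr
      linarith [le_abs_self (u0 t x)]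
    have g1 : u1 t y ≤ A + L * m := by
      have := s1.growth t ht y
      have h3 : L * |y| ≤ L * m := by gcongr
      linarith [le_abs_self (u1 t y)]
    have g3 : (1 - l) * u0 t x + l * u1 t y ≤ A + L * m := by
      nlinarith [mul_le_mul_of_nonneg_left g0 hl', mul_le_mul_of_nonneg_left g1 hl0]
    have g4 : 1 ≤ Real.exp (Kc * t) := Real.one_le_exp (mul_nonneg hKc0 ht.1)
    have hm1 : 1 ≤ m := hR1.trans hRm
    have g5 : ε * 1 * m ^ 2 ≤ ε * Real.exp (Kc * t) * (1 + x ^ 2 + y ^ 2) := by gcongr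
    have g6 : (2 * A + 2 * L) * m ≤ ε * 1 * m ^ 2 := by
      calc (2 * A + 2 * L) * m ≤ (ε * R) * m := by gcongr
        _ ≤ (ε * m) * m := by gcongr
        _ = _ := by ring
    have g7 : A ≤ A * m := le_mul_of_one_le_right hA hm1
    simp only [G]
    nlinarith
  -- the minimum
  have hS : IsCompact (Icc (0:ℝ) 1 ×ˢ Icc (-R) R ×ˢ Icc (-R) R) :=
    isCompact_Icc.prod (isCompact_Icc.prod isCompact_Icc)
  have hmem : ((1:ℝ), (0:ℝ), (0:ℝ)) ∈ Icc (0:ℝ) 1 ×ˢ Icc (-R) R ×ˢ Icc (-R) R :=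
    ⟨⟨zero_le_one, le_rfl⟩, ⟨by simp; linarith, by simp; linarith⟩,
      ⟨by simp; linarith, by simp; linarith⟩⟩
  obtain ⟨⟨t, x, y⟩, ⟨ht, -⟩, hmin⟩ := hS.exists_isMinOn ⟨_, hmem⟩ hGc.continuousOn
  have ht : t ∈ Icc (0:ℝ) 1 := ht
  have hneg : G t x y < 0 := lt_of_le_of_lt (hmin hmem) hG100
  have hglob : ∀ s ∈ Icc (0:ℝ) 1, ∀ a b, G t x y ≤ G s a b := by
    intro s hs a b
    by_cases hab : R ≤ |a| ∨ R ≤ |b|
    · exact hneg.le.trans (hfar s hs a b hab)
    · push Not at hab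
      exact hmin (a := (s, a, b)) ⟨hs, ⟨(abs_lt.1 hab.1).1.le, (abs_lt.1 hab.1).2.le⟩,
        ⟨(abs_lt.1 hab.2).1.le, (abs_lt.1 hab.2).2.le⟩⟩
  set e := ε * Real.exp (Kc * t) with he
  have he0 : 0 < e := by positivity
  have hpos : 0 < e * (1 + x ^ 2 + y ^ 2) := by positivity
  have hC : u2 t ((1 - l) * x + l * y) - (1 - l) * u0 t x - l * u1 t y < 0 := by
    simp only [G] at hneg; linarith
  have ht0 : 0 < t := by
    rcases ht.1.eq_or_lt with h | h
    · rw [← h] at hC; linarith [h0 x y]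
    · exact h
  obtain ⟨p0, q0, d0, dd0, b0, t0⟩ := s0.der t ht0
  obtain ⟨p1, q1, d1, dd1, b1, t1⟩ := s1.der t ht0
  obtain ⟨p2, q2, d2, dd2, b2, t2⟩ := s2.der t ht0
  set z := (1 - l) * x + l * y with hz
  -- first-order conditions
  have hx : (1 - l) * p2 z - (1 - l) * p0 x + 2 * e * x = 0 := by
    refine deriv_eq_zero_of_min (g := fun a => G t a y) (x := x) ?_ fun a => hglob t ht a y
    have a1 : HasDerivAt (fun a : ℝ => (1 - l) * a + l * y) (1 - l) x := by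
      simpa using ((hasDerivAt_id' x).const_mul (1 - l)).add_const (l * y)
    have a2 := HasDerivAt.comp (h₂ := u2 t) (h := fun a : ℝ => (1 - l) * a + l * y) x (d2 z) a1
    have a3 : HasDerivAt (fun a : ℝ => 1 + a ^ 2 + y ^ 2) (2 * x) x := by
      simpa using ((hasDerivAt_pow 2 x).const_add 1).add_const (y ^ 2)
    exact (((a2.fun_sub ((d0 x).const_mul (1 - l))).sub_const (l * u1 t y)).fun_add
      (a3.const_mul e)).congr_deriv (by ring)
  have hy : l * p2 z - l * p1 y + 2 * e * y = 0 := by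
    refine deriv_eq_zero_of_min (g := fun b => G t x b) (x := y) ?_ fun b => hglob t ht x b
    have a1 : HasDerivAt (fun b : ℝ => (1 - l) * x + l * b) l y := by
      simpa using ((hasDerivAt_id' y).const_mul l).const_add ((1 - l) * x)
    have a2 := HasDerivAt.comp (h₂ := u2 t) (h := fun b : ℝ => (1 - l) * x + l * b) y (d2 z) a1
    have a3 : HasDerivAt (fun b : ℝ => 1 + x ^ 2 + b ^ 2) (2 * y) y := by
      simpa using ((hasDerivAt_pow 2 y).const_add (1 + x ^ 2))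
    exact (((a2.sub_const ((1 - l) * u0 t x)).fun_sub ((d1 y).const_mul l)).fun_add
      (a3.const_mul e)).congr_deriv (by ring)
  -- second-order condition
  have hq : 0 ≤ q2 z - (1 - l) * q0 x - l * q1 y + 4 * e := by
    refine deriv2_nonneg_of_min
      (g := fun s => u2 t (z + s) - (1 - l) * u0 t (x + s) - l * u1 t (y + s)
        + e * (1 + (x + s) ^ 2 + (y + s) ^ 2))
      (g1 := fun s => p2 (z + s) - (1 - l) * p0 (x + s) - l * p1 (y + s)
        + e * (2 * (x + s) + 2 * (y + s))) (fun s => ?_) ?_ (fun s => ?_)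
    · have a2 := (d2 (z + s)).comp_const_add z s
      have a0 := (d0 (x + s)).comp_const_add x s
      have a1 := (d1 (y + s)).comp_const_add y s
      have ax : HasDerivAt (fun s : ℝ => x + s) 1 s := (hasDerivAt_id' s).const_add x
      have ay : HasDerivAt (fun s : ℝ => y + s) 1 s := (hasDerivAt_id' s).const_add y
      have a3 := (((ax.fun_pow 2).const_add 1).fun_add (ay.fun_pow 2)).const_mul e
      exact (((a2.fun_sub (a0.const_mul (1 - l))).fun_sub (a1.const_mul l)).fun_add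
        a3).congr_deriv (by simp)
    · have a2 := (dd2 (z + 0)).comp_const_add z 0
      have a0 := (dd0 (x + 0)).comp_const_add x 0
      have a1 := (dd1 (y + 0)).comp_const_add y 0
      have ax : HasDerivAt (fun s : ℝ => x + s) 1 0 := (hasDerivAt_id' 0).const_add x
      have ay : HasDerivAt (fun s : ℝ => y + s) 1 0 := (hasDerivAt_id' 0).const_add y
      have a3 := ((ax.const_mul 2).fun_add (ay.const_mul 2)).const_mul e
      exact (((a2.fun_sub (a0.const_mul (1 - l))).fun_sub (a1.const_mul l)).fun_add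
        a3).congr_deriv (by simp; ring)
    · have h1 := hglob t ht (x + s) (y + s)
      have h2 : (1 - l) * (x + s) + l * (y + s) = z + s := by rw [hz]; ring
      simp only [G, h2] at h1
      simpa using h1
  -- time derivative
  have hcore := core_ineq hL hA he0 (s0.growth t ht x) (s1.growth t ht y) (b0 x) (b1 y) (b2 z)
    hx hy hq hC
  have htd : (q2 z / 2 - u2 t z * p2 z ^ 2 / 2) - (1 - l) * (q0 x / 2 - u0 t x * p0 x ^ 2 / 2)
      - l * (q1 y / 2 - u1 t y * p1 y ^ 2 / 2) + Kc * e * (1 + x ^ 2 + y ^ 2) ≤ 0 := by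
    refine deriv_nonpos_of_min_left (g := fun s => G s x y) ht0 ?_
      fun s hs => hglob s ⟨hs.1, hs.2.trans ht.2⟩ x y
    have a1 : HasDerivAt (fun s : ℝ => Kc * s) Kc t := by
      simpa using (hasDerivAt_id' t).const_mul Kc
    have a3 := ((a1.exp).const_mul ε).mul_const (1 + x ^ 2 + y ^ 2)
    exact ((((t2 z).fun_sub ((t0 x).const_mul (1 - l))).fun_sub ((t1 y).const_mul l)).fun_add
      a3).congr_deriv (by rw [he]; ring)
  linarith

end Crest.Agent.R215.Heat
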