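import Crest.Agent.R215.Cell

/-! Linear-algebra consequences of the second-order inequality. -/

set_option autoImplicit false
set_option linter.unusedSectionVars false
open MeasureTheory ProbabilityTheory Real Set Filter Topology
open scoped RealInnerProductSpace NNReal

namespace Crest.Agent.R215

variable {E : Type*} [NormedAddCommGroup E] [InnerProductSpace ℝ E] [FiniteDimensional ℝ E]
  [MeasurableSpace E] [BorelSpace E] {ι : Type*} [Fintype ι] [DecidableEq ι] {z : ι → E}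

/-- edge weights of the Gram matrix seen as a Laplacian -/
noncomputable def wt (z : ι → E) (i j : ι) : ℝ := if i = j then 0 else -⟪z i, z j⟫

lemma wt_symm (z : ι → E) (i j : ι) : wt z i j = wt z j i := by
  unfold wt
  by_cases h : i = j
  · simp [h]
  · simp [h, Ne.symm h, real_inner_comm]

lemma inner_eq_wt (z : ι → E) (i j : ι) :
    ⟪z i, z j⟫ = (if i = j then ‖z i‖ ^ 2 else 0) - wt z i j := by
  unfold wt
  by_cases h : i = j
  · subst h; simp
  · simp [h]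

namespace Opt

lemma wt_nonneg (h : Opt z) (i j : ι) : 0 ≤ wt z i j := by
  unfold wt
  split_ifs with hij
  · exact le_rfl
  · linarith [h.inner_neg hij]

lemma sum_wt (h : Opt z) (i : ι) : ∑ j, wt z i j = ‖z i‖ ^ 2 := by
  have h1 := congrArg (fun v => ⟪z i, v⟫) h.sum_eq_zero
  simp only [inner_sum, inner_zero_right, inner_eq_wt, Finset.sum_sub_distrib,
    Finset.sum_ite_eq, Finset.mem_univ, if_true] at h1
  linarith

lemma norm_sum_smul_sq (c : ι → ℝ) (s : Finset ι) :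
    ‖∑ j ∈ s, c j • z j‖ ^ 2
      = ∑ i ∈ s, c i ^ 2 * ‖z i‖ ^ 2 - ∑ i ∈ s, ∑ j ∈ s, wt z i j * (c i * c j) := by
  rw [← real_inner_self_eq_norm_sq, sum_inner, ← Finset.sum_sub_distrib]
  refine Finset.sum_congr rfl fun i hi => ?_
  rw [inner_sum]
  simp_rw [real_inner_smul_left, real_inner_smul_right, inner_eq_wt, mul_sub,
    Finset.sum_sub_distrib, mul_ite, mul_zero]
  rw [Finset.sum_ite_eq, if_pos hi]
  congr 1
  · ring
  · exact Finset.sum_congr rfl fun j _ => by ring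

lemma norm_sum_sq_le (h : Opt z) (s : Finset ι) : ‖∑ j ∈ s, z j‖ ^ 2 ≤ ∑ j ∈ s, ‖z j‖ ^ 2 := by
  have h1 := norm_sum_smul_sq (z := z) (fun _ => 1) s
  simp only [one_smul, one_pow, one_mul, mul_one] at h1
  have h2 : 0 ≤ ∑ i ∈ s, ∑ j ∈ s, wt z i j :=
    Finset.sum_nonneg fun i _ => Finset.sum_nonneg fun j _ => h.wt_nonneg i j
  linarith

/-- Anderson-Morley type bound for the top eigenvalue of the Gram matrix -/
lemma laplace (h : Opt z) (i1 : ι) {X : ℝ} (hX : 0 < X) (h2 : ∀ l, l ≠ i1 → ‖z l‖ ^ 2 ≤ X)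
    (h21 : X ≤ ‖z i1‖ ^ 2) (v : E) : ∑ j, ⟪z j, v⟫ ^ 2 ≤ (‖z i1‖ ^ 2 + X) * ‖v‖ ^ 2 := by
  set x1 := ‖z i1‖ ^ 2 with hx1
  have hx1p : 0 < x1 := hX.trans_le h21
  let w : ι → ℝ := fun l => if l = i1 then x1 else X
  have hw : ∀ l, 0 < w l := fun l => by simp only [w]; split_ifs <;> assumption
  have hw1 : ∀ l, w l ≤ x1 := fun l => by simp only [w]; split_ifs; exacts [le_rfl, h21]
  have hrow : ∀ i, ‖z i‖ ^ 2 + ∑ j, wt z i j * (w j / w i) ≤ x1 + X := by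
    intro i
    by_cases hi : i = i1
    · subst hi
      have : ∀ j, wt z i j * (w j / w i) = wt z i j * (X / x1) := by
        intro j
        by_cases hj : j = i
        · subst hj; simp [wt]
        · simp [w, hj]
      simp_rw [this]
      rw [← Finset.sum_mul, h.sum_wt, ← hx1, mul_div_cancel₀ _ hx1p.ne']
    · have h3 : ∑ j, wt z i j * (w j / w i) ≤ ∑ j, wt z i j * (x1 / X) := by
        refine Finset.sum_le_sum fun j _ => mul_le_mul_of_nonneg_left ?_ (h.wt_nonneg i j)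
        simp only [w, if_neg hi]
        exact div_le_div_of_nonneg_right (hw1 j) hX.le
      rw [← Finset.sum_mul, h.sum_wt] at h3
      have h4 : ‖z i‖ ^ 2 * (x1 / X) ≤ X * (x1 / X) :=
        mul_le_mul_of_nonneg_right (h2 i hi) (by positivity)
      rw [mul_div_cancel₀ _ hX.ne'] at h4
      linarith [h2 i hi]
  have hquad : ∀ c : ι → ℝ, ‖∑ j, c j • z j‖ ^ 2 ≤ (x1 + X) * ∑ j, c j ^ 2 := by
    intro c
    rw [norm_sum_smul_sq]
    have h3 : ∀ i j, -(wt z i j * (c i * c j))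
        ≤ (c i ^ 2 * (wt z i j * (w j / w i)) + c j ^ 2 * (wt z j i * (w i / w j))) / 2 := by
      intro i j
      rw [wt_symm z j i]
      have h4 : -(c i * c j) ≤ (c i ^ 2 * (w j / w i) + c j ^ 2 * (w i / w j)) / 2 := by
        have hi := hw i
        have hj := hw j
        have h5 : (c i ^ 2 * (w j / w i) + c j ^ 2 * (w i / w j)) / 2 + c i * c j
            = (c i * w j + c j * w i) ^ 2 / (2 * w i * w j) := by
          field_simp; ring
        have h6 : 0 ≤ (c i * w j + c j * w i) ^ 2 / (2 * w i * w j) := by positivity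
        linarith
      have := mul_le_mul_of_nonneg_left h4 (h.wt_nonneg i j)
      linarith
    have h7 : -∑ i, ∑ j, wt z i j * (c i * c j)
        ≤ ∑ i, c i ^ 2 * ∑ j, wt z i j * (w j / w i) := by
      have h8 : ∑ i, ∑ j, -(wt z i j * (c i * c j)) ≤ ∑ i, ∑ j,
          (c i ^ 2 * (wt z i j * (w j / w i)) + c j ^ 2 * (wt z j i * (w i / w j))) / 2 :=
        Finset.sum_le_sum fun i _ => Finset.sum_le_sum fun j _ => h3 i j
      simp only [Finset.sum_neg_distrib, ← Finset.sum_div, Finset.sum_add_distrib] at h8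
      rw [Finset.sum_comm (f := fun i j => c j ^ 2 * (wt z j i * (w i / w j)))] at h8
      simp only [← Finset.mul_sum] at h8
      linarith
    have h9 : ∑ i, c i ^ 2 * ‖z i‖ ^ 2 + ∑ i, c i ^ 2 * ∑ j, wt z i j * (w j / w i)
        ≤ (x1 + X) * ∑ j, c j ^ 2 := by
      rw [← Finset.sum_add_distrib, Finset.mul_sum]
      refine Finset.sum_le_sum fun i _ => ?_
      have := mul_le_mul_of_nonneg_left (hrow i) (sq_nonneg (c i))
      linarith
    linarith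
  set T := ∑ j, ⟪z j, v⟫ ^ 2 with hT
  have hT0 : 0 ≤ T := Finset.sum_nonneg fun _ _ => sq_nonneg _
  have h3 : T = ⟪∑ j, ⟪z j, v⟫ • z j, v⟫ := by
    rw [sum_inner, hT]
    exact Finset.sum_congr rfl fun j _ => by rw [real_inner_smul_left]; ring
  have h4 := hquad fun j => ⟪z j, v⟫
  have h5 := real_inner_le_norm (∑ j, ⟪z j, v⟫ • z j) v
  rw [← h3] at h5
  rw [← hT] at h4
  set N := ‖∑ j, ⟪z j, v⟫ • z j‖
  have hN : 0 ≤ N := norm_nonneg _
  have h6 : T ^ 2 ≤ (x1 + X) * T * ‖v‖ ^ 2 := by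
    calc T ^ 2 ≤ (N * ‖v‖) ^ 2 := pow_le_pow_left₀ hT0 h5 2
      _ = N ^ 2 * ‖v‖ ^ 2 := by ring
      _ ≤ (x1 + X) * T * ‖v‖ ^ 2 := mul_le_mul_of_nonneg_right h4 (sq_nonneg _)
  rcases hT0.eq_or_lt with h0 | hpos
  · rw [← h0]; positivity
  · by_contra hlt
    have := mul_lt_mul_of_pos_left (not_le.1 hlt) hpos
    nlinarith

lemma sum_sub_mean_sq_real (B : Finset ι) (hB : B.Nonempty) (c : ι → ℝ) :
    ∑ j ∈ B, (c j - (B.card : ℝ)⁻¹ * ∑ l ∈ B, c l) ^ 2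
      = ∑ j ∈ B, c j ^ 2 - (∑ l ∈ B, c l) ^ 2 / B.card := by
  have := sum_norm_sub_mean_sq (E := ℝ) B c hB
  simpa [sq_abs] using this

/-- the inequalities `L_m` -/
theorem Lm (h : Opt z) (i : ι) (B : Finset ι) (hB : B.Nonempty) {Λ : ℝ}
    (hΛ0 : 0 ≤ Λ) (hΛ : ∀ v : E, ∑ j, ⟪z j, v⟫ ^ 2 ≤ Λ * ‖v‖ ^ 2) :
    ∑ j ∈ B, ‖z j‖ ^ 2 - Λ
      ≤ ∑ j ∈ Bᶜ, ‖z j‖ ^ 2 + ((B.card : ℝ) - 1) * (B.card + 2) * ‖z i‖ ^ 2 := by
  set m : ℝ := (B.card : ℝ) with hm
  have hm1 : 1 ≤ m := by rw [hm]; exact_mod_cast hB.card_pos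
  have hm0 : m ≠ 0 := by linarith
  set P := ∑ j ∈ B, z j with hP
  have h1 := h.second i B (fun j => z j - m⁻¹ • P) hΛ0 (fun v => ?_) (z i - m⁻¹ • P)
    (C := m * (m - 1)) (mul_nonneg (by linarith) (by linarith)) (fun x hx => ?_)
  · rw [sum_norm_sub_mean_sq B z hB, norm_sub_sq_real, real_inner_smul_right, norm_smul, mul_pow,
      norm_inv, Real.norm_eq_abs, abs_of_pos (by linarith : 0 < m), ← hP, ← hm] at h1
    have h2 : -⟪z i, P⟫ ≤ ‖z i‖ ^ 2 := by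
      rw [hP, inner_sum, ← Finset.sum_neg_distrib, ← h.sum_wt i]
      calc ∑ j ∈ B, -⟪z i, z j⟫ ≤ ∑ j ∈ B, wt z i j := by
            refine Finset.sum_le_sum fun j _ => ?_
            rw [inner_eq_wt]
            split_ifs
            · linarith [sq_nonneg ‖z i‖]
            · linarith
        _ ≤ ∑ j, wt z i j := Finset.sum_le_sum_of_subset_of_nonneg (Finset.subset_univ _)
            fun j _ _ => h.wt_nonneg i j
    have h3 : ‖P‖ ^ 2 ≤ ∑ j ∈ Bᶜ, ‖z j‖ ^ 2 := by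
      have h4 : P = -∑ j ∈ Bᶜ, z j := by
        have := Finset.sum_add_sum_compl B z
        rw [h.sum_eq_zero] at this
        exact eq_neg_of_add_eq_zero_left this
      rw [h4, norm_neg]
      exact h.norm_sum_sq_le _
    have h5 : m * (m - 1) * (‖z i‖ ^ 2 - 2 * (m⁻¹ * ⟪z i, P⟫) + m⁻¹ ^ 2 * ‖P‖ ^ 2)
        = m * (m - 1) * ‖z i‖ ^ 2 + 2 * (m - 1) * (-⟪z i, P⟫) + ‖P‖ ^ 2 - ‖P‖ ^ 2 / m := by
      field_simp; ring
    have h6 := mul_le_mul_of_nonneg_left h2 (by linarith : 0 ≤ 2 * (m - 1))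
    rw [h5] at h1
    linarith
  · have h2 : ∀ j, ⟪z j - m⁻¹ • P, v⟫ = ⟪z j, v⟫ - m⁻¹ * ∑ l ∈ B, ⟪z l, v⟫ := by
      intro j; rw [inner_sub_left, real_inner_smul_left, hP, sum_inner]
    simp_rw [h2]
    rw [hm, sum_sub_mean_sq_real B hB]
    have h3 : ∑ j ∈ B, ⟪z j, v⟫ ^ 2 ≤ ∑ j, ⟪z j, v⟫ ^ 2 :=
      Finset.sum_le_sum_of_subset_of_nonneg (Finset.subset_univ _) fun j _ _ => sq_nonneg _
    have h4 : 0 ≤ (∑ l ∈ B, ⟪z l, v⟫) ^ 2 / (B.card : ℝ) := by positivity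
    linarith [hΛ v]
  · let u : ι → ℝ := fun j => ⟪z i, x⟫ - ⟪z j, x⟫
    have hu : ∀ j, 0 ≤ u j := fun j => sub_nonneg.2 (hx j)
    have h2 : ∑ l ∈ B, u l = m * ⟪z i, x⟫ - ⟪P, x⟫ := by
      simp only [u]
      rw [Finset.sum_sub_distrib, Finset.sum_const, nsmul_eq_mul, hP, sum_inner]
    have h3 : ∀ j, ⟪z j - m⁻¹ • P, x⟫ ^ 2 = (u j - m⁻¹ * ∑ l ∈ B, u l) ^ 2 := by
      intro j
      rw [h2, inner_sub_left, real_inner_smul_left]
      simp only [u]
      field_simp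
      ring
    have h4 : ⟪z i - m⁻¹ • P, x⟫ = m⁻¹ * ∑ l ∈ B, u l := by
      rw [h2, inner_sub_left, real_inner_smul_left]
      field_simp
    rw [h4]
    simp_rw [h3]
    rw [hm, sum_sub_mean_sq_real B hB, ← hm]
    have h5 : ∑ j ∈ B, u j ^ 2 ≤ (∑ j ∈ B, u j) ^ 2 :=
      Finset.sum_sq_le_sq_sum_of_nonneg fun j _ => hu j
    have h6 : m * (m - 1) * (m⁻¹ * ∑ l ∈ B, u l) ^ 2
        = (∑ l ∈ B, u l) ^ 2 - (∑ l ∈ B, u l) ^ 2 / m := by
      field_simp
    rw [h6]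
    linarith

end Opt

end Crest.Agent.R215
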