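import Crest.Agent.R215.Resample

/-! The functional `F z = E max_i ⟪z i, x⟫` and its elementary properties. -/

set_option autoImplicit false
open MeasureTheory ProbabilityTheory Real Set Filter Topology
open scoped RealInnerProductSpace NNReal

namespace Crest.Agent.R215

section mx
variable {E : Type*} [NormedAddCommGroup E] [InnerProductSpace ℝ E] {ι : Type*}

/-- `max_i ⟪z i, x⟫` -/
noncomputable def mx (z : ι → E) (x : E) : ℝ := ⨆ i, ⟪z i, x⟫

/-- delete the index `i` -/
def del (i : ι) (z : ι → E) : {l // l ≠ i} → E := fun l => z l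

lemma le_mx [Finite ι] (z : ι → E) (x : E) (i : ι) : ⟪z i, x⟫ ≤ mx z x :=
  Finite.le_ciSup (fun i => ⟪z i, x⟫) i

lemma mx_le [Nonempty ι] {z : ι → E} {x : E} {a : ℝ} (h : ∀ i, ⟪z i, x⟫ ≤ a) : mx z x ≤ a :=
  ciSup_le h

lemma exists_mx [Finite ι] [Nonempty ι] (z : ι → E) (x : E) : ∃ i, ⟪z i, x⟫ = mx z x :=
  exists_eq_ciSup_of_finite

lemma mx_eq_of [Finite ι] {z : ι → E} {x : E} (i : ι) (h : ∀ l, ⟪z l, x⟫ ≤ ⟪z i, x⟫) :
    mx z x = ⟪z i, x⟫ :=
  haveI : Nonempty ι := ⟨i⟩
  le_antisymm (mx_le h) (le_mx z x i)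

lemma mx_eq_add [Finite ι] [Nonempty ι] {z w : ι → E} {x y : E} {a : ℝ}
    (h : ∀ i, ⟪z i, x⟫ = ⟪w i, y⟫ + a) : mx z x = mx w y + a := by
  apply le_antisymm
  · exact mx_le fun i => by rw [h]; linarith [le_mx w y i]
  · obtain ⟨i, hi⟩ := exists_mx w y
    rw [← hi, ← h]; exact le_mx z x i

lemma mx_eq_mul [Finite ι] [Nonempty ι] {z w : ι → E} {x y : E} {a : ℝ} (ha : 0 ≤ a)
    (h : ∀ i, ⟪z i, x⟫ = a * ⟪w i, y⟫) : mx z x = a * mx w y := by
  apply le_antisymm
  · exact mx_le fun i => by rw [h]; exact mul_le_mul_of_nonneg_left (le_mx w y i) ha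
  · obtain ⟨i, hi⟩ := exists_mx w y
    rw [← hi, ← h]; exact le_mx z x i

lemma mx_sub_le [Fintype ι] [Nonempty ι] (z : ι → E) (x y : E) :
    mx z x ≤ mx z y + (∑ i, ‖z i‖) * ‖x - y‖ := by
  refine mx_le fun i => ?_
  have h1 : ⟪z i, x⟫ = ⟪z i, y⟫ + ⟪z i, x - y⟫ := by rw [inner_sub_right]; ring
  have h2 : ⟪z i, x - y⟫ ≤ ‖z i‖ * ‖x - y‖ := real_inner_le_norm _ _
  have h3 : ‖z i‖ ≤ ∑ i, ‖z i‖ :=
    Finset.single_le_sum (f := fun i => ‖z i‖) (fun _ _ => norm_nonneg _) (Finset.mem_univ i)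
  have h4 := mul_le_mul_of_nonneg_right h3 (norm_nonneg (x - y))
  linarith [le_mx z y i]

lemma lipschitz_mx [Fintype ι] [Nonempty ι] (z : ι → E) :
    LipschitzWith (∑ i, ‖z i‖₊) (mx z) := by
  refine LipschitzWith.of_le_add_mul _ fun x y => ?_
  rw [dist_eq_norm]
  simpa using mx_sub_le z x y

lemma continuous_mx [Finite ι] [Nonempty ι] (z : ι → E) : Continuous (mx z) := by
  cases nonempty_fintype ι
  exact (lipschitz_mx z).continuous

lemma convexOn_mx [Finite ι] [Nonempty ι] (z : ι → E) : ConvexOn ℝ univ (mx z) := by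
  refine ⟨convex_univ, fun x _ y _ a b ha hb _ => mx_le fun i => ?_⟩
  rw [inner_add_right, real_inner_smul_right, real_inner_smul_right, smul_eq_mul, smul_eq_mul]
  exact add_le_add (mul_le_mul_of_nonneg_left (le_mx z x i) ha)
    (mul_le_mul_of_nonneg_left (le_mx z y i) hb)

lemma mx_le_add [Fintype ι] [Nonempty ι] (z w : ι → E) (x : E) :
    mx z x ≤ mx w x + (∑ i, ‖z i - w i‖) * ‖x‖ := by
  refine mx_le fun i => ?_
  have h1 : ⟪z i, x⟫ = ⟪w i, x⟫ + ⟪z i - w i, x⟫ := by rw [inner_sub_left]; ring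
  have h2 : ⟪z i - w i, x⟫ ≤ ‖z i - w i‖ * ‖x‖ := real_inner_le_norm _ _
  have h3 : ‖z i - w i‖ ≤ ∑ i, ‖z i - w i‖ :=
    Finset.single_le_sum (f := fun i => ‖z i - w i‖) (fun _ _ => norm_nonneg _)
      (Finset.mem_univ i)
  have h4 := mul_le_mul_of_nonneg_right h3 (norm_nonneg x)
  linarith [le_mx w x i]

lemma le_mx_del [Finite ι] (z : ι → E) (x : E) {i l : ι} (h : l ≠ i) :
    ⟪z l, x⟫ ≤ mx (del i z) x :=
  le_mx (del i z) x ⟨l, h⟩

lemma mx_eq_max [Finite ι] (z : ι → E) (x : E) (i : ι) [Nonempty {l // l ≠ i}] :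
    mx z x = max ⟪z i, x⟫ (mx (del i z) x) := by
  have : Nonempty ι := ⟨i⟩
  apply le_antisymm
  · refine mx_le fun l => ?_
    by_cases h : l = i
    · subst h; exact le_max_left _ _
    · exact (le_mx_del z x h).trans (le_max_right _ _)
  · exact max_le (le_mx z x i) (mx_le fun l => le_mx z x l)

end mx

variable {E : Type*} [NormedAddCommGroup E] [InnerProductSpace ℝ E] [FiniteDimensional ℝ E]
  [MeasurableSpace E] [BorelSpace E]

lemma map_inner_unit (e : E) (he : ‖e‖ = 1) :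
    (stdGaussian E).map (fun x => ⟪e, x⟫) = gaussianReal 0 1 := by
  have hmp := measurePreserving_resample e he
  conv_lhs => rw [← hmp.map_eq]
  rw [Measure.map_map (by fun_prop) hmp.measurable]
  have : ((fun x => ⟪e, x⟫) ∘ fun p : E × ℝ => p.1 + (p.2 - ⟪e, p.1⟫) • e) = Prod.snd := by
    ext p; exact inner_resample e he p.1 p.2
  rw [this]
  simp

lemma integral_comp_inner_unit (e : E) (he : ‖e‖ = 1) {g : ℝ → ℝ} (hg : Measurable g) :
    ∫ x, g ⟪e, x⟫ ∂stdGaussian E = ∫ r, g r ∂gaussianReal 0 1 := by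
  rw [← map_inner_unit e he, integral_map (by fun_prop) hg.aestronglyMeasurable]

lemma integrable_inner_left (w : E) : Integrable (fun x => ⟪w, x⟫) (stdGaussian E) :=
  (IsGaussian.integrable_id (μ := stdGaussian E)).const_inner w

lemma integral_inner_left (w : E) : ∫ x, ⟪w, x⟫ ∂stdGaussian E = 0 := by
  have h : Integrable (fun x : E => x) (stdGaussian E) := IsGaussian.integrable_id
  rw [integral_inner h]
  simp

lemma integral_abs_gauss : ∫ r, |r| ∂gaussianReal 0 1 = 2 * phi 0 := by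
  have hid : Integrable (fun r : ℝ => r) (gaussianReal 0 1) := IsGaussian.integrable_id
  have h1 : ∀ r : ℝ, |r| = 2 * max (r - 0) 0 - r := by
    intro r
    rcases le_total 0 r with h | h
    · rw [abs_of_nonneg h, sub_zero, max_eq_left h]; ring
    · rw [abs_of_nonpos h, sub_zero, max_eq_right h]; ring
  have h2 : Integrable (fun r : ℝ => max (r - 0) 0) (gaussianReal 0 1) :=
    (hid.sub (integrable_const 0)).pos_part
  simp_rw [h1]
  rw [integral_sub (h2.const_mul 2) hid, integral_const_mul, integral_gauss_posPart]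
  simp [H]

lemma integral_abs_inner (w : E) : ∫ x, |⟪w, x⟫| ∂stdGaussian E = 2 * phi 0 * ‖w‖ := by
  by_cases hw : w = 0
  · simp [hw]
  have hn : 0 < ‖w‖ := norm_pos_iff.2 hw
  set e := ‖w‖⁻¹ • w with he
  have he1 : ‖e‖ = 1 := by rw [he, norm_smul, norm_inv, norm_norm, inv_mul_cancel₀ hn.ne']
  have h1 : ∀ x, |⟪w, x⟫| = ‖w‖ * |⟪e, x⟫| := by
    intro x
    rw [he, real_inner_smul_left, abs_mul, abs_inv, abs_norm, ← mul_assoc,
      mul_inv_cancel₀ hn.ne', one_mul]
  simp_rw [h1]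
  rw [integral_const_mul, integral_comp_inner_unit e he1 (g := fun r => |r|) (by fun_prop),
    integral_abs_gauss]
  ring

lemma ae_inner_ne_zero {w : E} (hw : w ≠ 0) : ∀ᵐ x ∂stdGaussian E, ⟪w, x⟫ ≠ 0 := by
  have hn : 0 < ‖w‖ := norm_pos_iff.2 hw
  set e := ‖w‖⁻¹ • w with he
  have he1 : ‖e‖ = 1 := by rw [he, norm_smul, norm_inv, norm_norm, inv_mul_cancel₀ hn.ne']
  have := nullSingletonClass_gaussianReal (μ := 0) (v := 1) one_ne_zero
  have h0 : ∀ᵐ r ∂gaussianReal 0 1, r ≠ 0 := by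
    rw [ae_iff]; simp
  rw [← map_inner_unit e he1] at h0
  filter_upwards [ae_of_ae_map (by fun_prop) h0] with x hx h
  apply hx
  rw [he, real_inner_smul_left, h, mul_zero]

lemma integral_comp_neg (g : E → ℝ) :
    ∫ x, g (-x) ∂stdGaussian E = ∫ x, g x ∂stdGaussian E := by
  have h := stdGaussian_map (LinearIsometryEquiv.neg ℝ (E := E))
  have hmp : MeasurePreserving (MeasurableEquiv.neg E) (stdGaussian E) (stdGaussian E) :=
    ⟨(MeasurableEquiv.neg E).measurable, h⟩
  exact hmp.integral_comp' g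

/-- expectation of the maximum of three centred jointly Gaussian variables -/
lemma integral_max_three (a b c : E) :
    ∫ x, max ⟪a, x⟫ (max ⟪b, x⟫ ⟪c, x⟫) ∂stdGaussian E
      = phi 0 / 2 * (‖a - b‖ + ‖a - c‖ + ‖b - c‖) := by
  set g : E → ℝ := fun x => max ⟪a, x⟫ (max ⟪b, x⟫ ⟪c, x⟫) with hg
  have hi : Integrable g (stdGaussian E) :=
    (integrable_inner_left a).sup ((integrable_inner_left b).sup (integrable_inner_left c))
  have hi' : Integrable (fun x => g (-x)) (stdGaussian E) := by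
    simp only [hg, inner_neg_right]
    exact (integrable_inner_left a).neg.sup
      ((integrable_inner_left b).neg.sup (integrable_inner_left c).neg)
  have h1 : ∀ x, g x + g (-x) = (|⟪a - b, x⟫| + |⟪a - c, x⟫| + |⟪b - c, x⟫|) / 2 := by
    intro x
    simp only [hg, inner_neg_right, inner_sub_left]
    generalize ⟪a, x⟫ = p; generalize ⟪b, x⟫ = q; generalize ⟪c, x⟫ = r
    simp only [max_def, abs]
    split_ifs <;> linarith
  have h2 : ∫ x, (g x + g (-x)) ∂stdGaussian E = 2 * ∫ x, g x ∂stdGaussian E := by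
    rw [integral_add hi hi', integral_comp_neg g]; ring
  simp_rw [h1] at h2
  have h3 : Integrable (fun x => |⟪a - b, x⟫| + |⟪a - c, x⟫|) (stdGaussian E) :=
    ((integrable_inner_left _).abs).add (integrable_inner_left _).abs
  rw [integral_div, integral_add h3 (integrable_inner_left _).abs,
    integral_add (integrable_inner_left _).abs (integrable_inner_left _).abs,
    integral_abs_inner, integral_abs_inner, integral_abs_inner] at h2
  linarith

variable {ι : Type*}

/-- `F z = E max_i ⟪z i, x⟫` -/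
noncomputable def F (z : ι → E) : ℝ := ∫ x, mx z x ∂stdGaussian E

lemma integrable_mx [Finite ι] [Nonempty ι] (z : ι → E) : Integrable (mx z) (stdGaussian E) := by
  cases nonempty_fintype ι
  exact integrable_of_lipschitz (lipschitz_mx z)

lemma F_sub_const [Finite ι] [Nonempty ι] (z : ι → E) (v : E) : F (fun i => z i - v) = F z := by
  have h : ∀ x, mx (fun i => z i - v) x = mx z x + ⟪-v, x⟫ := fun x =>
    mx_eq_add fun i => by rw [inner_sub_left, inner_neg_left]; ring
  unfold F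
  simp_rw [h]
  rw [integral_add (integrable_mx z) (integrable_inner_left _), integral_inner_left, add_zero]

omit [BorelSpace E] in
lemma F_smul [Finite ι] [Nonempty ι] (z : ι → E) {a : ℝ} (ha : 0 ≤ a) :
    F (fun i => a • z i) = a * F z := by
  have h : ∀ x, mx (fun i => a • z i) x = a * mx z x := fun x =>
    mx_eq_mul ha fun i => real_inner_smul_left _ _ _
  unfold F
  simp_rw [h]
  rw [integral_const_mul]

lemma F_nonneg [Finite ι] [Nonempty ι] (z : ι → E) : 0 ≤ F z := by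
  obtain ⟨i⟩ := ‹Nonempty ι›
  rw [← integral_inner_left (z i)]
  exact integral_mono (integrable_inner_left _) (integrable_mx z) fun x => le_mx z x i

lemma continuous_F [Fintype ι] [Nonempty ι] : Continuous (F : (ι → E) → ℝ) := by
  set m := ∫ x : E, ‖x‖ ∂stdGaussian E
  have hle : ∀ z w : ι → E, F z ≤ F w + (∑ i, ‖z i - w i‖) * m := by
    intro z w
    unfold F
    rw [← integral_const_mul, ← integral_add (integrable_mx w)
      (integrable_norm_stdGaussian.const_mul _)]
    exact integral_mono (integrable_mx z)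
      ((integrable_mx w).add (integrable_norm_stdGaussian.const_mul _)) fun x => mx_le_add z w x
  refine continuous_iff_continuousAt.2 fun w => ?_
  have h1 : Tendsto (fun z : ι → E => (∑ i, ‖z i - w i‖) * m) (𝓝 w) (𝓝 0) := by
    have : Continuous (fun z : ι → E => (∑ i, ‖z i - w i‖) * m) := by fun_prop
    simpa using this.tendsto w
  refine tendsto_of_tendsto_of_tendsto_of_le_of_le (g := fun z => F w - (∑ i, ‖z i - w i‖) * m)
    (h := fun z => F w + (∑ i, ‖z i - w i‖) * m) (by simpa using h1.const_sub (F w))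
    (by simpa using h1.const_add (F w)) (fun z => ?_) (fun z => hle z w)
  have := hle w z
  simp_rw [norm_sub_rev (w _)] at this
  simp only
  linarith

omit [FiniteDimensional ℝ E] [MeasurableSpace E] [BorelSpace E] in
lemma sum_norm_sub_mean_sq (s : Finset ι) (z : ι → E) (hs : s.Nonempty) :
    ∑ i ∈ s, ‖z i - (s.card : ℝ)⁻¹ • ∑ j ∈ s, z j‖ ^ 2
      = ∑ i ∈ s, ‖z i‖ ^ 2 - ‖∑ j ∈ s, z j‖ ^ 2 / s.card := by
  have hc : (s.card : ℝ) ≠ 0 := by exact_mod_cast hs.card_pos.ne'
  simp_rw [norm_sub_sq_real]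
  rw [Finset.sum_add_distrib, Finset.sum_sub_distrib, ← Finset.mul_sum, ← sum_inner,
    real_inner_smul_right, real_inner_self_eq_norm_sq, Finset.sum_const, norm_smul, nsmul_eq_mul,
    mul_pow, norm_inv, Real.norm_natCast]
  field_simp
  ring

/-- a bound on `F` improves automatically to the centred bound -/
lemma F_le_centered [Fintype ι] [Nonempty ι] {C : ℝ}
    (h : ∀ w : ι → E, F w ≤ C * √(∑ i, ‖w i‖ ^ 2)) (z : ι → E) :
    F z ≤ C * √(∑ i, ‖z i‖ ^ 2 - ‖∑ j, z j‖ ^ 2 / Fintype.card ι) := by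
  have := h (fun i => z i - ((Finset.univ : Finset ι).card : ℝ)⁻¹ • ∑ j, z j)
  rw [F_sub_const, sum_norm_sub_mean_sq _ _ Finset.univ_nonempty] at this
  exact this

variable (E) in
/-- the key inequality for the index type `ι` -/
def Key (ι : Type*) [Fintype ι] : Prop := ∀ z : ι → E, F z ≤ √c2 * √(∑ i, ‖z i‖ ^ 2)

lemma F_three [Finite ι] (z : ι → E) {a b c : ι} (h : ∀ l, l = a ∨ l = b ∨ l = c) :
    F z = phi 0 / 2 * (‖z a - z b‖ + ‖z a - z c‖ + ‖z b - z c‖) := by
  have : Nonempty ι := ⟨a⟩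
  rw [← integral_max_three]
  unfold F
  congr 1
  ext x
  apply le_antisymm
  · refine mx_le fun l => ?_
    rcases h l with rfl | rfl | rfl
    · exact le_max_left _ _
    · exact (le_max_left _ _).trans (le_max_right _ _)
    · exact (le_max_right _ _).trans (le_max_right _ _)
  · exact max_le (le_mx z x a) (max_le (le_mx z x b) (le_mx z x c))

lemma sqrt_c2 : √c2 = 3 / 2 * phi 0 := by
  have h : c2 = (3 / 2 * phi 0) ^ 2 := by
    rw [mul_pow, phi_zero_sq, c2]; field_simp; norm_num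
  rw [h, Real.sqrt_sq (by have := phi_pos 0; positivity)]

lemma c2_pos : 0 < c2 := by unfold c2; have := Real.pi_pos; positivity

theorem key_three [Fintype ι] (h : Fintype.card ι = 3) : Key E ι := by
  classical
  obtain ⟨a, b, c, hab, hac, hbc, hu⟩ := Finset.card_eq_three.1 h
  intro z
  have hall : ∀ l, l = a ∨ l = b ∨ l = c := by
    intro l
    have : l ∈ ({a, b, c} : Finset ι) := hu ▸ Finset.mem_univ l
    simpa using this
  rw [F_three z hall, sqrt_c2, hu, Finset.sum_insert (by simp [hab, hac]),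
    Finset.sum_insert (by simp [hbc]), Finset.sum_singleton]
  have hp := phi_pos 0
  have key : ‖z a - z b‖ + ‖z a - z c‖ + ‖z b - z c‖
      ≤ 3 * √(‖z a‖ ^ 2 + (‖z b‖ ^ 2 + ‖z c‖ ^ 2)) := by
    have h1 : ‖z a - z b‖ ^ 2 + ‖z a - z c‖ ^ 2 + ‖z b - z c‖ ^ 2
        ≤ 3 * (‖z a‖ ^ 2 + (‖z b‖ ^ 2 + ‖z c‖ ^ 2)) := by
      have h2 := sq_nonneg ‖z a + z b + z c‖
      rw [norm_add_sq_real, norm_add_sq_real, inner_add_left] at h2
      simp only [norm_sub_sq_real]
      linarith
    have h3 : (‖z a - z b‖ + ‖z a - z c‖ + ‖z b - z c‖) / 3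
        ≤ √(‖z a‖ ^ 2 + (‖z b‖ ^ 2 + ‖z c‖ ^ 2)) := by
      apply Real.le_sqrt_of_sq_le
      nlinarith [sq_nonneg (‖z a - z b‖ - ‖z a - z c‖), sq_nonneg (‖z a - z b‖ - ‖z b - z c‖),
        sq_nonneg (‖z a - z c‖ - ‖z b - z c‖)]
    linarith
  nlinarith

end Crest.Agent.R215
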