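import Crest.Agent.R215.Basic

/-! Analytic lemmas behind the numerical case analysis. -/

set_option autoImplicit false
open Real Set Filter Topology

namespace Crest.Agent.R215

/-- `Y t = phi t * H t` -/
noncomputable def Y (t : ℝ) : ℝ := phi t * H t

/-- `J t = t H t + Q t`, so that `Y' = - phi J` -/
noncomputable def J (t : ℝ) : ℝ := t * H t + Q t

lemma hasDerivAt_Y (t : ℝ) : HasDerivAt Y (-(phi t * J t)) t := by
  unfold Y J
  exact ((hasDerivAt_phi t).fun_mul (hasDerivAt_H t)).congr_deriv (by ring)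

lemma hasDerivAt_J (t : ℝ) : HasDerivAt J (-(2 * t * Q t)) t := by
  unfold J
  exact (((hasDerivAt_id' t).fun_mul (hasDerivAt_H t)).fun_add (hasDerivAt_Q t)).congr_deriv
    (by unfold H; ring)

lemma antitoneOn_J : AntitoneOn J (Ici 0) := by
  refine antitoneOn_of_deriv_nonpos (convex_Ici 0)
    (fun x _ => (hasDerivAt_J x).continuousAt.continuousWithinAt)
    (fun x _ => (hasDerivAt_J x).differentiableAt.differentiableWithinAt) fun x hx => ?_
  rw [(hasDerivAt_J x).deriv]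
  have hx' : 0 ≤ x := mem_Ici.1 (interior_subset hx)
  have := Q_pos x
  have : 0 ≤ 2 * x * Q x := by positivity
  linarith

lemma antitoneOn_Y : AntitoneOn Y (Ici 0) := by
  refine antitoneOn_of_deriv_nonpos (convex_Ici 0)
    (fun x _ => (hasDerivAt_Y x).continuousAt.continuousWithinAt)
    (fun x _ => (hasDerivAt_Y x).differentiableAt.differentiableWithinAt) fun x hx => ?_
  rw [(hasDerivAt_Y x).deriv]
  have hx' : 0 ≤ x := mem_Ici.1 (interior_subset hx)
  have := Q_pos x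
  have := phi_pos x
  have := H_nonneg x
  have : 0 ≤ phi x * J x := by unfold J; positivity
  linarith

lemma tendsto_Y_atTop : Tendsto Y atTop (𝓝 0) := by
  have := tendsto_phi_atTop.mul tendsto_H_atTop
  rw [mul_zero] at this
  exact this

lemma hasDerivAt_G (A B t : ℝ) :
    HasDerivAt (fun t => A * Q t - B * Y t) (phi t * (B * J t - A)) t :=
  (((hasDerivAt_Q t).const_mul A).fun_sub ((hasDerivAt_Y t).const_mul B)).congr_deriv (by ring)

/-- `A Q - B Y` is unimodal on `[0, ∞)` -/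
lemma unimodal (A : ℝ) {B : ℝ} (hB : 0 ≤ B) {s t : ℝ} (hs : 0 ≤ s) (hst : s ≤ t) :
    A * Q s - B * Y s ≤ A * Q t - B * Y t ∨
      ∀ u, t ≤ u → A * Q u - B * Y u ≤ A * Q t - B * Y t := by
  have hc : Continuous fun t => A * Q t - B * Y t :=
    continuous_iff_continuousAt.2 fun t => (hasDerivAt_G A B t).continuousAt
  rcases le_total A (B * J t) with h | h
  · left
    have : MonotoneOn (fun t => A * Q t - B * Y t) (Icc s t) := by
      refine monotoneOn_of_deriv_nonneg (convex_Icc s t) hc.continuousOn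
        (fun x _ => (hasDerivAt_G A B x).differentiableAt.differentiableWithinAt) fun x hx => ?_
      rw [(hasDerivAt_G A B x).deriv]
      have hx' : x ∈ Icc s t := interior_subset hx
      have h1 : J t ≤ J x := antitoneOn_J (hs.trans hx'.1) (hs.trans hst) hx'.2
      have h2 := mul_le_mul_of_nonneg_left h1 hB
      exact mul_nonneg (phi_pos x).le (by linarith)
    exact this (left_mem_Icc.2 hst) (right_mem_Icc.2 hst) hst
  · right
    intro u hu
    have : AntitoneOn (fun t => A * Q t - B * Y t) (Ici t) := by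
      refine antitoneOn_of_deriv_nonpos (convex_Ici t) hc.continuousOn
        (fun x _ => (hasDerivAt_G A B x).differentiableAt.differentiableWithinAt) fun x hx => ?_
      rw [(hasDerivAt_G A B x).deriv]
      have hx' : t ≤ x := mem_Ici.1 (interior_subset hx)
      have h1 : J x ≤ J t := antitoneOn_J (hs.trans hst) ((hs.trans hst).trans hx') hx'
      have h2 := mul_le_mul_of_nonneg_left h1 hB
      exact mul_nonpos_of_nonneg_of_nonpos (phi_pos x).le (by linarith)
    exact this self_mem_Ici hu hu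

lemma star_ineq (A : ℝ) {B : ℝ} (hB : 0 ≤ B) {s t : ℝ} (hs : 0 ≤ s) (hst : s ≤ t)
    (h : B * Y s ≤ A * Q s) : B * Y t ≤ A * Q t := by
  rcases unimodal A hB hs hst with h1 | h1
  · linarith
  · have h2 : Tendsto (fun u => A * Q u - B * Y u) atTop (𝓝 0) := by
      simpa using (tendsto_Q_atTop.const_mul A).sub (tendsto_Y_atTop.const_mul B)
    have := le_of_tendsto h2 ((eventually_ge_atTop t).mono h1)
    linarith

/-- weak form of `CellY` -/
def CW (y a : ℝ) : Prop := 1 / 2 ≤ a ∨ ∃ t, 0 ≤ t ∧ a = Q t ∧ y ≤ Y t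

lemma CellY.cw {y a : ℝ} (h : CellY y a) : CW y a := by
  obtain ⟨t, h1, h2⟩ := h
  rcases le_total 0 t with ht | ht
  · exact Or.inr ⟨t, ht, h1, h2⟩
  · left; rw [h1, ← Q_zero]; exact antitone_Q ht

lemma CW.mono {y y' a : ℝ} (h : CW y a) (hy : y' ≤ y) : CW y' a := by
  rcases h with h | ⟨t, h0, h1, h2⟩
  · exact Or.inl h
  · exact Or.inr ⟨t, h0, h1, hy.trans h2⟩

lemma CW.pos {y a : ℝ} (h : CW y a) : 0 < a := by
  rcases h with h | ⟨t, _, h1, _⟩
  · linarith
  · rw [h1]; exact Q_pos t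

lemma Q_le_half {s : ℝ} (hs : 0 ≤ s) : Q s ≤ 1 / 2 := Q_zero ▸ antitone_Q hs

/-- numerical data at a node -/
structure Node (s q Yb : ℝ) : Prop where
  hs : 0 ≤ s
  hq : q ≤ Q s
  hY : Y s < Yb

lemma CW.top {y a s q Yb : ℝ} (h : CW y a) (n : Node s q Yb) (hy : Yb ≤ y) : q ≤ a := by
  rcases h with h | ⟨t, h0, h1, h2⟩
  · linarith [Q_le_half n.hs, n.hq]
  · rcases le_total t s with hts | hts
    · linarith [antitone_Q hts, n.hq]
    · linarith [antitoneOn_Y n.hs h0 hts, n.hY]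

lemma CW.inf {y a s q Yb β : ℝ} (h : CW y a) (n : Node s q Yb) (hβ : 0 ≤ β) (hq : β * Yb ≤ q)
    (hy : y ≤ Yb) : β * y ≤ a := by
  have h3 := mul_le_mul_of_nonneg_left hy hβ
  rcases h with h | ⟨t, h0, h1, h2⟩
  · linarith [Q_le_half n.hs, n.hq]
  · rcases le_total t s with hts | hts
    · linarith [antitone_Q hts, n.hq]
    · have h4 := mul_le_mul_of_nonneg_left n.hY.le hβ
      have h5 := star_ineq 1 hβ n.hs hts (by linarith [n.hq])
      have h6 := mul_le_mul_of_nonneg_left h2 hβ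
      linarith

lemma CW.chord {y a s1 q1 Y1 s2 q2 Y2 α β : ℝ} (h : CW y a) (n1 : Node s1 q1 Y1)
    (n2 : Node s2 q2 Y2) (hβ : 0 ≤ β) (hq1 : α + β * Y1 ≤ q1) (hq2 : α + β * Y2 ≤ q2)
    (hy1 : y ≤ Y1) (hy2 : Y2 ≤ y) : α + β * y ≤ a := by
  have h3 := mul_le_mul_of_nonneg_left hy1 hβ
  rcases h with h | ⟨t, h0, h1, h2⟩
  · linarith [Q_le_half n1.hs, n1.hq]
  · rcases le_total t s1 with hts | hts
    · linarith [antitone_Q hts, n1.hq]
    · rcases le_total t s2 with hts2 | hts2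
      · have h4 := mul_le_mul_of_nonneg_left n1.hY.le hβ
        have h5 := mul_le_mul_of_nonneg_left n2.hY.le hβ
        have h6 := mul_le_mul_of_nonneg_left h2 hβ
        rcases unimodal 1 hβ n1.hs hts with h7 | h7
        · linarith [n1.hq]
        · linarith [h7 s2 hts2, n2.hq]
      · linarith [antitoneOn_Y n2.hs h0 hts2, n2.hY]

/-- several cells may be merged into one virtual cell -/
lemma CW.sum {ι : Type*} (R : Finset ι) (hR : R.Nonempty) (y a : ι → ℝ)
    (h : ∀ j ∈ R, CW (y j) (a j)) : CW (∑ j ∈ R, y j) (∑ j ∈ R, a j) := by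
  by_cases hh : 1 / 2 ≤ ∑ j ∈ R, a j
  · exact Or.inl hh
  have hlt := not_le.1 hh
  have hpos : 0 < ∑ j ∈ R, a j := Finset.sum_pos (fun j hj => (h j hj).pos) hR
  obtain ⟨s, hs⟩ := exists_Q_eq hpos (by linarith)
  have hs0 : 0 ≤ s := by
    by_contra hn
    have := antitone_Q (not_le.1 hn).le
    rw [Q_zero] at this
    linarith
  refine Or.inr ⟨s, hs0, hs.symm, ?_⟩
  have h1 : ∀ j ∈ R, Q s * y j ≤ Y s * a j := by
    intro j hj
    have h2 : a j ≤ ∑ j ∈ R, a j := Finset.single_le_sum (fun j hj => (h j hj).pos.le) hj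
    rcases h j hj with h3 | ⟨t, _, h3, h4⟩
    · linarith
    · have h5 : s ≤ t := strictAnti_Q.le_iff_ge.1 (by rw [← h3, hs]; exact h2)
      have h6 := star_ineq (Y s) (Q_pos s).le hs0 h5 (by rw [mul_comm])
      have h7 := mul_le_mul_of_nonneg_left h4 (Q_pos s).le
      rw [h3]; linarith
  have h8 := Finset.sum_le_sum h1
  rw [← Finset.mul_sum, ← Finset.mul_sum, ← hs, mul_comm] at h8
  exact le_of_mul_le_mul_right h8 (Q_pos s)

lemma CellX.chord {x a : ℝ} (h : CellX x a) {r r' s Hs : ℝ} (h1 : r ^ 2 ≤ x) (h2 : x ≤ r' ^ 2)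
    (hr : 0 ≤ r) (hr' : 0 ≤ r') (hH : H s ≤ Hs) : x + r * r' ≤ (r + r') * (Hs + s * a) := by
  have hx : 0 ≤ x := (sq_nonneg r).trans h1
  have h3 : r ≤ √x := Real.le_sqrt_of_sq_le h1
  have h4 : √x ≤ r' := Real.sqrt_le_iff.2 ⟨hr', h2⟩
  have h5 := Real.mul_self_sqrt hx
  have h6 : √x ≤ Hs + s * a := by linarith [h s]
  have h7 := mul_le_mul_of_nonneg_left h6 (add_nonneg hr hr')
  nlinarith [mul_nonneg (sub_nonneg.2 h3) (sub_nonneg.2 h4)]

/-! ### Taylor bounds -/

/-- Taylor polynomial of `exp (-u)` -/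
noncomputable def Tay (n : ℕ) (u : ℝ) : ℝ := ∑ k ∈ Finset.range (n + 1), (-u) ^ k / k.factorial

lemma hasDerivAt_Tay (n : ℕ) (u : ℝ) : HasDerivAt (Tay (n + 1)) (-Tay n u) u := by
  unfold Tay
  have h : ∀ v : ℝ, ∑ k ∈ Finset.range (n + 1 + 1), (-v) ^ k / k.factorial
      = ∑ k ∈ Finset.range (n + 1), (-v) ^ (k + 1) / (k + 1).factorial + 1 := by
    intro v; rw [Finset.sum_range_succ']; simp
  simp_rw [h]
  rw [← Finset.sum_neg_distrib]
  refine HasDerivAt.add_const _ (HasDerivAt.fun_sum fun k _ => ?_)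
  have h1 := (((hasDerivAt_id' u).fun_neg).fun_pow (k + 1)).div_const ((k + 1).factorial : ℝ)
  refine h1.congr_deriv ?_
  rw [Nat.factorial_succ]
  push_cast
  have : (k.factorial : ℝ) ≠ 0 := by positivity
  field_simp

lemma Tay_sign (n : ℕ) : ∀ u : ℝ, 0 ≤ u → 0 ≤ (-1) ^ n * (Tay n u - Real.exp (-u)) := by
  induction n with
  | zero =>
    intro u hu
    have : Real.exp (-u) ≤ 1 := Real.exp_le_one_iff.2 (by linarith)
    simp [Tay, this]
  | succ n ih =>
    intro u hu
    have hd : ∀ v, HasDerivAt (fun v => (-1 : ℝ) ^ (n + 1) * (Tay (n + 1) v - Real.exp (-v)))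
        ((-1) ^ n * (Tay n v - Real.exp (-v))) v := by
      intro v
      exact (((hasDerivAt_Tay n v).fun_sub (hasDerivAt_id' v).fun_neg.exp).const_mul _).congr_deriv
        (by ring)
    have : MonotoneOn (fun v => (-1 : ℝ) ^ (n + 1) * (Tay (n + 1) v - Real.exp (-v))) (Ici 0) := by
      refine monotoneOn_of_deriv_nonneg (convex_Ici 0)
        (fun x _ => (hd x).continuousAt.continuousWithinAt)
        (fun x _ => (hd x).differentiableAt.differentiableWithinAt) fun x hx => ?_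
      rw [(hd x).deriv]
      exact ih x (mem_Ici.1 (interior_subset hx))
    have h0 := this self_mem_Ici hu hu
    have h1 : Tay (n + 1) 0 = 1 := by simp [Tay, Finset.sum_range_succ']
    simpa [h1] using h0

lemma exp_le_Tay {u : ℝ} (hu : 0 ≤ u) : Real.exp (-u) ≤ Tay 14 u := by
  have := Tay_sign 14 u hu
  norm_num at this
  linarith

/-- rational upper bound for `phi 0` -/
lemma phi_zero_le : phi 0 ≤ 3989424 / 10000000 := by
  have h1 := phi_zero_sq
  have h2 := Real.pi_gt_d6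
  have h3 : 1 / (2 * π) ≤ (3989424 / 10000000 : ℝ) ^ 2 := by
    rw [div_le_iff₀ (by positivity)]; nlinarith
  exact (abs_le_of_sq_le_sq' (by rw [h1]; exact h3) (by norm_num)).2

lemma c2_ge : 358098 / 1000000 ≤ c2 := by
  unfold c2
  rw [le_div_iff₀ (by positivity)]
  linarith [Real.pi_lt_d6]

lemma c2_le : c2 ≤ 358099 / 1000000 := by
  unfold c2
  rw [div_le_iff₀ (by positivity)]
  linarith [Real.pi_gt_d6]

lemma phi_eq_mul (s : ℝ) : phi s = phi 0 * Real.exp (-(s ^ 2 / 2)) := by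
  simp [phi, neg_div]

lemma phi_le_Tay (s : ℝ) : phi s ≤ 3989424 / 10000000 * Tay 14 (s ^ 2 / 2) := by
  rw [phi_eq_mul]
  exact mul_le_mul phi_zero_le (exp_le_Tay (by positivity)) (Real.exp_pos _).le (by norm_num)

/-- antiderivative of `Tay 14 (s ^ 2 / 2)` -/
noncomputable def Pol (s : ℝ) : ℝ :=
  ∑ k ∈ Finset.range 15, (-1) ^ k * s ^ (2 * k + 1) / (2 ^ k * k.factorial * (2 * k + 1))

lemma hasDerivAt_Pol (s : ℝ) : HasDerivAt Pol (Tay 14 (s ^ 2 / 2)) s := by
  unfold Pol Tay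
  refine HasDerivAt.fun_sum fun k _ => ?_
  refine (((hasDerivAt_pow (2 * k + 1) s).const_mul ((-1 : ℝ) ^ k)).div_const _).congr_deriv ?_
  have : (k.factorial : ℝ) ≠ 0 := by positivity
  rw [neg_pow (s ^ 2 / 2), div_pow, ← pow_mul]
  push_cast
  field_simp

lemma Q_ge_Pol {s : ℝ} (hs : 0 ≤ s) : 1 / 2 - 3989424 / 10000000 * Pol s ≤ Q s := by
  have hd : ∀ v, HasDerivAt (fun v => Q v + 3989424 / 10000000 * Pol v)
      (-phi v + 3989424 / 10000000 * Tay 14 (v ^ 2 / 2)) v := fun v =>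
    (hasDerivAt_Q v).fun_add ((hasDerivAt_Pol v).const_mul _)
  have : Monotone (fun v => Q v + 3989424 / 10000000 * Pol v) :=
    monotone_of_deriv_nonneg (fun x => (hd x).differentiableAt) fun x => by
      rw [(hd x).deriv]; linarith [phi_le_Tay x]
  have h0 := this hs
  have h1 : Pol 0 = 0 := by simp [Pol]
  simp only [h1, Q_zero] at h0
  linarith

lemma H_le_of {s p q : ℝ} (hs : 0 ≤ s) (hp : 3989424 / 10000000 * Tay 14 (s ^ 2 / 2) ≤ p)
    (hq : q ≤ 1 / 2 - 3989424 / 10000000 * Pol s) : H s ≤ p - s * q := by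
  have h1 := (phi_le_Tay s).trans hp
  have h2 := mul_le_mul_of_nonneg_left (hq.trans (Q_ge_Pol hs)) hs
  unfold H; linarith

lemma node_of {s p q Yb : ℝ} (hs : 0 ≤ s) (hp : 3989424 / 10000000 * Tay 14 (s ^ 2 / 2) ≤ p)
    (hq : q ≤ 1 / 2 - 3989424 / 10000000 * Pol s) (hY : p * (p - s * q) < Yb) : Node s q Yb := by
  refine ⟨hs, hq.trans (Q_ge_Pol hs), lt_of_le_of_lt ?_ hY⟩
  have h1 := (phi_le_Tay s).trans hp
  exact mul_le_mul h1 (H_le_of hs hp hq) (H_nonneg s) ((phi_pos s).le.trans h1)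

end Crest.Agent.R215
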