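import Crest.Agent.R215.Num1

/-! The finite systems of inequalities that are refuted by branch and bound. -/

set_option autoImplicit false

namespace Crest.Agent.R215

/-- deletion bounds (tangent lines with `τ = 1, 0.93, 0.87, 0.81`) -/
structure Del (c x y : ℝ) : Prop where
  t0 : x / 2 ≤ y
  t1 : x * (50 / 93) - c * (49 / 18600) ≤ y
  t2 : x * (50 / 87) - c * (169 / 17400) ≤ y
  t3 : x * (50 / 81) - c * (361 / 16200) ≤ y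

lemma Del.mono {c x y x' : ℝ} (h : Del c x y) (hx : x' ≤ x) : Del c x' y :=
  ⟨by linarith [h.t0], by linarith [h.t1], by linarith [h.t2], by linarith [h.t3]⟩

lemma Del.min {c x y y' : ℝ} (h : Del c x y) (h' : Del c x y') : Del c x (min y y') :=
  ⟨le_min h.t0 h'.t0, le_min h.t1 h'.t1, le_min h.t2 h'.t2, le_min h.t3 h'.t3⟩

/-- perimeter bounds for four cells -/
structure Per (S x4 x y : ℝ) : Prop where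
  q0 : 3 / 4 * (S - 3989424 / 20000000 * ((3 * S - 4 * x) * (50 / 57)
    + (S + 3 * x4 - x) * (100 / 77 - 50 / 57) + 57 / 200 + 77 / 200)) ≤ y
  q1 : 3 / 4 * (S - 3989424 / 20000000 * ((3 * S - 4 * x) * (25 / 27)
    + (S + 3 * x4 - x) * (50 / 41 - 25 / 27) + 27 / 100 + 41 / 100)) ≤ y

lemma Per.mono {S x4 x y x' : ℝ} (h : Per S x4 x y) (hx : x' ≤ x) : Per S x4 x' y :=
  ⟨by linarith [h.q0], by linarith [h.q1]⟩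

lemma Per.min {S x4 x y y' : ℝ} (h : Per S x4 x y) (h' : Per S x4 x y') : Per S x4 x (min y y') :=
  ⟨le_min h.q0 h'.q0, le_min h.q1 h'.q1⟩

/-- the system for at least five cells -/
structure Ctx5 (x1 x2 x3 x4 y1 y2 y3 y4 a1 a2 a3 a4 e xs ae : ℝ) : Prop where
  o1 : x2 ≤ x1
  o2 : x3 ≤ x2
  o3 : x4 ≤ x3
  p1 : y2 ≤ y1
  p2 : y3 ≤ y2
  p3 : y4 ≤ y3
  top : x1 ≤ 159156 / 1000000
  C1 : CW y1 a1
  C2 : CW y2 a2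
  C3 : CW y3 a3
  C4 : CW y4 a4
  X1 : CellX x1 a1
  X2 : CellX x2 a2
  X3 : CellX x3 a3
  D1 : Del (358099 / 1000000) x1 y1
  D2 : Del (358099 / 1000000) x2 y2
  D3 : Del (358099 / 1000000) x3 y3
  D4 : Del (358099 / 1000000) x4 y4
  S : 358098 / 1000000 ≤ x1 + x2 + x3 + x4 + e
  o4 : xs ≤ x4
  oe : xs ≤ e
  n_xs : 0 ≤ xs
  L3 : x3 ≤ 10 * xs + x4 + e
  L4 : x3 + x4 ≤ 18 * xs + e
  Ce : CW (e / 2) ae
  star : ∀ Yb β : ℝ, (∀ y a, CW y a → y ≤ Yb → β * y ≤ a) → y4 ≤ Yb → β * (e / 2) ≤ ae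
  sum : a1 + a2 + a3 + a4 + ae = 1

/-- the system for four cells -/
structure Ctx4 (x1 x2 x3 x4 y1 y2 y3 y4 a1 a2 a3 a4 : ℝ) : Prop where
  o1 : x2 ≤ x1
  o2 : x3 ≤ x2
  o3 : x4 ≤ x3
  p1 : y2 ≤ y1
  p2 : y3 ≤ y2
  p3 : y4 ≤ y3
  top : x1 ≤ 159156 / 1000000
  C1 : CW y1 a1
  C2 : CW y2 a2
  C3 : CW y3 a3
  C4 : CW y4 a4
  X1 : CellX x1 a1
  X2 : CellX x2 a2
  X3 : CellX x3 a3
  D1 : Del (358099 / 1000000 * (3 / 4)) x1 y1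
  D2 : Del (358099 / 1000000 * (3 / 4)) x2 y2
  D3 : Del (358099 / 1000000 * (3 / 4)) x3 y3
  D4 : Del (358099 / 1000000 * (3 / 4)) x4 y4
  P1 : Per (x1 + x2 + x3 + x4) x4 x1 y1
  P2 : Per (x1 + x2 + x3 + x4) x4 x2 y2
  P3 : Per (x1 + x2 + x3 + x4) x4 x3 y3
  S : 358098 / 1000000 ≤ x1 + x2 + x3 + x4
  n_x4 : 0 ≤ x4
  L3 : x3 ≤ 11 * x4
  sum : a1 + a2 + a3 + a4 = 1

namespace Ctx5
variable {x1 x2 x3 x4 y1 y2 y3 y4 a1 a2 a3 a4 e xs ae : ℝ}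
  (c : Ctx5 x1 x2 x3 x4 y1 y2 y3 y4 a1 a2 a3 a4 e xs ae)
include c

lemma n_x4 : 0 ≤ x4 := c.n_xs.trans c.o4
lemma n_e : 0 ≤ e := c.n_xs.trans c.oe
lemma n_ae : 0 ≤ ae := c.Ce.pos.le
lemma n_x3 : 0 ≤ x3 := c.n_x4.trans c.o3
lemma n_x2 : 0 ≤ x2 := c.n_x3.trans c.o2
lemma n_x1 : 0 ≤ x1 := c.n_x2.trans c.o1
lemma n_y1 : 0 ≤ y1 := by linarith [c.D1.t0, c.n_x1]
lemma n_a1 : 0 ≤ a1 := c.C1.pos.le
lemma n_y2 : 0 ≤ y2 := by linarith [c.D2.t0, c.n_x2]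
lemma n_a2 : 0 ≤ a2 := c.C2.pos.le
lemma n_y3 : 0 ≤ y3 := by linarith [c.D3.t0, c.n_x3]
lemma n_a3 : 0 ≤ a3 := c.C3.pos.le
lemma n_y4 : 0 ≤ y4 := by linarith [c.D4.t0, c.n_x4]
lemma n_a4 : 0 ≤ a4 := c.C4.pos.le
lemma x1l : 0 ≤ x1 := c.n_x1
lemma x1u : x1 ≤ (4/25) := by linarith [c.top, c.o1, c.o2]
lemma x2l : 0 ≤ x2 := c.n_x2
lemma x2u : x2 ≤ (4/25) := by linarith [c.top, c.o1, c.o2]
lemma x3l : 0 ≤ x3 := c.n_x3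
lemma x3u : x3 ≤ (4/25) := by linarith [c.top, c.o1, c.o2]

end Ctx5

namespace Ctx4
variable {x1 x2 x3 x4 y1 y2 y3 y4 a1 a2 a3 a4 : ℝ}
  (c : Ctx4 x1 x2 x3 x4 y1 y2 y3 y4 a1 a2 a3 a4)
include c

lemma n_x3 : 0 ≤ x3 := c.n_x4.trans c.o3
lemma n_x2 : 0 ≤ x2 := c.n_x3.trans c.o2
lemma n_x1 : 0 ≤ x1 := c.n_x2.trans c.o1
lemma n_y1 : 0 ≤ y1 := by linarith [c.D1.t0, c.n_x1]
lemma n_a1 : 0 ≤ a1 := c.C1.pos.le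
lemma n_y2 : 0 ≤ y2 := by linarith [c.D2.t0, c.n_x2]
lemma n_a2 : 0 ≤ a2 := c.C2.pos.le
lemma n_y3 : 0 ≤ y3 := by linarith [c.D3.t0, c.n_x3]
lemma n_a3 : 0 ≤ a3 := c.C3.pos.le
lemma n_y4 : 0 ≤ y4 := by linarith [c.D4.t0, c.n_x4]
lemma n_a4 : 0 ≤ a4 := c.C4.pos.le
lemma x1l : 0 ≤ x1 := c.n_x1
lemma x1u : x1 ≤ (4/25) := by linarith [c.top, c.o1, c.o2]
lemma x2l : 0 ≤ x2 := c.n_x2
lemma x2u : x2 ≤ (4/25) := by linarith [c.top, c.o1, c.o2]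
lemma x3l : 0 ≤ x3 := c.n_x3
lemma x3u : x3 ≤ (4/25) := by linarith [c.top, c.o1, c.o2]

end Ctx4

end Crest.Agent.R215
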