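import Crest.Agent.R215.Num2

/-! Generated numerical lemmas (nodes, chords). -/

set_option autoImplicit false
set_option linter.unusedVariables false
set_option linter.style.longLine false

namespace Crest.Agent.R215

lemma nd_0 : Node 0 (1/2) (39789/250000) :=
  node_of (p := (249339/625000)) (by norm_num) (by norm_num [Tay, Finset.sum_range_succ, Nat.factorial])
    (by norm_num [Pol, Finset.sum_range_succ, Nat.factorial]) (by norm_num)

lemma nd_1 : Node (3/10) (764177/2000000) (5087/50000) :=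
  node_of (p := (95347/250000)) (by norm_num) (by norm_num [Tay, Finset.sum_range_succ, Nat.factorial])
    (by norm_num [Pol, Finset.sum_range_succ, Nat.factorial]) (by norm_num)

lemma nd_2 : Node (2/5) (1722891/5000000) (1326/15625) :=
  node_of (p := (3682703/10000000)) (by norm_num) (by norm_num [Tay, Finset.sum_range_succ, Nat.factorial])
    (by norm_num [Pol, Finset.sum_range_succ, Nat.factorial]) (by norm_num)

lemma nd_3 : Node (1/2) (1542687/5000000) (34819/500000) :=
  node_of (p := (704131/2000000)) (by norm_num) (by norm_num [Tay, Finset.sum_range_succ, Nat.factorial])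
    (by norm_num [Pol, Finset.sum_range_succ, Nat.factorial]) (by norm_num)

lemma nd_4 : Node (3/5) (274253/1000000) (56207/1000000) :=
  node_of (p := (416531/1250000)) (by norm_num) (by norm_num [Tay, Finset.sum_range_succ, Nat.factorial])
    (by norm_num [Pol, Finset.sum_range_succ, Nat.factorial]) (by norm_num)

lemma nd_5 : Node (7/10) (483927/2000000) (8923/200000) :=
  node_of (p := (3122541/10000000)) (by norm_num) (by norm_num [Tay, Finset.sum_range_succ, Nat.factorial])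
    (by norm_num [Pol, Finset.sum_range_succ, Nat.factorial]) (by norm_num)

lemma nd_6 : Node (17/20) (123539/625000) (30571/1000000) :=
  node_of (p := (55597/200000)) (by norm_num) (by norm_num [Tay, Finset.sum_range_succ, Nat.factorial])
    (by norm_num [Pol, Finset.sum_range_succ, Nat.factorial]) (by norm_num)

lemma nd_7 : Node 1 (1586551/10000000) (63/3125) :=
  node_of (p := (604927/2500000)) (by norm_num) (by norm_num [Tay, Finset.sum_range_succ, Nat.factorial])
    (by norm_num [Pol, Finset.sum_range_succ, Nat.factorial]) (by norm_num)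

lemma nd_8 : Node (23/20) (625359/5000000) (1279/100000) :=
  node_of (p := (514841/2500000)) (by norm_num) (by norm_num [Tay, Finset.sum_range_succ, Nat.factorial])
    (by norm_num [Pol, Finset.sum_range_succ, Nat.factorial]) (by norm_num)

lemma nd_9 : Node (13/10) (968003/10000000) (7803/1000000) :=
  node_of (p := (1713687/10000000)) (by norm_num) (by norm_num [Tay, Finset.sum_range_succ, Nat.factorial])
    (by norm_num [Pol, Finset.sum_range_succ, Nat.factorial]) (by norm_num)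

lemma nd_10 : Node (7/5) (161513/2000000) (5491/1000000) :=
  node_of (p := (374319/2500000)) (by norm_num) (by norm_num [Tay, Finset.sum_range_succ, Nat.factorial])
    (by norm_num [Pol, Finset.sum_range_succ, Nat.factorial]) (by norm_num)

lemma nd_11 : Node (3/2) (66807/1000000) (949/250000) :=
  node_of (p := (1295177/10000000)) (by norm_num) (by norm_num [Tay, Finset.sum_range_succ, Nat.factorial])
    (by norm_num [Pol, Finset.sum_range_succ, Nat.factorial]) (by norm_num)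

lemma nd_12 : Node (8/5) (547991/10000000) (2579/1000000) :=
  node_of (p := (1109209/10000000)) (by norm_num) (by norm_num [Tay, Finset.sum_range_succ, Nat.factorial])
    (by norm_num [Pol, Finset.sum_range_succ, Nat.factorial]) (by norm_num)

lemma nd_13 : Node (9/5) (359301/10000000) (141/125000) :=
  node_of (p := (394751/5000000)) (by norm_num) (by norm_num [Tay, Finset.sum_range_succ, Nat.factorial])
    (by norm_num [Pol, Finset.sum_range_succ, Nat.factorial]) (by norm_num)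

lemma nd_14 : Node (21/10) (89321/5000000) (57/200000) :=
  node_of (p := (439837/10000000)) (by norm_num) (by norm_num [Tay, Finset.sum_range_succ, Nat.factorial])
    (by norm_num [Pol, Finset.sum_range_succ, Nat.factorial]) (by norm_num)

lemma hs_0 : H (1/4) ≤ (3866683/10000000) - (1/4) * (501617/1250000) :=
  H_le_of (by norm_num) (by norm_num [Tay, Finset.sum_range_succ, Nat.factorial])
    (by norm_num [Pol, Finset.sum_range_succ, Nat.factorial])

lemma hs_1 : H (7/20) ≤ (750481/2000000) - (7/20) * (3631693/10000000) :=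
  H_le_of (by norm_num) (by norm_num [Tay, Finset.sum_range_succ, Nat.factorial])
    (by norm_num [Pol, Finset.sum_range_succ, Nat.factorial])

lemma hs_2 : H (9/20) ≤ (3605271/10000000) - (9/20) * (3263551/10000000) :=
  H_le_of (by norm_num) (by norm_num [Tay, Finset.sum_range_succ, Nat.factorial])
    (by norm_num [Pol, Finset.sum_range_succ, Nat.factorial])

lemma hs_3 : H (11/20) ≤ (10717/31250) - (11/20) * (727899/2500000) :=
  H_le_of (by norm_num) (by norm_num [Tay, Finset.sum_range_succ, Nat.factorial])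
    (by norm_num [Pol, Finset.sum_range_succ, Nat.factorial])

lemma top_0 {y a : ℝ} (h : CW y a) (h2 : (39789/250000) ≤ y) : (1/2) ≤ a := h.top nd_0 h2

lemma top_1 {y a : ℝ} (h : CW y a) (h2 : (5087/50000) ≤ y) : (764177/2000000) ≤ a := h.top nd_1 h2

lemma top_2 {y a : ℝ} (h : CW y a) (h2 : (1326/15625) ≤ y) : (1722891/5000000) ≤ a := h.top nd_2 h2

lemma top_3 {y a : ℝ} (h : CW y a) (h2 : (34819/500000) ≤ y) : (1542687/5000000) ≤ a := h.top nd_3 h2

lemma top_4 {y a : ℝ} (h : CW y a) (h2 : (56207/1000000) ≤ y) : (274253/1000000) ≤ a := h.top nd_4 h2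

lemma top_5 {y a : ℝ} (h : CW y a) (h2 : (8923/200000) ≤ y) : (483927/2000000) ≤ a := h.top nd_5 h2

lemma top_6 {y a : ℝ} (h : CW y a) (h2 : (30571/1000000) ≤ y) : (123539/625000) ≤ a := h.top nd_6 h2

lemma top_7 {y a : ℝ} (h : CW y a) (h2 : (63/3125) ≤ y) : (1586551/10000000) ≤ a := h.top nd_7 h2

lemma top_8 {y a : ℝ} (h : CW y a) (h2 : (1279/100000) ≤ y) : (625359/5000000) ≤ a := h.top nd_8 h2

lemma top_9 {y a : ℝ} (h : CW y a) (h2 : (7803/1000000) ≤ y) : (968003/10000000) ≤ a := h.top nd_9 h2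

lemma top_10 {y a : ℝ} (h : CW y a) (h2 : (5491/1000000) ≤ y) : (161513/2000000) ≤ a := h.top nd_10 h2

lemma top_11 {y a : ℝ} (h : CW y a) (h2 : (949/250000) ≤ y) : (66807/1000000) ≤ a := h.top nd_11 h2

lemma top_12 {y a : ℝ} (h : CW y a) (h2 : (2579/1000000) ≤ y) : (547991/10000000) ≤ a := h.top nd_12 h2

lemma ch_0_1 {y a : ℝ} (h : CW y a) (h1 : y ≤ (39789/250000)) (h2 : (5087/50000) ≤ y) :
    (34631/200000) + (2567/1250) * y ≤ a :=
  h.chord nd_0 nd_1 (by norm_num) (by norm_num) (by norm_num) h1 h2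

lemma inf_0 {y a : ℝ} (h : CW y a) (h1 : y ≤ (39789/250000)) : (6283/2000) * y ≤ a :=
  h.inf nd_0 (by norm_num) (by norm_num) h1

lemma ch_1_2 {y a : ℝ} (h : CW y a) (h1 : y ≤ (5087/50000)) (h2 : (1326/15625) ≤ y) :
    (3119/20000) + (22227/10000) * y ≤ a :=
  h.chord nd_1 nd_2 (by norm_num) (by norm_num) (by norm_num) h1 h2

lemma inf_1 {y a : ℝ} (h : CW y a) (h1 : y ≤ (5087/50000)) : (7511/2000) * y ≤ a :=
  h.inf nd_1 (by norm_num) (by norm_num) h1

lemma ch_2_3 {y a : ℝ} (h : CW y a) (h1 : y ≤ (1326/15625)) (h2 : (34819/500000) ≤ y) :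
    (17963/125000) + (2367/1000) * y ≤ a :=
  h.chord nd_2 nd_3 (by norm_num) (by norm_num) (by norm_num) h1 h2

lemma ch_2_4 {y a : ℝ} (h : CW y a) (h1 : y ≤ (1326/15625)) (h2 : (56207/1000000) ≤ y) :
    (136321/1000000) + (1227/500) * y ≤ a :=
  h.chord nd_2 nd_4 (by norm_num) (by norm_num) (by norm_num) h1 h2

lemma ch_2_5 {y a : ℝ} (h : CW y a) (h1 : y ≤ (1326/15625)) (h2 : (8923/200000) ≤ y) :
    (64111/500000) + (12747/5000) * y ≤ a :=
  h.chord nd_2 nd_5 (by norm_num) (by norm_num) (by norm_num) h1 h2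

lemma inf_2 {y a : ℝ} (h : CW y a) (h1 : y ≤ (1326/15625)) : (40603/10000) * y ≤ a :=
  h.inf nd_2 (by norm_num) (by norm_num) h1

lemma ch_3_4 {y a : ℝ} (h : CW y a) (h1 : y ≤ (34819/500000)) (h2 : (56207/1000000) ≤ y) :
    (130779/1000000) + (12763/5000) * y ≤ a :=
  h.chord nd_3 nd_4 (by norm_num) (by norm_num) (by norm_num) h1 h2

lemma ch_3_5 {y a : ℝ} (h : CW y a) (h1 : y ≤ (34819/500000)) (h2 : (8923/200000) ≤ y) :
    (24653/200000) + (5321/2000) * y ≤ a :=
  h.chord nd_3 nd_5 (by norm_num) (by norm_num) (by norm_num) h1 h2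

lemma inf_3 {y a : ℝ} (h : CW y a) (h1 : y ≤ (34819/500000)) : (8861/2000) * y ≤ a :=
  h.inf nd_3 (by norm_num) (by norm_num) h1

lemma ch_4_5 {y a : ℝ} (h : CW y a) (h1 : y ≤ (56207/1000000)) (h2 : (8923/200000) ≤ y) :
    (29423/250000) + (13927/5000) * y ≤ a :=
  h.chord nd_4 nd_5 (by norm_num) (by norm_num) (by norm_num) h1 h2

lemma inf_4 {y a : ℝ} (h : CW y a) (h1 : y ≤ (56207/1000000)) : (48793/10000) * y ≤ a :=
  h.inf nd_4 (by norm_num) (by norm_num) h1

lemma ch_5_6 {y a : ℝ} (h : CW y a) (h1 : y ≤ (8923/200000)) (h2 : (30571/1000000) ≤ y) :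
    (101229/1000000) + (3943/1250) * y ≤ a :=
  h.chord nd_5 nd_6 (by norm_num) (by norm_num) (by norm_num) h1 h2

lemma ch_5_7 {y a : ℝ} (h : CW y a) (h1 : y ≤ (8923/200000)) (h2 : (63/3125) ≤ y) :
    (4499/50000) + (6813/2000) * y ≤ a :=
  h.chord nd_5 nd_7 (by norm_num) (by norm_num) (by norm_num) h1 h2

lemma ch_5_8 {y a : ℝ} (h : CW y a) (h1 : y ≤ (8923/200000)) (h2 : (1279/100000) ≤ y) :
    (15619/200000) + (36729/10000) * y ≤ a :=
  h.chord nd_5 nd_8 (by norm_num) (by norm_num) (by norm_num) h1 h2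

lemma ch_5_9 {y a : ℝ} (h : CW y a) (h1 : y ≤ (8923/200000)) (h2 : (7803/1000000) ≤ y) :
    (6603/100000) + (39433/10000) * y ≤ a :=
  h.chord nd_5 nd_9 (by norm_num) (by norm_num) (by norm_num) h1 h2

lemma ch_5_11 {y a : ℝ} (h : CW y a) (h1 : y ≤ (8923/200000)) (h2 : (949/250000) ≤ y) :
    (25259/500000) + (4291/1000) * y ≤ a :=
  h.chord nd_5 nd_11 (by norm_num) (by norm_num) (by norm_num) h1 h2

lemma ch_5_12 {y a : ℝ} (h : CW y a) (h1 : y ≤ (8923/200000)) (h2 : (2579/1000000) ≤ y) :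
    (10829/250000) + (11131/2500) * y ≤ a :=
  h.chord nd_5 nd_12 (by norm_num) (by norm_num) (by norm_num) h1 h2

lemma inf_5 {y a : ℝ} (h : CW y a) (h1 : y ≤ (8923/200000)) : (54233/10000) * y ≤ a :=
  h.inf nd_5 (by norm_num) (by norm_num) h1

lemma ch_6_7 {y a : ℝ} (h : CW y a) (h1 : y ≤ (30571/1000000)) (h2 : (63/3125) ≤ y) :
    (83121/1000000) + (37467/10000) * y ≤ a :=
  h.chord nd_6 nd_7 (by norm_num) (by norm_num) (by norm_num) h1 h2

lemma ch_6_8 {y a : ℝ} (h : CW y a) (h1 : y ≤ (30571/1000000)) (h2 : (1279/100000) ≤ y) :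
    (72857/1000000) + (5103/1250) * y ≤ a :=
  h.chord nd_6 nd_8 (by norm_num) (by norm_num) (by norm_num) h1 h2

lemma inf_6 {y a : ℝ} (h : CW y a) (h1 : y ≤ (30571/1000000)) : (4041/625) * y ≤ a :=
  h.inf nd_6 (by norm_num) (by norm_num) h1

lemma ch_7_8 {y a : ℝ} (h : CW y a) (h1 : y ≤ (63/3125)) (h2 : (1279/100000) ≤ y) :
    (66791/1000000) + (45567/10000) * y ≤ a :=
  h.chord nd_7 nd_8 (by norm_num) (by norm_num) (by norm_num) h1 h2

lemma ch_7_9 {y a : ℝ} (h : CW y a) (h1 : y ≤ (63/3125)) (h2 : (7803/1000000) ≤ y) :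
    (57741/1000000) + (6257/1250) * y ≤ a :=
  h.chord nd_7 nd_9 (by norm_num) (by norm_num) (by norm_num) h1 h2

lemma ch_7_10 {y a : ℝ} (h : CW y a) (h1 : y ≤ (63/3125)) (h2 : (5491/1000000) ≤ y) :
    (51597/1000000) + (3319/625) * y ≤ a :=
  h.chord nd_7 nd_10 (by norm_num) (by norm_num) (by norm_num) h1 h2

lemma ch_7_11 {y a : ℝ} (h : CW y a) (h1 : y ≤ (63/3125)) (h2 : (949/250000) ≤ y) :
    (91/2000) + (3508/625) * y ≤ a :=
  h.chord nd_7 nd_11 (by norm_num) (by norm_num) (by norm_num) h1 h2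

lemma ch_7_14 {y a : ℝ} (h : CW y a) (h1 : y ≤ (63/3125)) (h2 : (57/200000) ≤ y) :
    (3169/200000) + (35419/5000) * y ≤ a :=
  h.chord nd_7 nd_14 (by norm_num) (by norm_num) (by norm_num) h1 h2

lemma inf_7 {y a : ℝ} (h : CW y a) (h1 : y ≤ (63/3125)) : (78697/10000) * y ≤ a :=
  h.inf nd_7 (by norm_num) (by norm_num) h1

lemma ch_8_9 {y a : ℝ} (h : CW y a) (h1 : y ≤ (1279/100000)) (h2 : (7803/1000000) ≤ y) :
    (10513/200000) + (5669/1000) * y ≤ a :=
  h.chord nd_8 nd_9 (by norm_num) (by norm_num) (by norm_num) h1 h2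

lemma ch_8_10 {y a : ℝ} (h : CW y a) (h1 : y ≤ (1279/100000)) (h2 : (5491/1000000) ≤ y) :
    (23709/500000) + (30357/5000) * y ≤ a :=
  h.chord nd_8 nd_10 (by norm_num) (by norm_num) (by norm_num) h1 h2

lemma ch_8_11 {y a : ℝ} (h : CW y a) (h1 : y ≤ (1279/100000)) (h2 : (949/250000) ≤ y) :
    (5277/125000) + (64781/10000) * y ≤ a :=
  h.chord nd_8 nd_11 (by norm_num) (by norm_num) (by norm_num) h1 h2

lemma ch_8_14 {y a : ℝ} (h : CW y a) (h1 : y ≤ (1279/100000)) (h2 : (57/200000) ≤ y) :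
    (771/50000) + (85731/10000) * y ≤ a :=
  h.chord nd_8 nd_14 (by norm_num) (by norm_num) (by norm_num) h1 h2

lemma inf_8 {y a : ℝ} (h : CW y a) (h1 : y ≤ (1279/100000)) : (24447/2500) * y ≤ a :=
  h.inf nd_8 (by norm_num) (by norm_num) h1

lemma ch_9_10 {y a : ℝ} (h : CW y a) (h1 : y ≤ (7803/1000000)) (h2 : (5491/1000000) ≤ y) :
    (10663/250000) + (69393/10000) * y ≤ a :=
  h.chord nd_9 nd_10 (by norm_num) (by norm_num) (by norm_num) h1 h2

lemma ch_9_11 {y a : ℝ} (h : CW y a) (h1 : y ≤ (7803/1000000)) (h2 : (949/250000) ≤ y) :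
    (38393/1000000) + (18713/2500) * y ≤ a :=
  h.chord nd_9 nd_11 (by norm_num) (by norm_num) (by norm_num) h1 h2

lemma ch_9_12 {y a : ℝ} (h : CW y a) (h1 : y ≤ (7803/1000000)) (h2 : (2579/1000000) ≤ y) :
    (34063/1000000) + (201/25) * y ≤ a :=
  h.chord nd_9 nd_12 (by norm_num) (by norm_num) (by norm_num) h1 h2

lemma ch_9_14 {y a : ℝ} (h : CW y a) (h1 : y ≤ (7803/1000000)) (h2 : (57/200000) ≤ y) :
    (14871/1000000) + (26249/2500) * y ≤ a :=
  h.chord nd_9 nd_14 (by norm_num) (by norm_num) (by norm_num) h1 h2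

lemma inf_9 {y a : ℝ} (h : CW y a) (h1 : y ≤ (7803/1000000)) : (24811/2000) * y ≤ a :=
  h.inf nd_9 (by norm_num) (by norm_num) h1

lemma ch_10_11 {y a : ℝ} (h : CW y a) (h1 : y ≤ (5491/1000000)) (h2 : (949/250000) ≤ y) :
    (35567/1000000) + (82297/10000) * y ≤ a :=
  h.chord nd_10 nd_11 (by norm_num) (by norm_num) (by norm_num) h1 h2

lemma ch_10_14 {y a : ℝ} (h : CW y a) (h1 : y ≤ (5491/1000000)) (h2 : (57/200000) ≤ y) :
    (14421/1000000) + (120807/10000) * y ≤ a :=
  h.chord nd_10 nd_14 (by norm_num) (by norm_num) (by norm_num) h1 h2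

lemma inf_10 {y a : ℝ} (h : CW y a) (h1 : y ≤ (5491/1000000)) : (14707/1000) * y ≤ a :=
  h.inf nd_10 (by norm_num) (by norm_num) h1

lemma ch_11_14 {y a : ℝ} (h : CW y a) (h1 : y ≤ (949/250000)) (h2 : (57/200000) ≤ y) :
    (13891/1000000) + (69699/5000) * y ≤ a :=
  h.chord nd_11 nd_14 (by norm_num) (by norm_num) (by norm_num) h1 h2

lemma inf_11 {y a : ℝ} (h : CW y a) (h1 : y ≤ (949/250000)) : (175993/10000) * y ≤ a :=
  h.inf nd_11 (by norm_num) (by norm_num) h1

lemma inf_12 {y a : ℝ} (h : CW y a) (h1 : y ≤ (2579/1000000)) : (212481/10000) * y ≤ a :=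
  h.inf nd_12 (by norm_num) (by norm_num) h1

lemma inf_14 {y a : ℝ} (h : CW y a) (h1 : y ≤ (57/200000)) : (313407/5000) * y ≤ a :=
  h.inf nd_14 (by norm_num) (by norm_num) h1

lemma xi_0_4_2 {x a : ℝ} (h : CellX x a) (h1 : 0 ≤ x) (h2 : x ≤ (5041/40000)) :
    (-474817/1000000) + (62597/10000) * x ≤ a := by
  have := h.chord (r := 0) (r' := (71/200)) (by linarith) (by linarith) (by norm_num) (by norm_num) hs_2
  linarith

lemma xi_0_4_3 {x a : ℝ} (h : CellX x a) (h1 : 0 ≤ x) (h2 : x ≤ (5041/40000)) :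
    (-2659/8000) + (3201/625) * x ≤ a := by
  have := h.chord (r := 0) (r' := (71/200)) (by linarith) (by linarith) (by norm_num) (by norm_num) hs_3
  linarith

lemma xi_0_5_1 {x a : ℝ} (h : CellX x a) (h1 : 0 ≤ x) (h2 : x ≤ (1369/10000)) :
    (-708947/1000000) + (3861/500) * x ≤ a := by
  have := h.chord (r := 0) (r' := (37/100)) (by linarith) (by linarith) (by norm_num) (by norm_num) hs_1
  linarith

lemma xi_0_5_2 {x a : ℝ} (h : CellX x a) (h1 : 0 ≤ x) (h2 : x ≤ (1369/10000)) :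
    (-474817/1000000) + (3003/500) * x ≤ a := by
  have := h.chord (r := 0) (r' := (37/100)) (by linarith) (by linarith) (by norm_num) (by norm_num) hs_2
  linarith

lemma xi_0_5_3 {x a : ℝ} (h : CellX x a) (h1 : 0 ≤ x) (h2 : x ≤ (1369/10000)) :
    (-2659/8000) + (2457/500) * x ≤ a := by
  have := h.chord (r := 0) (r' := (37/100)) (by linarith) (by linarith) (by norm_num) (by norm_num) hs_3
  linarith

lemma xi_0_6_2 {x a : ℝ} (h : CellX x a) (h1 : 0 ≤ x) (h2 : x ≤ (361/2500)) :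
    (-474817/1000000) + (58479/10000) * x ≤ a := by
  have := h.chord (r := 0) (r' := (19/50)) (by linarith) (by linarith) (by norm_num) (by norm_num) hs_2
  linarith

lemma xi_0_6_3 {x a : ℝ} (h : CellX x a) (h1 : 0 ≤ x) (h2 : x ≤ (361/2500)) :
    (-2659/8000) + (23923/5000) * x ≤ a := by
  have := h.chord (r := 0) (r' := (19/50)) (by linarith) (by linarith) (by norm_num) (by norm_num) hs_3
  linarith

lemma xi_0_7_0 {x a : ℝ} (h : CellX x a) (h1 : 0 ≤ x) (h2 : x ≤ (4/25)) :
    (-57269/50000) + 10 * x ≤ a := by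
  have := h.chord (r := 0) (r' := (2/5)) (by linarith) (by linarith) (by norm_num) (by norm_num) hs_0
  linarith

lemma xi_0_7_2 {x a : ℝ} (h : CellX x a) (h1 : 0 ≤ x) (h2 : x ≤ (4/25)) :
    (-474817/1000000) + (11111/2000) * x ≤ a := by
  have := h.chord (r := 0) (r' := (2/5)) (by linarith) (by linarith) (by norm_num) (by norm_num) hs_2
  linarith

lemma xi_0_7_3 {x a : ℝ} (h : CellX x a) (h1 : 0 ≤ x) (h2 : x ≤ (4/25)) :
    (-2659/8000) + (22727/5000) * x ≤ a := by
  have := h.chord (r := 0) (r' := (2/5)) (by linarith) (by linarith) (by norm_num) (by norm_num) hs_3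
  linarith

lemma xi_4_5_1 {x a : ℝ} (h : CellX x a) (h1 : (5041/40000) ≤ x) (h2 : x ≤ (1369/10000)) :
    (-191311/1000000) + (2463/625) * x ≤ a := by
  have := h.chord (r := (71/200)) (r' := (37/100)) (by linarith) (by linarith) (by norm_num) (by norm_num) hs_1
  linarith

lemma xi_4_5_2 {x a : ℝ} (h : CellX x a) (h1 : (5041/40000) ≤ x) (h2 : x ≤ (1369/10000)) :
    (-72211/1000000) + (30651/10000) * x ≤ a := by
  have := h.chord (r := (71/200)) (r' := (37/100)) (by linarith) (by linarith) (by norm_num) (by norm_num) hs_2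
  linarith

lemma xi_4_7_0 {x a : ℝ} (h : CellX x a) (h1 : (5041/40000) ≤ x) (h2 : x ≤ (4/25)) :
    (-196531/500000) + (2649/500) * x ≤ a := by
  have := h.chord (r := (71/200)) (r' := (2/5)) (by linarith) (by linarith) (by norm_num) (by norm_num) hs_0
  linarith

lemma xi_4_7_1 {x a : ℝ} (h : CellX x a) (h1 : (5041/40000) ≤ x) (h2 : x ≤ (4/25)) :
    (-171577/1000000) + (18921/5000) * x ≤ a := by
  have := h.chord (r := (71/200)) (r' := (2/5)) (by linarith) (by linarith) (by norm_num) (by norm_num) hs_1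
  linarith

lemma xi_4_7_2 {x a : ℝ} (h : CellX x a) (h1 : (5041/40000) ≤ x) (h2 : x ≤ (4/25)) :
    (-28431/500000) + (29433/10000) * x ≤ a := by
  have := h.chord (r := (71/200)) (r' := (2/5)) (by linarith) (by linarith) (by norm_num) (by norm_num) hs_2
  linarith

lemma xi_5_6_1 {x a : ℝ} (h : CellX x a) (h1 : (1369/10000) ≤ x) (h2 : x ≤ (361/2500)) :
    (-10833/62500) + (7619/2000) * x ≤ a := by
  have := h.chord (r := (37/100)) (r' := (19/50)) (by linarith) (by linarith) (by norm_num) (by norm_num) hs_1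
  linarith

lemma xi_5_7_0 {x a : ℝ} (h : CellX x a) (h1 : (1369/10000) ≤ x) (h2 : x ≤ (4/25)) :
    (-376549/1000000) + (12987/2500) * x ≤ a := by
  have := h.chord (r := (37/100)) (r' := (2/5)) (by linarith) (by linarith) (by norm_num) (by norm_num) hs_0
  linarith

lemma xi_5_7_1 {x a : ℝ} (h : CellX x a) (h1 : (1369/10000) ≤ x) (h2 : x ≤ (4/25)) :
    (-79891/500000) + (7421/2000) * x ≤ a := by
  have := h.chord (r := (37/100)) (r' := (2/5)) (by linarith) (by linarith) (by norm_num) (by norm_num) hs_1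
  linarith

lemma xi_6_7_0 {x a : ℝ} (h : CellX x a) (h1 : (361/2500) ≤ x) (h2 : x ≤ (4/25)) :
    (-365893/1000000) + (25641/5000) * x ≤ a := by
  have := h.chord (r := (19/50)) (r' := (2/5)) (by linarith) (by linarith) (by norm_num) (by norm_num) hs_0
  linarith

lemma xi_6_7_1 {x a : ℝ} (h : CellX x a) (h1 : (361/2500) ≤ x) (h2 : x ≤ (4/25)) :
    (-15217/100000) + (3663/1000) * x ≤ a := by
  have := h.chord (r := (19/50)) (r' := (2/5)) (by linarith) (by linarith) (by norm_num) (by norm_num) hs_1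
  linarith

end Crest.Agent.R215
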