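import Crest.Agent.R215.Mx

/-! The maximiser in a minimal counterexample and its first-order properties. -/

set_option autoImplicit false
set_option linter.unusedSectionVars false
open MeasureTheory ProbabilityTheory Real Set Filter Topology
open scoped RealInnerProductSpace NNReal

namespace Crest.Agent.R215

variable {E : Type*} [NormedAddCommGroup E] [InnerProductSpace ℝ E] [FiniteDimensional ℝ E]
  [MeasurableSpace E] [BorelSpace E] {ι : Type*}

/-- a normalised maximiser violating the key inequality, for a minimal index type -/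
structure Opt [Fintype ι] [DecidableEq ι] (z : ι → E) : Prop where
  card : 4 ≤ Fintype.card ι
  hF : F z = ∑ i, ‖z i‖ ^ 2
  hmax : ∀ w : ι → E, F w ≤ √(∑ i, ‖z i‖ ^ 2) * √(∑ i, ‖w i‖ ^ 2)
  hgt : c2 < ∑ i, ‖z i‖ ^ 2
  hdel : ∀ i : ι, Key E {l // l ≠ i}

theorem exists_opt [Fintype ι] [DecidableEq ι] (hc : 4 ≤ Fintype.card ι)
    (hdel : ∀ i : ι, Key E {l // l ≠ i}) (hn : ¬ Key E ι) : ∃ z : ι → E, Opt z := by
  have : Nonempty ι := Fintype.card_pos_iff.1 (by omega)
  set K : Set (ι → E) := {z | ∑ i, ‖z i‖ ^ 2 ≤ 1} with hK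
  have hKc : IsCompact K := by
    refine Metric.isCompact_of_isClosed_isBounded (isClosed_le (by fun_prop) (by fun_prop)) ?_
    refine (Metric.isBounded_closedBall (x := (0 : ι → E)) (r := 1)).subset fun z hz => ?_
    rw [mem_closedBall_zero_iff, pi_norm_le_iff_of_nonneg zero_le_one]
    intro i
    have h1 : ‖z i‖ ^ 2 ≤ ∑ i, ‖z i‖ ^ 2 :=
      Finset.single_le_sum (f := fun i => ‖z i‖ ^ 2) (fun _ _ => sq_nonneg _) (Finset.mem_univ i)
    have h2 : ∑ i, ‖z i‖ ^ 2 ≤ 1 := hz
    nlinarith [norm_nonneg (z i)]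
  obtain ⟨u, hu, hmax⟩ := hKc.exists_isMaxOn ⟨0, by simp [hK]⟩ continuous_F.continuousOn
  set M := F u with hM
  have hM0 : 0 ≤ M := F_nonneg u
  have hall : ∀ w : ι → E, F w ≤ M * √(∑ i, ‖w i‖ ^ 2) := by
    intro w
    have hS : 0 ≤ ∑ i, ‖w i‖ ^ 2 := Finset.sum_nonneg fun _ _ => sq_nonneg _
    rcases hS.eq_or_lt with h0 | hpos
    · have hw : ∀ i, w i = 0 := by
        intro i
        have := (Finset.sum_eq_zero_iff_of_nonneg (fun _ _ => sq_nonneg _)).1 h0.symm i
          (Finset.mem_univ i)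
        simpa using this
      have h1 : w = fun i => (0:ℝ) • w i := by ext i; simp [hw i]
      rw [← h0, h1, F_smul w le_rfl]; simp
    · set s := √(∑ i, ‖w i‖ ^ 2) with hs
      have hs0 : 0 < s := Real.sqrt_pos.2 hpos
      have hs2 : s ^ 2 = ∑ i, ‖w i‖ ^ 2 := Real.sq_sqrt hS
      have hmem : (fun i => s⁻¹ • w i) ∈ K := by
        simp only [hK, Set.mem_ofPred_eq, norm_smul, mul_pow, ← Finset.mul_sum, ← hs2, norm_inv,
          Real.norm_eq_abs, abs_of_pos hs0]
        field_simp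
        rfl
      have h1 : F (fun i => s⁻¹ • w i) ≤ M := hmax hmem
      rw [F_smul w (inv_nonneg.2 hs0.le), inv_mul_le_iff₀ hs0] at h1
      linarith
  have hcM : √c2 < M := by
    by_contra hle
    exact hn fun w => (hall w).trans
      (mul_le_mul_of_nonneg_right (not_lt.1 hle) (Real.sqrt_nonneg _))
  have hMpos : 0 < M := lt_of_le_of_lt (Real.sqrt_nonneg _) hcM
  have hu1 : ∑ i, ‖u i‖ ^ 2 = 1 := by
    have h1 := hall u
    rw [← hM] at h1
    have h2 : 1 ≤ √(∑ i, ‖u i‖ ^ 2) := by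
      by_contra h
      have := mul_lt_mul_of_pos_left (not_le.1 h) hMpos
      linarith
    have h3 : ∑ i, ‖u i‖ ^ 2 ≤ 1 := hu
    have h4 := Real.one_le_sqrt.1 h2
    linarith
  have hS : ∑ i, ‖M • u i‖ ^ 2 = M ^ 2 := by
    simp only [norm_smul, mul_pow, ← Finset.mul_sum, hu1, Real.norm_eq_abs, sq_abs, mul_one]
  refine ⟨fun i => M • u i, hc, ?_, ?_, ?_, hdel⟩
  · rw [F_smul u hM0, hS]; ring
  · intro w; rw [hS, Real.sqrt_sq hM0]; exact hall w
  · rw [hS]
    have := Real.sq_sqrt c2_pos.le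
    nlinarith [Real.sqrt_nonneg c2]

section cells
variable [Fintype ι] [DecidableEq ι]

/-- advantage of `i` over the others -/
noncomputable def Dl (z : ι → E) (i : ι) (x : E) : ℝ := ⟪z i, x⟫ - mx (del i z) x

/-- indicator of the cell of `i` -/
noncomputable def chi (z : ι → E) (i : ι) (x : E) : ℝ := if 0 < Dl z i x then 1 else 0

/-- barycentre of the cell of `i` -/
noncomputable def bc (z : ι → E) (i : ι) : E := ∫ x, chi z i x • x ∂stdGaussian E

omit [DecidableEq ι] in
lemma nonempty_del (hc : 2 ≤ Fintype.card ι) (i : ι) : Nonempty {l // l ≠ i} := by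
  have : Nontrivial ι := Fintype.one_lt_card_iff_nontrivial.1 hc
  obtain ⟨l, hl⟩ := exists_ne i
  exact ⟨⟨l, hl⟩⟩

omit [FiniteDimensional ℝ E] [MeasurableSpace E] [BorelSpace E] [DecidableEq ι] in
lemma continuous_Dl (z : ι → E) (i : ι) [Nonempty {l // l ≠ i}] : Continuous (Dl z i) :=
  (by fun_prop : Continuous fun x : E => ⟪z i, x⟫).sub (continuous_mx _)

omit [FiniteDimensional ℝ E] [DecidableEq ι] in
lemma measurable_chi (z : ι → E) (i : ι) [Nonempty {l // l ≠ i}] : Measurable (chi z i) :=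
  Measurable.ite (measurableSet_lt measurable_const (continuous_Dl z i).measurable)
    measurable_const measurable_const

omit [FiniteDimensional ℝ E] [MeasurableSpace E] [BorelSpace E] [Fintype ι] [DecidableEq ι] in
lemma chi_nonneg (z : ι → E) (i : ι) (x : E) : 0 ≤ chi z i x := by
  unfold chi; split_ifs <;> norm_num

omit [FiniteDimensional ℝ E] [MeasurableSpace E] [BorelSpace E] [Fintype ι] [DecidableEq ι] in
lemma chi_le_one (z : ι → E) (i : ι) (x : E) : chi z i x ≤ 1 := by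
  unfold chi; split_ifs <;> norm_num

omit [DecidableEq ι] in
lemma integrable_chi (z : ι → E) (i : ι) [Nonempty {l // l ≠ i}] :
    Integrable (chi z i) (stdGaussian E) :=
  Integrable.of_bound (measurable_chi z i).aestronglyMeasurable 1 (ae_of_all _ fun x => by
    rw [Real.norm_eq_abs, abs_of_nonneg (chi_nonneg z i x)]; exact chi_le_one z i x)

omit [DecidableEq ι] in
lemma integrable_chi_smul (z : ι → E) (i : ι) [Nonempty {l // l ≠ i}] :
    Integrable (fun x => chi z i x • x) (stdGaussian E) := by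
  refine Integrable.mono' integrable_norm_stdGaussian
    ((measurable_chi z i).smul measurable_id).aestronglyMeasurable (ae_of_all _ fun x => ?_)
  rw [norm_smul, Real.norm_eq_abs, abs_of_nonneg (chi_nonneg z i x)]
  exact mul_le_of_le_one_left (norm_nonneg _) (chi_le_one z i x)

omit [DecidableEq ι] in
lemma integrable_chi_mul (z : ι → E) (i : ι) [Nonempty {l // l ≠ i}] (v : E) :
    Integrable (fun x => chi z i x * ⟪v, x⟫) (stdGaussian E) := by
  have := (integrable_chi_smul z i).const_inner (𝕜 := ℝ) v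
  simpa [real_inner_smul_right] using this

omit [DecidableEq ι] in
lemma inner_bc (z : ι → E) (i : ι) [Nonempty {l // l ≠ i}] (v : E) :
    ⟪v, bc z i⟫ = ∫ x, chi z i x * ⟪v, x⟫ ∂stdGaussian E := by
  unfold bc
  rw [← integral_inner (integrable_chi_smul z i)]
  simp [real_inner_smul_right]

/-- almost every point lies in exactly one cell -/
lemma ae_cell (hc : 2 ≤ Fintype.card ι) {z : ι → E} (hz : Function.Injective z) :
    ∀ᵐ x ∂stdGaussian E, ∃ i, mx z x = ⟪z i, x⟫ ∧ ∀ l, chi z l x = if l = i then 1 else 0 := by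
  have h1 : ∀ᵐ x ∂stdGaussian E, ∀ i j, i ≠ j → ⟪z i - z j, x⟫ ≠ 0 := by
    rw [ae_all_iff]; intro i
    rw [ae_all_iff]; intro j
    by_cases h : i = j
    · exact ae_of_all _ fun x hij => (hij h).elim
    · filter_upwards [ae_inner_ne_zero (sub_ne_zero.2 (hz.ne h))] with x hx _ using hx
  have : Nonempty ι := Fintype.card_pos_iff.1 (by omega)
  filter_upwards [h1] with x hx
  obtain ⟨i, hi⟩ := exists_mx z x
  refine ⟨i, hi.symm, fun l => ?_⟩
  have := nonempty_del hc l
  unfold chi Dl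
  by_cases h : l = i
  · subst h
    obtain ⟨⟨j, hj⟩, hj2⟩ := exists_mx (del l z) x
    have h2 : ⟪z j, x⟫ ≤ ⟪z l, x⟫ := hi ▸ le_mx z x j
    have h3 := hx j l hj
    rw [inner_sub_left] at h3
    have h4 : ⟪z j, x⟫ < ⟪z l, x⟫ := lt_of_le_of_ne h2 (sub_ne_zero.1 h3)
    rw [if_pos (by rw [← hj2]; exact sub_pos.2 h4), if_pos rfl]
  · have h2 : ⟪z l, x⟫ ≤ ⟪z i, x⟫ := hi ▸ le_mx z x l
    have h3 := le_mx_del z x (Ne.symm h)
    rw [if_neg (by linarith), if_neg h]

lemma sum_inner_bc (hc : 2 ≤ Fintype.card ι) (z : ι → E) (v : ι → E) :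
    ∑ i, ⟪v i, bc z i⟫ = ∫ x, ∑ i, chi z i x * ⟪v i, x⟫ ∂stdGaussian E := by
  have := nonempty_del hc
  rw [integral_finsetSum _ fun i _ => integrable_chi_mul z i (v i)]
  exact Finset.sum_congr rfl fun i _ => inner_bc z i (v i)

lemma sum_inner_bc_le (hc : 2 ≤ Fintype.card ι) {z : ι → E} (hz : Function.Injective z)
    {ι' : Type*} [Finite ι'] (w : ι' → E) (σ : ι → ι') :
    ∑ i, ⟪w (σ i), bc z i⟫ ≤ F w := by
  have := nonempty_del hc
  have : Nonempty ι := Fintype.card_pos_iff.1 (by omega)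
  have : Nonempty ι' := Nonempty.map σ this
  rw [sum_inner_bc hc]
  refine integral_mono_ae (integrable_finsetSum _ fun i _ => integrable_chi_mul z i _)
    (integrable_mx w) ?_
  filter_upwards [ae_cell hc hz] with x ⟨i, _, hi⟩
  simp only [hi, ite_mul, one_mul, zero_mul, Finset.sum_ite_eq', Finset.mem_univ, if_true]
  exact le_mx w x (σ i)

lemma sum_inner_bc_eq (hc : 2 ≤ Fintype.card ι) {z : ι → E} (hz : Function.Injective z) :
    ∑ i, ⟪z i, bc z i⟫ = F z := by
  rw [sum_inner_bc hc]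
  refine integral_congr_ae ?_
  filter_upwards [ae_cell hc hz] with x ⟨i, h1, hi⟩
  simp only [hi, ite_mul, one_mul, zero_mul, Finset.sum_ite_eq', Finset.mem_univ, if_true, h1]

lemma sum_integral_chi (hc : 2 ≤ Fintype.card ι) {z : ι → E} (hz : Function.Injective z) :
    ∑ i, ∫ x, chi z i x ∂stdGaussian E = 1 := by
  have := nonempty_del hc
  rw [← integral_finsetSum _ fun i _ => integrable_chi z i]
  have : ∀ᵐ x ∂stdGaussian E, ∑ i, chi z i x = 1 := by
    filter_upwards [ae_cell hc hz] with x ⟨i, _, hi⟩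
    simp [hi]
  rw [integral_congr_ae this]
  simp

omit [InnerProductSpace ℝ E] [FiniteDimensional ℝ E] [MeasurableSpace E] [BorelSpace E] in
lemma sum_del {M : Type*} [AddCommGroup M] (g : ι → M) (i : ι) :
    ∑ l : {l // l ≠ i}, g l = ∑ l, g l - g i := by
  rw [Fintype.sum_eq_add_sum_subtype_ne g i]; abel

namespace Opt
variable {z : ι → E}

lemma two_le (h : Opt z) : 2 ≤ Fintype.card ι := by have := h.card; omega

lemma S_pos (h : Opt z) : 0 < ∑ i, ‖z i‖ ^ 2 := c2_pos.trans h.hgt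

lemma sum_eq_zero (h : Opt z) : ∑ i, z i = 0 := by
  have : Nonempty ι := Fintype.card_pos_iff.1 (by have := h.card; omega)
  have h1 := F_le_centered h.hmax z
  rw [h.hF] at h1
  set S := ∑ i, ‖z i‖ ^ 2
  have hS := h.S_pos
  have hk : (0:ℝ) < Fintype.card ι := by exact_mod_cast Fintype.card_pos
  have h2 : √S ≤ √(S - ‖∑ j, z j‖ ^ 2 / Fintype.card ι) := by
    have h3 := Real.mul_self_sqrt hS.le
    have h4 := Real.sqrt_pos.2 hS
    by_contra hlt
    have := mul_lt_mul_of_pos_left (not_le.1 hlt) h4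
    linarith
  have h5 : S ≤ S - ‖∑ j, z j‖ ^ 2 / Fintype.card ι := by
    have := (Real.le_sqrt' (Real.sqrt_pos.2 hS)).1 h2
    rwa [Real.sq_sqrt hS.le] at this
  have h6 : ‖∑ j, z j‖ ^ 2 / Fintype.card ι ≤ 0 := by linarith
  rw [div_nonpos_iff] at h6
  have h7 : ‖∑ j, z j‖ ^ 2 ≤ 0 := by
    rcases h6 with h6 | h6
    · linarith [h6.2]
    · exact h6.1
  have := le_antisymm h7 (sq_nonneg _)
  simpa using this

/-- a value `T` with `T ≤ c √T'`, `T' ≤ T`, is at most `c²` -/
lemma le_c2_of {T T' : ℝ} (h1 : T ≤ √c2 * √T') (h2 : T' ≤ T) : T ≤ c2 := by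
  by_contra hlt
  have hlt := not_le.1 hlt
  have hT : 0 < T := c2_pos.trans hlt
  have h3 : √T' ≤ √T := Real.sqrt_le_sqrt h2
  have h4 : √c2 < √T := Real.sqrt_lt_sqrt c2_pos.le hlt
  have h5 := Real.mul_self_sqrt hT.le
  have h6 := Real.sqrt_pos.2 hT
  have h7 := Real.sqrt_nonneg c2
  nlinarith

lemma injective (h : Opt z) : Function.Injective z := by
  intro i j hij
  by_contra hne
  have := nonempty_del h.two_le j
  have h1 : F z = F (del j z) := by
    unfold F
    congr 1; ext x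
    rw [mx_eq_max z x j, max_eq_right]
    rw [← hij]; exact le_mx_del z x hne
  have h2 := h.hdel j (del j z)
  rw [← h1, h.hF] at h2
  have h3 : ∑ l : {l // l ≠ j}, ‖del j z l‖ ^ 2 ≤ ∑ i, ‖z i‖ ^ 2 := by
    have := sum_del (fun l => ‖z l‖ ^ 2) j
    simp only [del]
    linarith [sq_nonneg ‖z j‖]
  exact absurd (le_c2_of h2 h3) (not_le.2 h.hgt)

lemma bc_eq (h : Opt z) (i : ι) : bc z i = z i := by
  have h1 := sum_inner_bc_eq h.two_le h.injective
  rw [h.hF] at h1
  have h2 := (sum_inner_bc_le h.two_le h.injective (bc z) id).trans (h.hmax (bc z))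
  simp only [id, real_inner_self_eq_norm_sq] at h2
  set S := ∑ i, ‖z i‖ ^ 2 with hS
  set T := ∑ i, ‖bc z i‖ ^ 2 with hT
  have hT0 : 0 ≤ T := Finset.sum_nonneg fun _ _ => sq_nonneg _
  have h3 : T ≤ S := by
    have h4 := Real.mul_self_sqrt hT0
    have h5 := Real.mul_self_sqrt h.S_pos.le
    nlinarith [sq_nonneg (√S - √T)]
  have h6 : ∑ i, ‖z i - bc z i‖ ^ 2 = S - 2 * S + T := by
    simp_rw [norm_sub_sq_real]
    rw [Finset.sum_add_distrib, Finset.sum_sub_distrib, ← Finset.mul_sum, h1]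
  have h7 : ∑ i, ‖z i - bc z i‖ ^ 2 = 0 :=
    le_antisymm (by linarith) (Finset.sum_nonneg fun _ _ => sq_nonneg _)
  have h8 := (Finset.sum_eq_zero_iff_of_nonneg (fun _ _ => sq_nonneg _)).1 h7 i (Finset.mem_univ i)
  have h9 : z i - bc z i = 0 := by simpa using h8
  exact (sub_eq_zero.1 h9).symm

lemma inner_neg (h : Opt z) {i j : ι} (hij : i ≠ j) : ⟪z i, z j⟫ < 0 := by
  let w : {l // l ≠ j} → E := fun l => if (l : ι) = i then z i + z j else z l
  let σ : ι → {l // l ≠ j} := fun l => if hl : l = j then ⟨i, hij⟩ else ⟨l, hl⟩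
  have h1 := (sum_inner_bc_le h.two_le h.injective w σ).trans (h.hdel j w)
  simp_rw [h.bc_eq] at h1
  have h2 : ∑ l, ⟪w (σ l), z l⟫ = ∑ l, ‖z l‖ ^ 2 + 2 * ⟪z i, z j⟫ := by
    have : ∀ l, ⟪w (σ l), z l⟫ = ‖z l‖ ^ 2 + ((if l = i then ⟪z i, z j⟫ else 0)
        + (if l = j then ⟪z i, z j⟫ else 0)) := by
      intro l
      by_cases hl : l = j
      · subst hl
        simp [w, σ, hij.symm, inner_add_left, add_comm]
      · by_cases hl' : l = i
        · subst hl'
          simp [w, σ, hl, inner_add_left, real_inner_comm]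
        · simp [w, σ, hl, hl']
    simp_rw [this]
    rw [Finset.sum_add_distrib, Finset.sum_add_distrib]
    simp; ring
  have h3 : ∑ l, ‖w l‖ ^ 2 = ∑ l, ‖z l‖ ^ 2 + 2 * ⟪z i, z j⟫ := by
    have h4 := sum_del (fun l => ‖if l = i then z i + z j else z l‖ ^ 2) j
    have h5 : ∀ l, ‖if l = i then z i + z j else z l‖ ^ 2
        = ‖z l‖ ^ 2 + (if l = i then 2 * ⟪z i, z j⟫ + ‖z j‖ ^ 2 else 0) := by
      intro l
      by_cases hl : l = i
      · subst hl; simp [norm_add_sq_real]; ring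
      · simp [hl]
    simp only [w]
    rw [h4]
    simp_rw [h5]
    rw [Finset.sum_add_distrib]
    simp [hij.symm]; ring
  rw [h2, h3] at h1
  have := le_c2_of h1 le_rfl
  linarith [h.hgt]

end Opt
end cells

end Crest.Agent.R215
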