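import Crest.Agent.R215.Basic

/-! The shift lemma: `Φ⁻¹ ∫ Φ (w + δ) ≤ Φ⁻¹ ∫ Φ w + δ` for `δ ≥ 0`. -/

set_option autoImplicit false
open MeasureTheory ProbabilityTheory Real Set Filter Topology

namespace Crest.Agent.R215

lemma phi_add (w δ : ℝ) : phi (w + δ) = Real.exp (-w * δ - δ ^ 2 / 2) * phi w := by
  unfold phi
  rw [mul_left_comm, ← Real.exp_add]
  congr 2; ring

/-- pointwise tangent-line bound: `p ↦ Φ (Φ⁻¹ p + δ)` is concave -/
lemma Phi_add_le (w u : ℝ) {δ : ℝ} (hδ : 0 ≤ δ) :
    Phi (w + δ) ≤ Phi (u + δ) + Real.exp (-u * δ - δ ^ 2 / 2) * (Phi w - Phi u) := by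
  set c := Real.exp (-u * δ - δ ^ 2 / 2) with hc
  let g : ℝ → ℝ := fun w => c * Phi w - Phi (w + δ)
  have hg : ∀ w, HasDerivAt g ((c - Real.exp (-w * δ - δ ^ 2 / 2)) * phi w) w := by
    intro w
    have h1 := (hasDerivAt_Phi w).const_mul c
    have h2 : HasDerivAt (fun w => Phi (w + δ)) (phi (w + δ)) w :=
      HasDerivAt.comp_add_const w δ (hasDerivAt_Phi (w + δ))
    exact (h1.fun_sub h2).congr_deriv (by rw [phi_add]; ring)
  have hcont : Continuous g := continuous_iff_continuousAt.2 fun w => (hg w).continuousAt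
  have key : g u ≤ g w := by
    rcases le_total u w with h | h
    · have : MonotoneOn g (Ici u) := by
        refine monotoneOn_of_deriv_nonneg (convex_Ici u) hcont.continuousOn
          (fun x _ => (hg x).differentiableAt.differentiableWithinAt) fun x hx => ?_
        rw [(hg x).deriv]
        have hx' : u ≤ x := interior_subset hx
        refine mul_nonneg (sub_nonneg.2 (Real.exp_le_exp.2 ?_)) (phi_pos x).le
        nlinarith
      exact this self_mem_Ici h h
    · have : AntitoneOn g (Iic u) := by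
        refine antitoneOn_of_deriv_nonpos (convex_Iic u) hcont.continuousOn
          (fun x _ => (hg x).differentiableAt.differentiableWithinAt) fun x hx => ?_
        rw [(hg x).deriv]
        have hx' : x ≤ u := mem_Iic.1 (interior_subset hx)
        refine mul_nonpos_of_nonpos_of_nonneg (sub_nonpos.2 (Real.exp_le_exp.2 ?_)) (phi_pos x).le
        nlinarith
      exact this h self_mem_Iic h
  simp only [g] at key
  linarith

lemma integrable_Phi_comp {Ω : Type*} [MeasurableSpace Ω] {μ : Measure Ω} [IsFiniteMeasure μ]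
    {w : Ω → ℝ} (hw : AEMeasurable w μ) : Integrable (fun x => Phi (w x)) μ := by
  refine Integrable.of_bound (continuous_Phi.measurable.comp_aemeasurable hw).aestronglyMeasurable
    1 (ae_of_all _ fun x => ?_)
  rw [Real.norm_eq_abs, abs_of_pos (Phi_pos _)]
  exact (Phi_lt_one _).le

/-- for any random variable `w` there is `u` with `E Φ(w) = Φ u` -/
lemma exists_integral_Phi_eq {Ω : Type*} [MeasurableSpace Ω] (μ : Measure Ω)
    [IsProbabilityMeasure μ] {w : Ω → ℝ} (hw : AEMeasurable w μ) :
    ∃ u, ∫ x, Phi (w x) ∂μ = Phi u := by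
  have hi := integrable_Phi_comp hw
  have h0 : 0 < ∫ x, Phi (w x) ∂μ := by
    rw [integral_pos_iff_support_of_nonneg (fun x => (Phi_pos _).le) hi]
    have : Function.support (fun x => Phi (w x)) = univ := by
      ext x; simp [(Phi_pos _).ne']
    rw [this]; simp
  have h1 : 0 < ∫ x, (1 - Phi (w x)) ∂μ := by
    rw [integral_pos_iff_support_of_nonneg (fun x => (sub_pos.2 (Phi_lt_one _)).le)
      ((integrable_const _).sub hi)]
    have : Function.support (fun x => 1 - Phi (w x)) = univ := by
      ext x; simp [(sub_pos.2 (Phi_lt_one (w x))).ne']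
    rw [this]; simp
  rw [integral_sub (integrable_const _) hi] at h1
  simp only [integral_const, probReal_univ, smul_eq_mul, mul_one] at h1
  obtain ⟨u, hu⟩ := exists_Phi_eq h0 (by linarith)
  exact ⟨u, hu.symm⟩

/-- The shift lemma. -/
theorem shift {Ω : Type*} [MeasurableSpace Ω] (μ : Measure Ω) [IsProbabilityMeasure μ]
    {w : Ω → ℝ} (hw : AEMeasurable w μ) {u δ : ℝ} (hδ : 0 ≤ δ)
    (hu : ∫ x, Phi (w x) ∂μ = Phi u) : ∫ x, Phi (w x + δ) ∂μ ≤ Phi (u + δ) := by
  have hi := integrable_Phi_comp hw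
  have hi2 : Integrable (fun x => Phi (w x + δ)) μ := integrable_Phi_comp (hw.add_const δ)
  set c := Real.exp (-u * δ - δ ^ 2 / 2) with hc
  calc ∫ x, Phi (w x + δ) ∂μ ≤ ∫ x, (Phi (u + δ) + c * (Phi (w x) - Phi u)) ∂μ :=
        integral_mono hi2 ((integrable_const _).add ((hi.sub (integrable_const _)).const_mul c))
          fun x => Phi_add_le (w x) u hδ
    _ = Phi (u + δ) := by
        have hi3 : Integrable (fun x => c * (Phi (w x) - Phi u)) μ :=
          (hi.sub (integrable_const _)).const_mul c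
        rw [integral_add (integrable_const _) hi3,
          integral_const_mul, integral_sub hi (integrable_const _), hu]
        simp

/-- two-function form: if `v ≤ w + δ` pointwise then `Φ⁻¹ E Φ(v) ≤ Φ⁻¹ E Φ(w) + δ` -/
theorem shift_le {Ω : Type*} [MeasurableSpace Ω] (μ : Measure Ω) [IsProbabilityMeasure μ]
    {v w : Ω → ℝ} (hv : AEMeasurable v μ) (hw : AEMeasurable w μ) {a b δ : ℝ} (hδ : 0 ≤ δ)
    (hvw : ∀ x, v x ≤ w x + δ)
    (ha : ∫ x, Phi (v x) ∂μ = Phi a) (hb : ∫ x, Phi (w x) ∂μ = Phi b) : a ≤ b + δ := by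
  refine strictMono_Phi.le_iff_le.1 ?_
  rw [← ha]
  exact (integral_mono (integrable_Phi_comp hv) (integrable_Phi_comp (hw.add_const δ))
    fun x => monotone_Phi (hvw x)).trans (shift μ hw hδ hb)

end Crest.Agent.R215
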