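import Crest.Agent.R215.Fatou

/-! TASK T4b: trace identity (lower bound) for a positively homogeneous graph. -/

set_option autoImplicit false
open MeasureTheory ProbabilityTheory Real Set Filter Topology
open scoped RealInnerProductSpace NNReal

namespace Crest.Agent.R215

variable {E : Type*} [NormedAddCommGroup E] [InnerProductSpace ℝ E] [FiniteDimensional ℝ E]
  [MeasurableSpace E] [BorelSpace E]

/-- The standard Gaussian has a density with respect to the volume. -/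
theorem exists_density : ∃ c : ℝ, ∀ g : E → ℝ,
    ∫ x, g x ∂stdGaussian E = ∫ x, c * Real.exp (-‖x‖ ^ 2 / 2) * g x := by
  have hb : 0 < ((1 / 2 : ℝ) : ℂ).re := by simp
  have hi : Integrable (fun x : E => Real.exp (-(1 / 2) * ‖x‖ ^ 2)) := by
    have := (GaussianFourier.integrable_cexp_neg_mul_sq_norm_add hb 0 (0 : E)).norm
    refine this.congr (ae_of_all _ fun x => ?_)
    simp only [zero_mul, add_zero, Complex.norm_exp]
    congr 1
    rw [← Complex.ofReal_pow, ← Complex.ofReal_neg, ← Complex.ofReal_mul, Complex.ofReal_re]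
  set Z : ℝ := ∫ x : E, Real.exp (-(1 / 2) * ‖x‖ ^ 2) with hZ
  have hZ0 : 0 < Z := by
    rw [hZ, GaussianFourier.integral_rexp_neg_mul_sq_norm (by norm_num)]
    have := Real.pi_pos
    positivity
  have hZc : (π / ((1 / 2 : ℝ) : ℂ)) ^ (Module.finrank ℝ E / 2 : ℂ) = (Z : ℂ) := by
    rw [← GaussianFourier.integral_cexp_neg_mul_sq_norm hb, hZ, ← integral_complex_ofReal]
    congr 1; ext x; push_cast; rfl
  let d : E → ℝ≥0 := fun x => Real.toNNReal (Z⁻¹ * Real.exp (-(1 / 2) * ‖x‖ ^ 2))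
  have hd : Measurable d := by fun_prop
  have hdv : ∀ x, (d x : ℝ) = Z⁻¹ * Real.exp (-(1 / 2) * ‖x‖ ^ 2) := fun x =>
    Real.coe_toNNReal _ (by positivity)
  have hfin : IsFiniteMeasure ((volume : Measure E).withDensity fun x => d x) :=
    isFiniteMeasure_withDensity_ofReal (hi.const_mul Z⁻¹).2
  have key : stdGaussian E = (volume : Measure E).withDensity fun x => d x := by
    apply Measure.ext_of_charFun
    ext t
    rw [charFun_stdGaussian, charFun_apply, integral_withDensity_eq_integral_smul hd]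
    have h1 : ∀ x : E, d x • Complex.exp ((⟪x, t⟫ : ℝ) * Complex.I) =
        (Z : ℂ)⁻¹ * Complex.exp (-((1 / 2 : ℝ) : ℂ) * ‖x‖ ^ 2 + Complex.I * (⟪t, x⟫ : ℝ)) := by
      intro x
      rw [NNReal.smul_def, hdv, Complex.real_smul, Complex.exp_add, real_inner_comm, mul_comm _ Complex.I]
      push_cast
      ring
    simp_rw [h1]
    rw [integral_const_mul, GaussianFourier.integral_cexp_neg_mul_sq_norm_add hb, hZc,
      ← mul_assoc, inv_mul_cancel₀ (by exact_mod_cast hZ0.ne'), one_mul, Complex.I_sq]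
    congr 1
    push_cast
    ring
  refine ⟨Z⁻¹, fun g => ?_⟩
  rw [key, integral_withDensity_eq_integral_smul hd]
  congr 1; ext x
  rw [NNReal.smul_def, hdv, smul_eq_mul]
  congr 3; ring

/-- Scaling lemma.  Suggested proof: the two finite measures
`(stdGaussian E).withDensity (exp (-(s²-1)‖x‖²/2))` and `s⁻ⁿ • (stdGaussian E).map (s⁻¹ • ·)` have
the same characteristic function (`Measure.ext_of_charFun`; unfold `stdGaussian`, `‖x‖² = ∑ x_i²`,
`integral_fintype_prod_eq_prod`, and the one-dimensional case, which is the change of variables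
`∫ phi r * exp (-(s²-1) r²/2) * g r = ∫ phi (s r) * g r = s⁻¹ ∫ phi r * g (r / s)`,
`integral_comp_mul_left`). Any other proof (e.g. density of `stdGaussian` w.r.t. Haar measure and
`Measure.integral_comp_smul`) is fine. -/
theorem integral_scaling {s : ℝ} (hs : 1 ≤ s) (G : E → ℝ) :
    ∫ x, G x * Real.exp (-(s ^ 2 - 1) * ‖x‖ ^ 2 / 2) ∂stdGaussian E
      = (s ^ Module.finrank ℝ E)⁻¹ * ∫ x, G (s⁻¹ • x) ∂stdGaussian E := by
  obtain ⟨c, hc⟩ := exists_density (E := E)
  have hs0 : 0 < s := by linarith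
  rw [hc, hc, ← smul_eq_mul, ← Measure.integral_comp_smul_of_nonneg volume _ s (hR := hs0.le)]
  congr 1; ext x
  rw [smul_smul, inv_mul_cancel₀ hs0.ne', one_smul, norm_smul, Real.norm_of_nonneg hs0.le,
    mul_comm (G x), ← mul_assoc, mul_assoc c, ← Real.exp_add]
  congr 3; ring

theorem le_of_scaling {n : ℕ} {f I : ℝ} (hf : 0 ≤ f)
    (h : ∀ s : ℝ, 1 < s → f - (s ^ 2 - 1) / 2 * I ≤ (s ^ n)⁻¹ * f) : n * f ≤ I := by
  have h1 : ∀ s : ℝ, 1 < s → n * f ≤ (s + 1) / 2 * s ^ n * I := by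
    intro s hs
    have h2 := h s hs
    have h3 : 1 + n * (s - 1) ≤ s ^ n := by
      simpa using one_add_mul_le_pow (a := s - 1) (by linarith) n
    have h4 : 0 < s ^ n := by positivity
    have h5 : s ^ n * f - (s ^ 2 - 1) / 2 * s ^ n * I ≤ f := by
      have := mul_le_mul_of_nonneg_left h2 h4.le
      rw [← mul_assoc, mul_inv_cancel₀ h4.ne', one_mul] at this
      linarith
    have h6 : (s - 1) * (n * f) ≤ (s - 1) * ((s + 1) / 2 * s ^ n * I) := by
      have := mul_le_mul_of_nonneg_right h3 hf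
      nlinarith
    exact le_of_mul_le_mul_left h6 (by linarith)
  have h2 : Tendsto (fun s : ℝ => (s + 1) / 2 * s ^ n * I) (𝓝[>] 1) (𝓝 ((1 + 1) / 2 * 1 ^ n * I)) :=
    tendsto_nhdsWithin_of_tendsto_nhds (Continuous.tendsto (by fun_prop) 1)
  have := ge_of_tendsto h2 (eventually_nhdsWithin_of_forall fun s hs => h1 s hs)
  simpa using this

theorem integral_sq_gauss : ∫ r, r ^ 2 ∂gaussianReal 0 1 = 1 := by
  have h := variance_id_gaussianReal (μ := 0) (v := 1)
  rw [variance_eq_integral aemeasurable_id] at h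
  simpa using h

/-- Proof.  Let `w = phi ∘ ψ`, `f = ∫ w`, `q x = ‖x‖² + (ψ x)²`, `n = finrank`.  Apply
`integral_scaling` to `G x = phi (s * ψ x) = phi (ψ (s • x))`:
`G x * exp (-(s²-1)‖x‖²/2) = w x * exp (-(s²-1) q x / 2) ≥ w x * (1 - (s²-1) q x / 2)`, so
`s⁻ⁿ f ≥ f - (s²-1)/2 * ∫ w q`; let `s ↓ 1` (e.g. `1 - s⁻ⁿ ≥ n (s-1) s^(-n-1)`...): `∫ w q ≥ n f`.
Finally `‖bd x‖² = ‖x‖² - ⟪e,x⟫² + (ψ x)²` and `∫ w ⟪e,x⟫² = f` by `integral_resample`
(`w` is invariant along `e`, `∫ r² dγ = 1`). -/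
theorem trace_bound (e : E) (he : ‖e‖ = 1) {ψ : E → ℝ} {L : ℝ≥0} (hL : LipschitzWith L ψ)
    (hinv : ∀ (x : E) (r : ℝ), ψ (x + r • e) = ψ x)
    (hhom : ∀ t : ℝ, 0 < t → ∀ x, ψ (t • x) = t * ψ x) :
    ((Module.finrank ℝ E : ℝ) - 1) * ∫ x, phi (ψ x) ∂stdGaussian E
      ≤ ∫ x, phi (ψ x) * ‖bd e ψ x‖ ^ 2 ∂stdGaussian E := by
  have hc := hL.continuous
  have hw : ∀ x, |phi (ψ x)| ≤ phi 0 := fun x => by
    rw [abs_of_pos (phi_pos _)]; exact phi_le_phi_zero _
  have hp0 := phi_pos 0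
  have i0 : Integrable (fun x => phi (ψ x)) (stdGaussian E) :=
    integrable_of_le_quadratic (Continuous.aestronglyMeasurable (by fun_prop)) (phi 0) 0
      fun x => by simpa using hw x
  have iq : ∀ {g : E → ℝ}, Continuous g → ∀ A B : ℝ, (∀ x, |g x| ≤ A + B * ‖x‖ ^ 2) →
      Integrable (fun x => phi (ψ x) * g x) (stdGaussian E) := by
    intro g hg A B h
    refine integrable_of_le_quadratic (Continuous.aestronglyMeasurable (by fun_prop))
      (phi 0 * A) (phi 0 * B) fun x => ?_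
    rw [abs_mul, mul_assoc, ← mul_add]
    exact mul_le_mul (hw x) (h x) (abs_nonneg _) hp0.le
  have i1 : Integrable (fun x => phi (ψ x) * (‖x‖ ^ 2 + ψ x ^ 2)) (stdGaussian E) := by
    refine iq (by fun_prop) (2 * |ψ 0| ^ 2) (1 + 2 * L ^ 2) fun x => ?_
    have h1 := abs_le_of_lipschitz hL x
    have h2 : |ψ x| ^ 2 ≤ (|ψ 0| + L * ‖x‖) ^ 2 := pow_le_pow_left₀ (abs_nonneg _) h1 2
    rw [sq_abs] at h2
    rw [abs_of_nonneg (by positivity)]
    nlinarith [sq_nonneg (|ψ 0| - L * ‖x‖)]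
  have i2 : Integrable (fun x => phi (ψ x) * ⟪e, x⟫ ^ 2) (stdGaussian E) := by
    refine iq (by fun_prop) 0 1 fun x => ?_
    have h1 := abs_real_inner_le_norm e x
    rw [he, one_mul] at h1
    have h2 := pow_le_pow_left₀ (abs_nonneg _) h1 2
    rw [sq_abs] at h2
    rw [abs_of_nonneg (by positivity)]; linarith
  have e1 : ∫ x, phi (ψ x) * ⟪e, x⟫ ^ 2 ∂stdGaussian E = ∫ x, phi (ψ x) ∂stdGaussian E := by
    rw [integral_resample e he i2]
    simp_rw [hinv, inner_resample e he, integral_const_mul, integral_sq_gauss, mul_one]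
  have e2 : ∀ x, phi (ψ x) * ‖bd e ψ x‖ ^ 2 =
      phi (ψ x) * (‖x‖ ^ 2 + ψ x ^ 2) - phi (ψ x) * ⟪e, x⟫ ^ 2 := by
    intro x
    rw [bd, norm_add_sq_real, norm_smul, he, real_inner_smul_right, real_inner_comm e x,
      mul_one, Real.norm_eq_abs, sq_abs]
    ring
  have main : (Module.finrank ℝ E : ℝ) * ∫ x, phi (ψ x) ∂stdGaussian E ≤
      ∫ x, phi (ψ x) * (‖x‖ ^ 2 + ψ x ^ 2) ∂stdGaussian E := by
    refine le_of_scaling (integral_nonneg fun x => (phi_pos _).le) fun s hs => ?_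
    have hs0 : 0 < s := by linarith
    have h1 := integral_scaling hs.le fun x : E => phi (ψ (s • x))
    simp only [smul_smul, mul_inv_cancel₀ hs0.ne', one_smul] at h1
    rw [← h1, ← integral_const_mul, ← integral_sub i0 (i1.const_mul _)]
    have hs2 : 0 ≤ s ^ 2 - 1 := by nlinarith
    refine integral_mono (i0.sub (i1.const_mul _)) ?_ fun x => ?_
    · refine integrable_of_le_quadratic (Continuous.aestronglyMeasurable (by fun_prop))
        (phi 0) 0 fun x => ?_
      have h2 : Real.exp (-(s ^ 2 - 1) * ‖x‖ ^ 2 / 2) ≤ 1 :=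
        Real.exp_le_one_iff.2 (by nlinarith [mul_nonneg hs2 (sq_nonneg ‖x‖)])
      rw [abs_mul, abs_of_pos (Real.exp_pos _)]
      have := mul_le_mul (hw (s • x)) h2 (Real.exp_pos _).le hp0.le
      linarith
    · have h2 : phi (ψ (s • x)) * Real.exp (-(s ^ 2 - 1) * ‖x‖ ^ 2 / 2) =
          phi (ψ x) * Real.exp (-((s ^ 2 - 1) / 2 * (‖x‖ ^ 2 + ψ x ^ 2))) := by
        rw [hhom s hs0]
        unfold phi
        rw [mul_assoc, mul_assoc, ← Real.exp_add, ← Real.exp_add]
        congr 2; ring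
      have h3 := Real.add_one_le_exp (-((s ^ 2 - 1) / 2 * (‖x‖ ^ 2 + ψ x ^ 2)))
      have h4 := mul_le_mul_of_nonneg_left h3 (phi_pos (ψ x)).le
      simp only []
      rw [h2]; linarith
  simp_rw [e2]
  rw [integral_sub i1 i2, e1]
  linarith

end Crest.Agent.R215
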