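import Crest.Agent.R215.Tree4a

/-! Generated branch-and-bound tree. -/

set_option autoImplicit false
set_option linter.unusedVariables false
set_option linter.style.longLine false

namespace Crest.Agent.R215

variable {x1 x2 x3 x4 y1 y2 y3 y4 a1 a2 a3 a4 : ℝ}

lemma T4_24 (c : Ctx4 x1 x2 x3 x4 y1 y2 y3 y4 a1 a2 a3 a4)
    (x1l : 0 ≤ x1)
    (x1u : x1 ≤ (1369/10000))
    (x2l : 0 ≤ x2)
    (x2u : x2 ≤ (5041/40000))
    (y1l : (34819/500000) ≤ y1)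
    (y2l : (56207/1000000) ≤ y2)
    (y3u : y3 ≤ (8923/200000))
    (y4u : y4 ≤ (30571/1000000))
    : False := by
  rcases le_total (34819/500000) (y2) with y2l | y2u
  · exact T4_22 c x1l x1u x2l x2u y1l y2l y3u y4u
  · exact T4_23 c x1l x1u x2u y1l y2l y2u y3u y4u

lemma T4_25 (c : Ctx4 x1 x2 x3 x4 y1 y2 y3 y4 a1 a2 a3 a4)
    (x1l : 0 ≤ x1)
    (x1u : x1 ≤ (1369/10000))
    (x2l : 0 ≤ x2)
    (x2u : x2 ≤ (5041/40000))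
    (y1l : (34819/500000) ≤ y1)
    (y2l : (56207/1000000) ≤ y2)
    (y3u : y3 ≤ (8923/200000))
    (y4u : y4 ≤ (8923/200000))
    : False := by
  rcases le_total (30571/1000000) (y4) with y4l | y4u
  · exact T4_19 c x1l x1u y1l y2l y3u y4l y4u
  · exact T4_24 c x1l x1u x2l x2u y1l y2l y3u y4u

lemma T4_26 (c : Ctx4 x1 x2 x3 x4 y1 y2 y3 y4 a1 a2 a3 a4)
    (y1u : y1 ≤ (34819/500000))
    (y2l : (56207/1000000) ≤ y2)
    (y3u : y3 ≤ (8923/200000))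
    (y4u : y4 ≤ (8923/200000))
    : False := by
  rcases le_total (34819/500000) (y2) with y2l | y2u
  · rcases le_total (30571/1000000) (y4) with y4l | y4u
    · rcases le_total (30571/1000000) (y3) with y3l | y3u
      · linarith only [c.p1, c.p3, inf_3 c.C1 y1u, y2l, top_3 c.C2 y2l, ch_5_6 c.C3 y3u y3l, y4l, ch_5_6 c.C4 y4u y4l, c.sum]
      · linarith only [c.p1, c.p3, inf_3 c.C1 y1u, y2l, top_3 c.C2 y2l, inf_6 c.C3 y3u, y4l, ch_5_6 c.C4 y4u y4l, c.sum]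
    · rcases le_total (30571/1000000) (y3) with y3l | y3u
      · rcases le_total (63/3125) (y4) with y4l | y4u
        · linarith only [c.p1, c.S, c.P3.q1, c.D1.t3, y1u, inf_3 c.C1 y1u, c.D2.t3, top_3 c.C2 y2l, c.D3.t2, ch_5_6 c.C3 y3u y3l, c.D4.t1, ch_6_7 c.C4 y4u y4l, c.sum]
        · linarith only [c.o1, c.S, c.P1.q1, c.P3.q1, y1u, inf_3 c.C1 y1u, top_3 c.C2 y2l, y3u, ch_5_6 c.C3 y3u y3l, c.D4.t1, inf_7 c.C4 y4u, c.sum]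
      · linarith only [c.p1, c.S, c.D1.t3, y1u, inf_3 c.C1 y1u, c.D2.t3, top_3 c.C2 y2l, c.D3.t2, inf_6 c.C3 y3u, c.D4.t2, inf_6 c.C4 y4u, c.sum]
  · rcases le_total (30571/1000000) (y3) with y3l | y3u
    · rcases le_total (63/3125) (y4) with y4l | y4u
      · rcases le_total (56207/1000000) (y1) with y1l | y1u
        · linarith only [c.o1, c.S, c.P3.q1, c.D1.t3, y1u, ch_3_4 c.C1 y1u y1l, c.D2.t3, ch_3_4 c.C2 y2u y2l, c.D3.t2, ch_5_6 c.C3 y3u y3l, c.D4.t1, ch_5_7 c.C4 y4u y4l, c.sum]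
        · linarith only [c.p1, c.S, c.D1.t3, inf_4 c.C1 y1u, c.D2.t3, y2l, ch_3_4 c.C2 y2u y2l, c.D3.t3, y3u, ch_5_6 c.C3 y3u y3l, c.D4.t2, ch_5_7 c.C4 y4u y4l, c.sum]
      · linarith only [c.o1, c.S, c.P1.q1, c.P2.q1, c.P3.q1, y1u, inf_3 c.C1 y1u, ch_3_4 c.C2 y2u y2l, y3u, ch_5_6 c.C3 y3u y3l, c.D4.t1, inf_7 c.C4 y4u, c.sum]
    · rcases le_total (30571/1000000) (y4) with y4l | y4u
      · linarith only [c.p1, c.o3, c.S, c.D1.t3, inf_3 c.C1 y1u, c.D2.t3, ch_3_4 c.C2 y2u y2l, c.D3.t2, inf_6 c.C3 y3u, c.D4.t2, y4l, ch_5_6 c.C4 y4u y4l, c.sum]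
      · linarith only [c.S, c.D1.t3, y1u, inf_3 c.C1 y1u, c.D2.t3, y2u, ch_3_4 c.C2 y2u y2l, c.D3.t2, inf_6 c.C3 y3u, c.D4.t2, inf_6 c.C4 y4u, c.sum]

lemma T4_27 (c : Ctx4 x1 x2 x3 x4 y1 y2 y3 y4 a1 a2 a3 a4)
    (x1l : 0 ≤ x1)
    (x1u : x1 ≤ (1369/10000))
    (x2l : 0 ≤ x2)
    (x2u : x2 ≤ (5041/40000))
    (y2l : (56207/1000000) ≤ y2)
    (y3u : y3 ≤ (8923/200000))
    (y4u : y4 ≤ (8923/200000))
    : False := by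
  rcases le_total (34819/500000) (y1) with y1l | y1u
  · exact T4_25 c x1l x1u x2l x2u y1l y2l y3u y4u
  · exact T4_26 c y1u y2l y3u y4u

lemma T4_28 (c : Ctx4 x1 x2 x3 x4 y1 y2 y3 y4 a1 a2 a3 a4)
    (x1l : 0 ≤ x1)
    (x1u : x1 ≤ (1369/10000))
    (x2l : (5041/40000) ≤ x2)
    (x2u : x2 ≤ (4/25))
    (y3u : y3 ≤ (8923/200000))
    (y4l : (30571/1000000) ≤ y4)
    (y4u : y4 ≤ (8923/200000))
    : False := by
  rcases le_total (30571/1000000) (y3) with y3l | y3u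
  · rcases le_total x1 (5041/40000) with x1u | x1l
    · linarith only [c.o1, xi_0_4_2 c.X1 x1l x1u, x2l, xi_4_7_2 c.X2 x2l x2u, y3l, ch_5_6 c.C3 y3u y3l, y4l, ch_5_6 c.C4 y4u y4l, c.sum]
    · linarith only [c.p3, x1l, xi_4_5_2 c.X1 x1l x1u, x2l, xi_4_7_2 c.X2 x2l x2u, ch_5_6 c.C3 y3u y3l, y4l, ch_5_6 c.C4 y4u y4l, c.sum]
  · rcases le_total (34819/500000) (y1) with y1l | y1u
    · linarith only [c.p3, top_3 c.C1 y1l, x2l, xi_4_7_2 c.X2 x2l x2u, inf_6 c.C3 y3u, y4l, ch_5_6 c.C4 y4u y4l, c.sum]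
    · linarith only [c.p1, y1u, c.D2.t3, x2l]

lemma T4_29 (c : Ctx4 x1 x2 x3 x4 y1 y2 y3 y4 a1 a2 a3 a4)
    (x1l : 0 ≤ x1)
    (x1u : x1 ≤ (1369/10000))
    (x2l : (5041/40000) ≤ x2)
    (x2u : x2 ≤ (4/25))
    (y3u : y3 ≤ (8923/200000))
    (y4u : y4 ≤ (30571/1000000))
    : False := by
  rcases le_total (30571/1000000) (y3) with y3l | y3u
  · rcases le_total (1279/100000) (y4) with y4l | y4u
    · rcases le_total x1 (5041/40000) with x1u | x1l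
      · linarith only [c.o1, c.S, c.P3.q1, xi_0_4_2 c.X1 x1l x1u, x2l, xi_4_7_2 c.X2 x2l x2u, c.D3.t2, ch_5_6 c.C3 y3u y3l, c.D4.t1, ch_6_8 c.C4 y4u y4l, c.sum]
      · linarith only [c.S, c.P3.q1, x1l, xi_4_5_2 c.X1 x1l x1u, x2l, xi_4_7_2 c.X2 x2l x2u, c.D3.t2, ch_5_6 c.C3 y3u y3l, c.D4.t1, ch_6_8 c.C4 y4u y4l, c.sum]
    · rcases le_total x1 (5041/40000) with x1u | x1l
      · linarith only [c.o1, c.S, c.P3.q0, x1u, y3u, c.D4.t1, y4u]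
      · rcases le_total (5491/1000000) (y4) with y4l | y4u
        · linarith only [c.o1, c.S, c.P3.q0, xi_4_5_2 c.X1 x1l x1u, xi_4_7_2 c.X2 x2l x2u, y3u, ch_5_6 c.C3 y3u y3l, c.D4.t1, y4u, ch_8_10 c.C4 y4u y4l, c.sum]
        · linarith only [c.o1, c.S, c.P3.q0, x1u, y3u, c.D4.t0, y4u]
  · rcases le_total x1 (5041/40000) with x1u | x1l
    · rcases le_total (63/3125) (y4) with y4l | y4u
      · rcases le_total (63/3125) (y3) with y3l | y3u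
        · linarith only [c.o1, c.S, xi_0_4_2 c.X1 x1l x1u, x2l, xi_4_7_2 c.X2 x2l x2u, c.D3.t2, ch_6_7 c.C3 y3u y3l, c.D4.t2, ch_6_7 c.C4 y4u y4l, c.sum]
        · linarith only [c.o1, c.o3, c.S, c.P3.q1, x1u, y3u]
      · linarith only [c.o1, c.S, c.P3.q1, x1u, y3u, c.D4.t3, y4u]
    · rcases le_total (63/3125) (y4) with y4l | y4u
      · rcases le_total (63/3125) (y3) with y3l | y3u
        · linarith only [c.S, x1l, xi_4_5_2 c.X1 x1l x1u, x2l, xi_4_7_2 c.X2 x2l x2u, c.D3.t2, ch_6_7 c.C3 y3u y3l, c.D4.t2, ch_6_7 c.C4 y4u y4l, c.sum]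
        · linarith only [c.o1, c.o3, c.S, c.P3.q1, x1u, y3u]
      · linarith only [c.o1, c.S, c.P3.q1, x1u, xi_4_5_1 c.X1 x1l x1u, xi_4_7_1 c.X2 x2l x2u, inf_6 c.C3 y3u, c.D4.t1, y4u, inf_7 c.C4 y4u, c.sum]

lemma T4_30 (c : Ctx4 x1 x2 x3 x4 y1 y2 y3 y4 a1 a2 a3 a4)
    (x1l : 0 ≤ x1)
    (x1u : x1 ≤ (1369/10000))
    (x2l : (5041/40000) ≤ x2)
    (x2u : x2 ≤ (4/25))
    (y3u : y3 ≤ (8923/200000))
    (y4u : y4 ≤ (8923/200000))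
    : False := by
  rcases le_total (30571/1000000) (y4) with y4l | y4u
  · exact T4_28 c x1l x1u x2l x2u y3u y4l y4u
  · exact T4_29 c x1l x1u x2l x2u y3u y4u

lemma T4_31 (c : Ctx4 x1 x2 x3 x4 y1 y2 y3 y4 a1 a2 a3 a4)
    (x1l : 0 ≤ x1)
    (x1u : x1 ≤ (1369/10000))
    (x2l : 0 ≤ x2)
    (x2u : x2 ≤ (4/25))
    (y2l : (56207/1000000) ≤ y2)
    (y3u : y3 ≤ (8923/200000))
    (y4u : y4 ≤ (8923/200000))
    : False := by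
  rcases le_total x2 (5041/40000) with x2u | x2l
  · exact T4_27 c x1l x1u x2l x2u y2l y3u y4u
  · exact T4_30 c x1l x1u x2l x2u y3u y4u

lemma T4_32 (c : Ctx4 x1 x2 x3 x4 y1 y2 y3 y4 a1 a2 a3 a4)
    (x1l : (1369/10000) ≤ x1)
    (x1u : x1 ≤ (4/25))
    (y2l : (56207/1000000) ≤ y2)
    (y3u : y3 ≤ (8923/200000))
    (y4l : (30571/1000000) ≤ y4)
    (y4u : y4 ≤ (8923/200000))
    : False := by
  rcases le_total (34819/500000) (y2) with y2l | y2u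
  · linarith only [c.p3, x1l, xi_5_7_1 c.X1 x1l x1u, top_3 c.C2 y2l, inf_5 c.C3 y3u, y4l, ch_5_6 c.C4 y4u y4l, c.sum]
  · rcases le_total (30571/1000000) (y3) with y3l | y3u
    · linarith only [c.o3, c.S, x1l, xi_5_7_1 c.X1 x1l x1u, c.D2.t3, ch_3_4 c.C2 y2u y2l, c.D3.t2, ch_5_6 c.C3 y3u y3l, c.D4.t2, y4l, ch_5_6 c.C4 y4u y4l, c.sum]
    · linarith only [c.p3, c.S, x1l, xi_5_7_1 c.X1 x1l x1u, c.D2.t3, ch_3_4 c.C2 y2u y2l, c.D3.t2, inf_6 c.C3 y3u, c.D4.t2, y4l, ch_5_6 c.C4 y4u y4l, c.sum]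

lemma T4_33 (c : Ctx4 x1 x2 x3 x4 y1 y2 y3 y4 a1 a2 a3 a4)
    (x1l : (1369/10000) ≤ x1)
    (x1u : x1 ≤ (4/25))
    (x2l : 0 ≤ x2)
    (x2u : x2 ≤ (1369/10000))
    (y2l : (56207/1000000) ≤ y2)
    (y3l : (30571/1000000) ≤ y3)
    (y3u : y3 ≤ (8923/200000))
    (y4u : y4 ≤ (30571/1000000))
    : False := by
  rcases le_total (1279/100000) (y4) with y4l | y4u
  · rcases le_total (34819/500000) (y2) with y2l | y2u
    · linarith only [c.S, c.P3.q1, x1l, xi_5_7_1 c.X1 x1l x1u, top_3 c.C2 y2l, xi_0_5_3 c.X2 x2l x2u, y3l, ch_5_6 c.C3 y3u y3l, c.D4.t1, ch_6_8 c.C4 y4u y4l, c.sum]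
    · linarith only [c.S, c.P2.q1, c.P3.q1, x1l, xi_5_7_1 c.X1 x1l x1u, c.D2.t3, ch_3_4 c.C2 y2u y2l, y3l, ch_5_6 c.C3 y3u y3l, c.D4.t1, ch_6_8 c.C4 y4u y4l, c.sum]
  · rcases le_total (34819/500000) (y2) with y2l | y2u
    · rcases le_total (1326/15625) (y2) with y2l | y2u
      · rcases le_total (5491/1000000) (y4) with y4l | y4u
        · linarith only [c.S, c.P3.q0, x1l, xi_5_7_1 c.X1 x1l x1u, top_2 c.C2 y2l, xi_0_5_2 c.X2 x2l x2u, y3u, ch_5_6 c.C3 y3u y3l, c.D4.t0, ch_8_10 c.C4 y4u y4l, c.sum]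
        · linarith only [c.S, c.L3, c.P3.q0, xi_5_7_1 c.X1 x1l x1u, top_2 c.C2 y2l, xi_0_5_2 c.X2 x2l x2u, y3u, ch_5_6 c.C3 y3u y3l, c.D4.t0, inf_10 c.C4 y4u, c.sum]
      · rcases le_total (7803/1000000) (y4) with y4l | y4u
        · linarith only [c.S, c.P2.q0, c.P3.q0, x1l, xi_5_7_1 c.X1 x1l x1u, ch_2_3 c.C2 y2u y2l, xi_0_5_2 c.X2 x2l x2u, ch_5_6 c.C3 y3u y3l, c.D4.t0, c.D4.t1, ch_8_9 c.C4 y4u y4l, c.sum]
        · linarith only [c.S, c.P2.q0, c.P3.q0, xi_5_7_0 c.X1 x1l x1u, xi_5_7_1 c.X1 x1l x1u, ch_2_3 c.C2 y2u y2l, xi_0_5_2 c.X2 x2l x2u, y3u, ch_5_6 c.C3 y3u y3l, c.D4.t0, inf_9 c.C4 y4u, c.sum]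
    · linarith only [c.S, c.P3.q0, c.P2.q1, xi_5_7_1 c.X1 x1l x1u, y2u, ch_3_4 c.C2 y2u y2l, y3u, ch_5_6 c.C3 y3u y3l, c.D4.t1, y4u, inf_8 c.C4 y4u, c.sum]

lemma T4_34 (c : Ctx4 x1 x2 x3 x4 y1 y2 y3 y4 a1 a2 a3 a4)
    (x1l : (1369/10000) ≤ x1)
    (x1u : x1 ≤ (4/25))
    (x2l : 0 ≤ x2)
    (x2u : x2 ≤ (1369/10000))
    (y2l : (56207/1000000) ≤ y2)
    (y3u : y3 ≤ (30571/1000000))
    (y4u : y4 ≤ (30571/1000000))
    : False := by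
  rcases le_total (34819/500000) (y2) with y2l | y2u
  · rcases le_total (63/3125) (y4) with y4l | y4u
    · rcases le_total (63/3125) (y3) with y3l | y3u
      · linarith only [c.S, x1l, xi_5_7_1 c.X1 x1l x1u, top_3 c.C2 y2l, xi_0_5_3 c.X2 x2l x2u, c.D3.t1, ch_6_7 c.C3 y3u y3l, c.D4.t1, ch_6_7 c.C4 y4u y4l, c.sum]
      · linarith only [c.o3, c.S, c.P3.q1, xi_5_7_0 c.X1 x1l x1u, xi_0_5_2 c.X2 x2l x2u, xi_0_5_3 c.X2 x2l x2u, y3u, inf_7 c.C3 y3u, y4l, ch_6_7 c.C4 y4u y4l, c.sum]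
    · rcases le_total (63/3125) (y3) with y3l | y3u
      · rcases le_total x2 (5041/40000) with x2u | x2l
        · linarith only [c.S, c.P3.q1, xi_5_7_1 c.X1 x1l x1u, top_3 c.C2 y2l, xi_0_4_3 c.X2 x2l x2u, y3u, ch_6_7 c.C3 y3u y3l, c.D4.t1, y4u, inf_7 c.C4 y4u, c.sum]
        · linarith only [c.S, c.P3.q0, x1l, xi_5_7_1 c.X1 x1l x1u, xi_4_5_1 c.X2 x2l x2u, xi_4_5_2 c.X2 x2l x2u, y3u, ch_6_7 c.C3 y3u y3l, c.D4.t1, inf_7 c.C4 y4u, c.sum]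
      · linarith only [c.o3, c.S, c.P3.q1, xi_5_7_0 c.X1 x1l x1u, xi_0_5_2 c.X2 x2l x2u, xi_0_5_3 c.X2 x2l x2u, y3u, inf_7 c.C3 y3u, c.D4.t1, inf_7 c.C4 y4u, c.sum]
  · rcases le_total (63/3125) (y4) with y4l | y4u
    · linarith only [c.o3, c.S, x1l, xi_5_7_1 c.X1 x1l x1u, c.D2.t3, y2u, ch_3_4 c.C2 y2u y2l, c.D3.t1, inf_6 c.C3 y3u, c.D4.t1, ch_6_7 c.C4 y4u y4l, c.sum]
    · linarith only [c.S, c.P2.q1, c.P3.q1, xi_5_7_0 c.X1 x1l x1u, xi_5_7_1 c.X1 x1l x1u, y2u, ch_3_4 c.C2 y2u y2l, inf_6 c.C3 y3u, c.D4.t1, y4u, inf_7 c.C4 y4u, c.sum]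

lemma T4_35 (c : Ctx4 x1 x2 x3 x4 y1 y2 y3 y4 a1 a2 a3 a4)
    (x1l : (1369/10000) ≤ x1)
    (x1u : x1 ≤ (4/25))
    (x2l : 0 ≤ x2)
    (x2u : x2 ≤ (1369/10000))
    (y2l : (56207/1000000) ≤ y2)
    (y3u : y3 ≤ (8923/200000))
    (y4u : y4 ≤ (30571/1000000))
    : False := by
  rcases le_total (30571/1000000) (y3) with y3l | y3u
  · exact T4_33 c x1l x1u x2l x2u y2l y3l y3u y4u
  · exact T4_34 c x1l x1u x2l x2u y2l y3u y4u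

lemma T4_36 (c : Ctx4 x1 x2 x3 x4 y1 y2 y3 y4 a1 a2 a3 a4)
    (x1l : (1369/10000) ≤ x1)
    (x1u : x1 ≤ (4/25))
    (x2l : 0 ≤ x2)
    (x2u : x2 ≤ (1369/10000))
    (y2l : (56207/1000000) ≤ y2)
    (y3u : y3 ≤ (8923/200000))
    (y4u : y4 ≤ (8923/200000))
    : False := by
  rcases le_total (30571/1000000) (y4) with y4l | y4u
  · exact T4_32 c x1l x1u y2l y3u y4l y4u
  · exact T4_35 c x1l x1u x2l x2u y2l y3u y4u

lemma T4_37 (c : Ctx4 x1 x2 x3 x4 y1 y2 y3 y4 a1 a2 a3 a4)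
    (x1l : (1369/10000) ≤ x1)
    (x1u : x1 ≤ (4/25))
    (x2l : (1369/10000) ≤ x2)
    (x2u : x2 ≤ (4/25))
    (y3u : y3 ≤ (8923/200000))
    (y4u : y4 ≤ (8923/200000))
    : False := by
  rcases le_total (63/3125) (y4) with y4l | y4u
  · rcases le_total (63/3125) (y3) with y3l | y3u
    · linarith only [c.o3, c.S, c.P3.q1, x1l, xi_5_7_1 c.X1 x1l x1u, x2l, xi_5_7_1 c.X2 x2l x2u, ch_5_7 c.C3 y3u y3l, c.D4.t1, ch_5_7 c.C4 y4u y4l, c.sum]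
    · linarith only [c.o3, c.S, c.P3.q1, xi_5_7_1 c.X1 x1l x1u, xi_5_7_1 c.X2 x2l x2u, y3u, inf_7 c.C3 y3u, y4l, ch_5_7 c.C4 y4u y4l, c.sum]
  · rcases le_total (7803/1000000) (y4) with y4l | y4u
    · rcases le_total (63/3125) (y3) with y3l | y3u
      · linarith only [c.S, c.P3.q0, x1l, xi_5_7_1 c.X1 x1l x1u, x2l, xi_5_7_1 c.X2 x2l x2u, ch_5_7 c.C3 y3u y3l, c.D4.t0, c.D4.t1, ch_7_9 c.C4 y4u y4l, c.sum]
      · linarith only [c.o3, c.S, c.P3.q1, xi_5_7_1 c.X1 x1l x1u, xi_5_7_1 c.X2 x2l x2u, y3u, inf_7 c.C3 y3u, c.D4.t1, ch_7_9 c.C4 y4u y4l, c.sum]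
    · linarith only [c.S, c.L3, c.P3.q0, xi_5_7_1 c.X1 x1l x1u, xi_5_7_1 c.X2 x2l x2u, y3u, inf_5 c.C3 y3u, c.D4.t0, inf_9 c.C4 y4u, c.sum]

lemma T4_38 (c : Ctx4 x1 x2 x3 x4 y1 y2 y3 y4 a1 a2 a3 a4)
    (x1l : (1369/10000) ≤ x1)
    (x1u : x1 ≤ (4/25))
    (x2l : 0 ≤ x2)
    (x2u : x2 ≤ (4/25))
    (y2l : (56207/1000000) ≤ y2)
    (y3u : y3 ≤ (8923/200000))
    (y4u : y4 ≤ (8923/200000))
    : False := by
  rcases le_total x2 (1369/10000) with x2u | x2l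
  · exact T4_36 c x1l x1u x2l x2u y2l y3u y4u
  · exact T4_37 c x1l x1u x2l x2u y3u y4u

lemma T4_39 (c : Ctx4 x1 x2 x3 x4 y1 y2 y3 y4 a1 a2 a3 a4)
    (x1l : 0 ≤ x1)
    (x1u : x1 ≤ (4/25))
    (x2l : 0 ≤ x2)
    (x2u : x2 ≤ (4/25))
    (y2l : (56207/1000000) ≤ y2)
    (y3u : y3 ≤ (8923/200000))
    (y4u : y4 ≤ (8923/200000))
    : False := by
  rcases le_total x1 (1369/10000) with x1u | x1l
  · exact T4_31 c x1l x1u x2l x2u y2l y3u y4u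
  · exact T4_38 c x1l x1u x2l x2u y2l y3u y4u

lemma T4_40 (c : Ctx4 x1 x2 x3 x4 y1 y2 y3 y4 a1 a2 a3 a4)
    (x1l : 0 ≤ x1)
    (x1u : x1 ≤ (4/25))
    (x2l : 0 ≤ x2)
    (x2u : x2 ≤ (4/25))
    (y2l : (56207/1000000) ≤ y2)
    (y4u : y4 ≤ (8923/200000))
    : False := by
  rcases le_total (8923/200000) (y3) with y3l | y3u
  · exact T4_18 c x1l x1u x2l x2u y2l y3l y4u
  · exact T4_39 c x1l x1u x2l x2u y2l y3u y4u

lemma T4_41 (c : Ctx4 x1 x2 x3 x4 y1 y2 y3 y4 a1 a2 a3 a4)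
    (x1l : 0 ≤ x1)
    (x1u : x1 ≤ (1369/10000))
    (y1l : (56207/1000000) ≤ y1)
    (y2u : y2 ≤ (56207/1000000))
    (y3l : (8923/200000) ≤ y3)
    (y4l : (63/3125) ≤ y4)
    (y4u : y4 ≤ (8923/200000))
    : False := by
  rcases le_total (34819/500000) (y1) with y1l | y1u
  · rcases le_total x1 (5041/40000) with x1u | x1l
    · rcases le_total (56207/1000000) (y3) with y3l | y3u
      · linarith only [c.p2, top_3 c.C1 y1l, inf_4 c.C2 y2u, y3l, top_4 c.C3 y3l, y4l, ch_5_7 c.C4 y4u y4l, c.sum]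
      · rcases le_total (8923/200000) (y2) with y2l | y2u
        · linarith only [c.S, c.P2.q1, c.P3.q1, top_3 c.C1 y1l, xi_0_4_3 c.X1 x1l x1u, c.D2.t3, ch_4_5 c.C2 y2u y2l, c.D3.t3, ch_4_5 c.C3 y3u y3l, c.D4.t1, ch_5_7 c.C4 y4u y4l, c.sum]
        · linarith only [c.o2, c.S, top_3 c.C1 y1l, xi_0_4_3 c.X1 x1l x1u, c.D2.t3, inf_5 c.C2 y2u, c.D3.t3, y3l, ch_4_5 c.C3 y3u y3l, c.D4.t2, ch_5_7 c.C4 y4u y4l, c.sum]
    · rcases le_total (56207/1000000) (y3) with y3l | y3u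
      · linarith only [c.p2, x1l, xi_4_5_2 c.X1 x1l x1u, inf_4 c.C2 y2u, y3l, top_4 c.C3 y3l, y4l, ch_5_7 c.C4 y4u y4l, c.sum]
      · rcases le_total (8923/200000) (y2) with y2l | y2u
        · linarith only [c.o2, c.S, c.P3.q1, x1l, xi_4_5_2 c.X1 x1l x1u, c.D2.t3, ch_4_5 c.C2 y2u y2l, c.D3.t3, ch_4_5 c.C3 y3u y3l, c.D4.t1, ch_5_7 c.C4 y4u y4l, c.sum]
        · linarith only [c.o2, c.S, x1l, xi_4_5_2 c.X1 x1l x1u, c.D2.t3, y2u, inf_5 c.C2 y2u, y3l, ch_4_5 c.C3 y3u y3l, c.D4.t2, ch_5_7 c.C4 y4u y4l, c.sum]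
  · rcases le_total (56207/1000000) (y3) with y3l | y3u
    · linarith only [c.p2, c.S, c.P2.q1, c.D1.t3, ch_3_4 c.C1 y1u y1l, c.D2.t3, y2u, inf_4 c.C2 y2u, c.D3.t3, top_4 c.C3 y3l, c.D4.t1, ch_5_7 c.C4 y4u y4l, c.sum]
    · rcases le_total (8923/200000) (y2) with y2l | y2u
      · linarith only [c.S, c.P2.q1, c.P3.q1, c.D1.t3, y1u, ch_3_4 c.C1 y1u y1l, c.D2.t3, ch_4_5 c.C2 y2u y2l, c.D3.t3, ch_4_5 c.C3 y3u y3l, c.D4.t1, ch_5_7 c.C4 y4u y4l, c.sum]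
      · linarith only [c.o2, c.S, c.D1.t3, y1u, ch_3_4 c.C1 y1u y1l, c.D2.t3, inf_5 c.C2 y2u, c.D3.t3, y3l, ch_4_5 c.C3 y3u y3l, c.D4.t2, ch_5_7 c.C4 y4u y4l, c.sum]

lemma T4_42 (c : Ctx4 x1 x2 x3 x4 y1 y2 y3 y4 a1 a2 a3 a4)
    (x1l : 0 ≤ x1)
    (x1u : x1 ≤ (1369/10000))
    (y2u : y2 ≤ (56207/1000000))
    (y3l : (8923/200000) ≤ y3)
    (y4u : y4 ≤ (63/3125))
    : False := by
  rcases le_total (34819/500000) (y1) with y1l | y1u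
  · rcases le_total (56207/1000000) (y3) with y3l | y3u
    · rcases le_total x1 (5041/40000) with x1u | x1l
      · linarith only [c.o2, c.S, c.P2.q1, top_3 c.C1 y1l, xi_0_4_3 c.X1 x1l x1u, y2u, inf_4 c.C2 y2u, top_4 c.C3 y3l, c.D4.t1, inf_7 c.C4 y4u, c.sum]
      · linarith only [c.o2, c.S, c.P2.q1, x1l, xi_4_5_2 c.X1 x1l x1u, y2u, inf_4 c.C2 y2u, top_4 c.C3 y3l, c.D4.t1, inf_7 c.C4 y4u, c.sum]
    · rcases le_total x1 (5041/40000) with x1u | x1l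
      · linarith only [c.o2, c.S, c.P2.q1, c.P3.q1, top_3 c.C1 y1l, xi_0_4_3 c.X1 x1l x1u, y2u, inf_4 c.C2 y2u, ch_4_5 c.C3 y3u y3l, c.D4.t1, inf_7 c.C4 y4u, c.sum]
      · linarith only [c.S, c.P2.q1, c.P3.q1, x1l, xi_4_5_2 c.X1 x1l x1u, y2u, inf_4 c.C2 y2u, y3u, ch_4_5 c.C3 y3u y3l, c.D4.t1, inf_7 c.C4 y4u, c.sum]
  · linarith only [c.o2, c.S, c.P1.q1, c.P2.q1, y1u, y2u, c.D4.t1, y4u]

lemma T4_43 (c : Ctx4 x1 x2 x3 x4 y1 y2 y3 y4 a1 a2 a3 a4)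
    (x1l : 0 ≤ x1)
    (x1u : x1 ≤ (1369/10000))
    (y1l : (56207/1000000) ≤ y1)
    (y2u : y2 ≤ (56207/1000000))
    (y3l : (8923/200000) ≤ y3)
    (y4u : y4 ≤ (8923/200000))
    : False := by
  rcases le_total (63/3125) (y4) with y4l | y4u
  · exact T4_41 c x1l x1u y1l y2u y3l y4l y4u
  · exact T4_42 c x1l x1u y2u y3l y4u

lemma T4_44 (c : Ctx4 x1 x2 x3 x4 y1 y2 y3 y4 a1 a2 a3 a4)
    (x1l : (1369/10000) ≤ x1)
    (x1u : x1 ≤ (4/25))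
    (y2u : y2 ≤ (56207/1000000))
    (y3l : (8923/200000) ≤ y3)
    (y4u : y4 ≤ (8923/200000))
    : False := by
  rcases le_total (1279/100000) (y4) with y4l | y4u
  · rcases le_total (8923/200000) (y2) with y2l | y2u
    · rcases le_total (56207/1000000) (y3) with y3l | y3u
      · linarith only [c.o2, c.S, c.P2.q1, x1l, xi_5_7_1 c.X1 x1l x1u, y2u, ch_4_5 c.C2 y2u y2l, top_4 c.C3 y3l, c.D4.t1, ch_5_8 c.C4 y4u y4l, c.sum]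
      · linarith only [c.o2, c.S, c.P3.q1, x1l, xi_5_7_1 c.X1 x1l x1u, c.D2.t3, ch_4_5 c.C2 y2u y2l, c.D3.t3, ch_4_5 c.C3 y3u y3l, c.D4.t1, ch_5_8 c.C4 y4u y4l, c.sum]
    · linarith only [c.p2, c.S, x1l, xi_5_7_1 c.X1 x1l x1u, c.D2.t3, y2u, inf_5 c.C2 y2u, c.D3.t3, top_5 c.C3 y3l, c.D4.t2, ch_5_8 c.C4 y4u y4l, c.sum]
  · linarith only [c.o2, c.S, c.P2.q0, xi_5_7_1 c.X1 x1l x1u, y2u, inf_4 c.C2 y2u, top_5 c.C3 y3l, c.D4.t1, y4u, inf_8 c.C4 y4u, c.sum]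

lemma T4_45 (c : Ctx4 x1 x2 x3 x4 y1 y2 y3 y4 a1 a2 a3 a4)
    (x1l : 0 ≤ x1)
    (x1u : x1 ≤ (4/25))
    (y1l : (56207/1000000) ≤ y1)
    (y2u : y2 ≤ (56207/1000000))
    (y3l : (8923/200000) ≤ y3)
    (y4u : y4 ≤ (8923/200000))
    : False := by
  rcases le_total x1 (1369/10000) with x1u | x1l
  · exact T4_43 c x1l x1u y1l y2u y3l y4u
  · exact T4_44 c x1l x1u y2u y3l y4u

lemma T4_46 (c : Ctx4 x1 x2 x3 x4 y1 y2 y3 y4 a1 a2 a3 a4)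
    (y1u : y1 ≤ (56207/1000000))
    (y2u : y2 ≤ (56207/1000000))
    (y3l : (8923/200000) ≤ y3)
    (y4u : y4 ≤ (8923/200000))
    : False := by
  rcases le_total (30571/1000000) (y4) with y4l | y4u
  · rcases le_total (56207/1000000) (y3) with y3l | y3u
    · linarith only [c.p1, c.p2, inf_4 c.C1 y1u, inf_4 c.C2 y2u, y3l, top_4 c.C3 y3l, y4l, ch_5_6 c.C4 y4u y4l, c.sum]
    · rcases le_total (8923/200000) (y1) with y1l | y1u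
      · linarith only [c.o2, c.S, c.D1.t3, y1u, ch_4_5 c.C1 y1u y1l, c.D2.t3, inf_4 c.C2 y2u, c.D3.t3, ch_4_5 c.C3 y3u y3l, c.D4.t3, y4u, ch_5_6 c.C4 y4u y4l, c.sum]
      · linarith only [c.o1, c.o2, c.o3, c.S, c.D1.t3, y1u]
  · rcases le_total (56207/1000000) (y3) with y3l | y3u
    · linarith only [c.o2, c.S, c.D1.t3, y1u, inf_4 c.C1 y1u, c.D2.t3, y2u, inf_4 c.C2 y2u, top_4 c.C3 y3l, c.D4.t2, inf_6 c.C4 y4u, c.sum]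
    · linarith only [c.o1, c.p2, c.S, c.D1.t3, y1u, inf_4 c.C1 y1u, c.D2.t3, inf_4 c.C2 y2u, c.D3.t3, ch_4_5 c.C3 y3u y3l, c.D4.t2, inf_6 c.C4 y4u, c.sum]

lemma T4_47 (c : Ctx4 x1 x2 x3 x4 y1 y2 y3 y4 a1 a2 a3 a4)
    (x1l : 0 ≤ x1)
    (x1u : x1 ≤ (4/25))
    (y2u : y2 ≤ (56207/1000000))
    (y3l : (8923/200000) ≤ y3)
    (y4u : y4 ≤ (8923/200000))
    : False := by
  rcases le_total (56207/1000000) (y1) with y1l | y1u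
  · exact T4_45 c x1l x1u y1l y2u y3l y4u
  · exact T4_46 c y1u y2u y3l y4u

lemma T4_48 (c : Ctx4 x1 x2 x3 x4 y1 y2 y3 y4 a1 a2 a3 a4)
    (x1l : 0 ≤ x1)
    (x1u : x1 ≤ (1369/10000))
    (y1l : (34819/500000) ≤ y1)
    (y2u : y2 ≤ (56207/1000000))
    (y3u : y3 ≤ (8923/200000))
    (y4l : (30571/1000000) ≤ y4)
    (y4u : y4 ≤ (8923/200000))
    : False := by
  rcases le_total (8923/200000) (y2) with y2l | y2u
  · rcases le_total (30571/1000000) (y3) with y3l | y3u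
    · rcases le_total x1 (5041/40000) with x1u | x1l
      · linarith only [c.S, top_3 c.C1 y1l, xi_0_4_3 c.X1 x1l x1u, c.D2.t3, y2u, ch_4_5 c.C2 y2u y2l, c.D3.t2, ch_5_6 c.C3 y3u y3l, c.D4.t2, ch_5_6 c.C4 y4u y4l, c.sum]
      · linarith only [c.S, x1l, xi_4_5_2 c.X1 x1l x1u, c.D2.t3, y2u, ch_4_5 c.C2 y2u y2l, c.D3.t2, ch_5_6 c.C3 y3u y3l, c.D4.t2, ch_5_6 c.C4 y4u y4l, c.sum]
    · linarith only [c.p3, c.S, x1u, c.D2.t3, y2u, c.D3.t2, y3u, c.D4.t3]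
  · rcases le_total x1 (5041/40000) with x1u | x1l
    · rcases le_total (30571/1000000) (y2) with y2l | y2u
      · linarith only [c.o3, c.S, top_3 c.C1 y1l, xi_0_4_3 c.X1 x1l x1u, c.D2.t3, y2u, ch_5_6 c.C2 y2u y2l, c.D3.t2, inf_5 c.C3 y3u, c.D4.t2, ch_5_6 c.C4 y4u y4l, c.sum]
      · linarith only [c.o2, c.o3, c.S, c.P2.q1, x1u, y2u]
    · linarith only [c.p2, c.o3, c.S, x1l, xi_4_5_2 c.X1 x1l x1u, c.D2.t2, inf_5 c.C2 y2u, c.D3.t2, inf_5 c.C3 y3u, c.D4.t2, ch_5_6 c.C4 y4u y4l, c.sum]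

lemma T4_49 (c : Ctx4 x1 x2 x3 x4 y1 y2 y3 y4 a1 a2 a3 a4)
    (x1l : 0 ≤ x1)
    (x1u : x1 ≤ (1369/10000))
    (y1l : (34819/500000) ≤ y1)
    (y2u : y2 ≤ (56207/1000000))
    (y3u : y3 ≤ (8923/200000))
    (y4u : y4 ≤ (30571/1000000))
    : False := by
  rcases le_total x1 (5041/40000) with x1u | x1l
  · rcases le_total (63/3125) (y4) with y4l | y4u
    · rcases le_total (30571/1000000) (y3) with y3l | y3u
      · rcases le_total (8923/200000) (y2) with y2l | y2u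
        · linarith only [c.S, c.P3.q1, top_3 c.C1 y1l, xi_0_4_3 c.X1 x1l x1u, c.D2.t3, y2u, ch_4_5 c.C2 y2u y2l, c.D3.t3, ch_5_6 c.C3 y3u y3l, c.D4.t1, ch_6_7 c.C4 y4u y4l, c.sum]
        · linarith only [c.S, c.P2.q1, c.P3.q1, x1u, y2u, y3u, c.D4.t3, y4u]
      · linarith only [c.S, c.P2.q1, c.P3.q1, x1u, y2u, y3u, c.D4.t3, y4u]
    · linarith only [c.S, c.P2.q0, c.P3.q0, x1u, y2u, y3u, c.D4.t3, y4u]
  · rcases le_total (30571/1000000) (y3) with y3l | y3u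
    · rcases le_total (63/3125) (y4) with y4l | y4u
      · linarith only [c.S, x1l, xi_4_5_2 c.X1 x1l x1u, c.D2.t3, inf_4 c.C2 y2u, c.D3.t3, y3u, ch_5_6 c.C3 y3u y3l, c.D4.t2, y4u, ch_6_7 c.C4 y4u y4l, c.sum]
      · linarith only [c.S, c.P2.q1, c.P3.q1, x1u, y2u, y3u, c.D4.t2, y4u]
    · linarith only [c.S, c.P3.q1, x1u, c.D2.t3, y2u, y3u, c.D4.t2, y4u]

lemma T4_50 (c : Ctx4 x1 x2 x3 x4 y1 y2 y3 y4 a1 a2 a3 a4)
    (x1l : 0 ≤ x1)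
    (x1u : x1 ≤ (1369/10000))
    (y1l : (34819/500000) ≤ y1)
    (y2u : y2 ≤ (56207/1000000))
    (y3u : y3 ≤ (8923/200000))
    (y4u : y4 ≤ (8923/200000))
    : False := by
  rcases le_total (30571/1000000) (y4) with y4l | y4u
  · exact T4_48 c x1l x1u y1l y2u y3u y4l y4u
  · exact T4_49 c x1l x1u y1l y2u y3u y4u

lemma T4_51 (c : Ctx4 x1 x2 x3 x4 y1 y2 y3 y4 a1 a2 a3 a4)
    (y1l : (56207/1000000) ≤ y1)
    (y1u : y1 ≤ (34819/500000))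
    (y2u : y2 ≤ (56207/1000000))
    (y3u : y3 ≤ (8923/200000))
    (y4u : y4 ≤ (8923/200000))
    : False := by
  rcases le_total (30571/1000000) (y3) with y3l | y3u
  · rcases le_total (30571/1000000) (y4) with y4l | y4u
    · rcases le_total (8923/200000) (y2) with y2l | y2u
      · linarith only [c.S, c.D1.t3, y1u, ch_3_4 c.C1 y1u y1l, c.D2.t3, y2u, ch_4_5 c.C2 y2u y2l, c.D3.t2, ch_5_6 c.C3 y3u y3l, c.D4.t2, ch_5_6 c.C4 y4u y4l, c.sum]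
      · linarith only [c.p2, c.o3, c.S, c.D1.t3, y1u, ch_3_4 c.C1 y1u y1l, c.D2.t2, inf_5 c.C2 y2u, c.D3.t2, ch_5_6 c.C3 y3u y3l, c.D4.t2, ch_5_6 c.C4 y4u y4l, c.sum]
    · linarith only [c.S, c.D1.t3, y1u, ch_3_4 c.C1 y1u y1l, c.D2.t3, y2u, inf_4 c.C2 y2u, c.D3.t3, y3u, ch_5_6 c.C3 y3u y3l, c.D4.t2, inf_6 c.C4 y4u, c.sum]
  · linarith only [c.p3, c.S, c.P3.q0, c.P1.q1, c.P2.q1, y1u, y2u, y3u, c.D4.t3]

end Crest.Agent.R215
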