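import Crest.Agent.R215.Num3

/-! Generated branch-and-bound tree. -/

set_option autoImplicit false
set_option linter.unusedVariables false
set_option linter.style.longLine false

namespace Crest.Agent.R215

variable {x1 x2 x3 x4 y1 y2 y3 y4 a1 a2 a3 a4 e xs ae : ℝ}

lemma T5_1 (c : Ctx5 x1 x2 x3 x4 y1 y2 y3 y4 a1 a2 a3 a4 e xs ae)
    (x1l : 0 ≤ x1)
    (x1u : x1 ≤ (4/25))
    (y4l : (1326/15625) ≤ y4)
    : False := by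
  rcases le_total (5087/50000) (y4) with y4l | y4u
  · rcases le_total (39789/250000) (y4) with y4l | y4u
    · rcases le_total (39789/250000) (y3) with y3l | y3u
      · rcases le_total (39789/250000) (y2) with y2l | y2u
        · linarith only [top_0 c.C2 y2l, top_0 c.C3 y3l, top_0 c.C4 y4l, c.n_a1, c.n_ae, c.sum]
        · linarith only [c.p2, inf_0 c.C2 y2u, y3l, top_0 c.C3 y3l, top_0 c.C4 y4l, c.n_a1, c.n_ae, c.sum]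
      · rcases le_total (39789/250000) (y2) with y2l | y2u
        · linarith only [c.p3, top_0 c.C2 y2l, inf_0 c.C3 y3u, y4l, top_0 c.C4 y4l, c.n_a1, c.n_ae, c.sum]
        · linarith only [c.p2, c.p3, inf_0 c.C2 y2u, inf_0 c.C3 y3u, y4l, top_0 c.C4 y4l, c.n_a1, c.n_ae, c.sum]
    · rcases le_total (5087/50000) (y3) with y3l | y3u
      · rcases le_total (5087/50000) (y2) with y2l | y2u
        · linarith only [c.o1, c.o2, c.o3, c.S, c.oe, c.L4, c.star _ _ (fun _ _ => inf_0) y4u, xi_0_7_3 c.X1 x1l x1u, top_1 c.C2 y2l, top_1 c.C3 y3l, y4l, ch_0_1 c.C4 y4u y4l, c.sum]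
        · linarith only [c.o1, c.o2, c.p2, c.o3, c.S, c.oe, c.L4, c.star _ _ (fun _ _ => inf_0) y4u, xi_0_7_3 c.X1 x1l x1u, inf_1 c.C2 y2u, y3l, top_1 c.C3 y3l, y4l, ch_0_1 c.C4 y4u y4l, c.sum]
      · rcases le_total (5087/50000) (y2) with y2l | y2u
        · linarith only [c.o1, c.o2, c.o3, c.p3, c.S, c.oe, c.L4, c.star _ _ (fun _ _ => inf_0) y4u, xi_0_7_3 c.X1 x1l x1u, top_1 c.C2 y2l, inf_1 c.C3 y3u, y4l, ch_0_1 c.C4 y4u y4l, c.sum]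
        · linarith only [c.o1, c.o2, c.p2, c.o3, c.p3, c.S, c.oe, c.L4, c.star _ _ (fun _ _ => inf_0) y4u, xi_0_7_3 c.X1 x1l x1u, inf_1 c.C2 y2u, inf_1 c.C3 y3u, y4l, ch_0_1 c.C4 y4u y4l, c.sum]
  · rcases le_total (1326/15625) (y3) with y3l | y3u
    · rcases le_total (1326/15625) (y2) with y2l | y2u
      · linarith only [c.o1, c.o2, c.o3, c.S, c.oe, c.L4, c.star _ _ (fun _ _ => inf_1) y4u, xi_0_7_3 c.X1 x1l x1u, top_2 c.C2 y2l, top_2 c.C3 y3l, y4l, ch_1_2 c.C4 y4u y4l, c.sum]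
      · linarith only [c.o1, c.o2, c.p2, c.o3, c.S, c.oe, c.L4, c.star _ _ (fun _ _ => inf_1) y4u, xi_0_7_3 c.X1 x1l x1u, inf_2 c.C2 y2u, y3l, top_2 c.C3 y3l, y4l, ch_1_2 c.C4 y4u y4l, c.sum]
    · rcases le_total (1326/15625) (y2) with y2l | y2u
      · linarith only [c.o1, c.o2, c.o3, c.p3, c.S, c.oe, c.L4, c.star _ _ (fun _ _ => inf_1) y4u, xi_0_7_3 c.X1 x1l x1u, top_2 c.C2 y2l, inf_2 c.C3 y3u, y4l, ch_1_2 c.C4 y4u y4l, c.sum]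
      · linarith only [c.o1, c.o2, c.p2, c.o3, c.p3, c.S, c.oe, c.L4, c.star _ _ (fun _ _ => inf_1) y4u, xi_0_7_3 c.X1 x1l x1u, inf_2 c.C2 y2u, inf_2 c.C3 y3u, y4l, ch_1_2 c.C4 y4u y4l, c.sum]

lemma T5_2 (c : Ctx5 x1 x2 x3 x4 y1 y2 y3 y4 a1 a2 a3 a4 e xs ae)
    (x1l : 0 ≤ x1)
    (x1u : x1 ≤ (4/25))
    (y4l : (34819/500000) ≤ y4)
    (y4u : y4 ≤ (1326/15625))
    : False := by
  rcases le_total (34819/500000) (y3) with y3l | y3u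
  · rcases le_total (34819/500000) (y2) with y2l | y2u
    · linarith only [c.o1, c.o2, c.o3, c.S, c.oe, c.L4, c.star _ _ (fun _ _ => inf_2) y4u, xi_0_7_3 c.X1 x1l x1u, top_3 c.C2 y2l, top_3 c.C3 y3l, y4l, ch_2_3 c.C4 y4u y4l, c.sum]
    · linarith only [c.o1, c.o2, c.p2, c.o3, c.p3, c.S, c.oe, c.L4, c.star _ _ (fun _ _ => inf_2) y4u, xi_0_7_3 c.X1 x1l x1u, inf_3 c.C2 y2u, top_3 c.C3 y3l, y4l, ch_2_3 c.C4 y4u y4l, c.sum]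
  · rcases le_total (34819/500000) (y2) with y2l | y2u
    · linarith only [c.o1, c.o2, c.o3, c.p3, c.S, c.oe, c.L4, c.star _ _ (fun _ _ => inf_2) y4u, xi_0_7_3 c.X1 x1l x1u, top_3 c.C2 y2l, inf_3 c.C3 y3u, y4l, ch_2_3 c.C4 y4u y4l, c.sum]
    · linarith only [c.o1, c.o2, c.p2, c.o3, c.p3, c.S, c.oe, c.L4, c.star _ _ (fun _ _ => inf_2) y4u, xi_0_7_3 c.X1 x1l x1u, inf_3 c.C2 y2u, inf_3 c.C3 y3u, y4l, ch_2_3 c.C4 y4u y4l, c.sum]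

lemma T5_3 (c : Ctx5 x1 x2 x3 x4 y1 y2 y3 y4 a1 a2 a3 a4 e xs ae)
    (x1l : 0 ≤ x1)
    (x1u : x1 ≤ (4/25))
    (y4l : (34819/500000) ≤ y4)
    : False := by
  rcases le_total (1326/15625) (y4) with y4l | y4u
  · exact T5_1 c x1l x1u y4l
  · exact T5_2 c x1l x1u y4l y4u

lemma T5_4 (c : Ctx5 x1 x2 x3 x4 y1 y2 y3 y4 a1 a2 a3 a4 e xs ae)
    (x1l : 0 ≤ x1)
    (x1u : x1 ≤ (4/25))
    (x2l : 0 ≤ x2)
    (x2u : x2 ≤ (4/25))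
    (y4l : (56207/1000000) ≤ y4)
    (y4u : y4 ≤ (34819/500000))
    : False := by
  rcases le_total (56207/1000000) (y3) with y3l | y3u
  · rcases le_total (56207/1000000) (y2) with y2l | y2u
    · rcases le_total (56207/1000000) (y1) with y1l | y1u
      · linarith only [c.S, c.oe, c.L4, c.star _ _ (fun _ _ => inf_3) y4u, top_4 c.C1 y1l, xi_0_7_3 c.X1 x1l x1u, top_4 c.C2 y2l, xi_0_7_3 c.X2 x2l x2u, top_4 c.C3 y3l, y4l, ch_3_4 c.C4 y4u y4l, c.sum]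
      · linarith only [c.p1, c.p2, c.S, c.oe, c.L4, c.star _ _ (fun _ _ => inf_3) y4u, c.D1.t2, inf_4 c.C1 y1u, c.D2.t2, top_4 c.C2 y2l, y3l, top_4 c.C3 y3l, y4l, ch_3_4 c.C4 y4u y4l, c.sum]
    · rcases le_total (56207/1000000) (y1) with y1l | y1u
      · linarith only [c.p2, c.p3, c.S, c.oe, c.L4, c.star _ _ (fun _ _ => inf_3) y4u, top_4 c.C1 y1l, xi_0_7_3 c.X1 x1l x1u, c.D2.t2, inf_4 c.C2 y2u, top_4 c.C3 y3l, y4l, ch_3_4 c.C4 y4u y4l, c.sum]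
      · linarith only [c.p1, c.p2, c.S, c.oe, c.L4, c.star _ _ (fun _ _ => inf_3) y4u, c.D1.t2, inf_4 c.C1 y1u, c.D2.t2, inf_4 c.C2 y2u, y3l, top_4 c.C3 y3l, y4l, ch_3_4 c.C4 y4u y4l, c.sum]
  · rcases le_total (56207/1000000) (y2) with y2l | y2u
    · rcases le_total (56207/1000000) (y1) with y1l | y1u
      · linarith only [c.p3, c.S, c.oe, c.L4, c.star _ _ (fun _ _ => inf_3) y4u, top_4 c.C1 y1l, xi_0_7_3 c.X1 x1l x1u, top_4 c.C2 y2l, xi_0_7_3 c.X2 x2l x2u, inf_4 c.C3 y3u, y4l, ch_3_4 c.C4 y4u y4l, c.sum]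
      · linarith only [c.p1, c.p3, c.S, c.oe, c.L4, c.star _ _ (fun _ _ => inf_3) y4u, c.D1.t2, inf_4 c.C1 y1u, c.D2.t2, y2l, top_4 c.C2 y2l, inf_4 c.C3 y3u, y4l, ch_3_4 c.C4 y4u y4l, c.sum]
    · rcases le_total (56207/1000000) (y1) with y1l | y1u
      · linarith only [c.p2, c.p3, c.S, c.oe, c.L4, c.star _ _ (fun _ _ => inf_3) y4u, top_4 c.C1 y1l, xi_0_7_3 c.X1 x1l x1u, c.D2.t2, inf_4 c.C2 y2u, inf_4 c.C3 y3u, y4l, ch_3_4 c.C4 y4u y4l, c.sum]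
      · linarith only [c.p1, c.p2, c.p3, c.S, c.oe, c.L4, c.star _ _ (fun _ _ => inf_3) y4u, c.D1.t2, inf_4 c.C1 y1u, c.D2.t2, inf_4 c.C2 y2u, inf_4 c.C3 y3u, y4l, ch_3_4 c.C4 y4u y4l, c.sum]

lemma T5_5 (c : Ctx5 x1 x2 x3 x4 y1 y2 y3 y4 a1 a2 a3 a4 e xs ae)
    (x1l : 0 ≤ x1)
    (x1u : x1 ≤ (4/25))
    (x2l : 0 ≤ x2)
    (x2u : x2 ≤ (4/25))
    (y4l : (56207/1000000) ≤ y4)
    : False := by
  rcases le_total (34819/500000) (y4) with y4l | y4u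
  · exact T5_3 c x1l x1u y4l
  · exact T5_4 c x1l x1u x2l x2u y4l y4u

lemma T5_6 (c : Ctx5 x1 x2 x3 x4 y1 y2 y3 y4 a1 a2 a3 a4 e xs ae)
    (x1l : 0 ≤ x1)
    (x1u : x1 ≤ (4/25))
    (x2l : 0 ≤ x2)
    (x2u : x2 ≤ (4/25))
    (y2l : (8923/200000) ≤ y2)
    (y4l : (8923/200000) ≤ y4)
    (y4u : y4 ≤ (56207/1000000))
    : False := by
  rcases le_total (8923/200000) (y3) with y3l | y3u
  · rcases le_total (8923/200000) (y1) with y1l | y1u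
    · rcases le_total x2 (5041/40000) with x2u | x2l
      · rcases le_total x1 (5041/40000) with x1u | x1l
        · rcases le_total (949/250000) (e / 2) with el | eu
          · linarith only [top_11 c.Ce el, top_5 c.C1 y1l, top_5 c.C2 y2l, top_5 c.C3 y3l, y4l, ch_4_5 c.C4 y4u y4l, c.sum]
          · linarith only [c.S, c.oe, c.L4, inf_11 c.Ce eu, top_5 c.C1 y1l, xi_0_4_3 c.X1 x1l x1u, top_5 c.C2 y2l, xi_0_4_3 c.X2 x2l x2u, top_5 c.C3 y3l, y4l, ch_4_5 c.C4 y4u y4l, c.sum]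
        · linarith only [c.S, c.oe, c.L4, c.star _ _ (fun _ _ => inf_4) y4u, x1l, xi_4_7_2 c.X1 x1l x1u, top_5 c.C2 y2l, xi_0_4_3 c.X2 x2l x2u, top_5 c.C3 y3l, y4l, ch_4_5 c.C4 y4u y4l, c.sum]
      · linarith only [c.S, c.oe, c.L4, c.star _ _ (fun _ _ => inf_4) y4u, top_5 c.C1 y1l, xi_0_7_3 c.X1 x1l x1u, x2l, xi_4_7_2 c.X2 x2l x2u, top_5 c.C3 y3l, y4l, ch_4_5 c.C4 y4u y4l, c.sum]
    · linarith only [c.p1, c.o2, c.o3, c.S, c.star _ _ (fun _ _ => inf_4) y4u, c.D1.t2, y1u, inf_5 c.C1 y1u, c.D2.t2, top_5 c.C2 y2l, top_5 c.C3 y3l, c.D4.t2, ch_4_5 c.C4 y4u y4l, c.sum]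
  · rcases le_total (8923/200000) (y1) with y1l | y1u
    · rcases le_total x2 (5041/40000) with x2u | x2l
      · rcases le_total x1 (5041/40000) with x1u | x1l
        · rcases le_total (949/250000) (e / 2) with el | eu
          · linarith only [c.p3, top_11 c.Ce el, top_5 c.C1 y1l, top_5 c.C2 y2l, inf_5 c.C3 y3u, y4l, ch_4_5 c.C4 y4u y4l, c.sum]
          · linarith only [c.p3, c.S, c.oe, c.L4, inf_11 c.Ce eu, top_5 c.C1 y1l, xi_0_4_3 c.X1 x1l x1u, top_5 c.C2 y2l, xi_0_4_3 c.X2 x2l x2u, inf_5 c.C3 y3u, y4l, ch_4_5 c.C4 y4u y4l, c.sum]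
        · linarith only [c.p3, c.S, c.oe, c.L4, c.star _ _ (fun _ _ => inf_4) y4u, x1l, xi_4_7_2 c.X1 x1l x1u, top_5 c.C2 y2l, xi_0_4_3 c.X2 x2l x2u, inf_5 c.C3 y3u, y4l, ch_4_5 c.C4 y4u y4l, c.sum]
      · linarith only [c.p3, c.S, c.oe, c.L4, c.star _ _ (fun _ _ => inf_4) y4u, top_5 c.C1 y1l, xi_0_7_3 c.X1 x1l x1u, x2l, xi_4_7_2 c.X2 x2l x2u, inf_5 c.C3 y3u, y4l, ch_4_5 c.C4 y4u y4l, c.sum]
    · linarith only [c.p1, c.o2, c.p3, c.S, c.star _ _ (fun _ _ => inf_4) y4u, c.D1.t2, y1u, inf_5 c.C1 y1u, c.D2.t2, top_5 c.C2 y2l, c.D3.t2, inf_5 c.C3 y3u, c.D4.t2, ch_4_5 c.C4 y4u y4l, c.sum]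

lemma T5_7 (c : Ctx5 x1 x2 x3 x4 y1 y2 y3 y4 a1 a2 a3 a4 e xs ae)
    (x1l : 0 ≤ x1)
    (x1u : x1 ≤ (4/25))
    (y2u : y2 ≤ (8923/200000))
    (y4l : (8923/200000) ≤ y4)
    (y4u : y4 ≤ (56207/1000000))
    : False := by
  rcases le_total (8923/200000) (y3) with y3l | y3u
  · rcases le_total (8923/200000) (y1) with y1l | y1u
    · rcases le_total x1 (5041/40000) with x1u | x1l
      · rcases le_total (949/250000) (e / 2) with el | eu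
        · linarith only [c.p2, top_11 c.Ce el, top_5 c.C1 y1l, inf_5 c.C2 y2u, y3l, top_5 c.C3 y3l, y4l, ch_4_5 c.C4 y4u y4l, c.sum]
        · linarith only [c.S, c.oe, c.L4, eu, inf_11 c.Ce eu, xi_0_4_3 c.X1 x1l x1u, c.D2.t2, y2u, inf_5 c.C2 y2u, top_5 c.C3 y3l, y4l, ch_4_5 c.C4 y4u y4l, c.sum]
      · linarith only [c.p2, c.p3, c.S, c.oe, c.L4, c.star _ _ (fun _ _ => inf_4) y4u, x1l, xi_4_7_2 c.X1 x1l x1u, c.D2.t2, inf_5 c.C2 y2u, top_5 c.C3 y3l, y4l, ch_4_5 c.C4 y4u y4l, c.sum]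
    · linarith only [c.p1, c.o2, c.o3, c.S, c.star _ _ (fun _ _ => inf_4) y4u, c.D1.t2, inf_5 c.C1 y1u, c.D2.t2, y2u, inf_5 c.C2 y2u, top_5 c.C3 y3l, c.D4.t2, ch_4_5 c.C4 y4u y4l, c.sum]
  · rcases le_total (8923/200000) (y1) with y1l | y1u
    · rcases le_total x1 (5041/40000) with x1u | x1l
      · rcases le_total (949/250000) (e / 2) with el | eu
        · linarith only [c.p2, c.p3, top_11 c.Ce el, top_5 c.C1 y1l, inf_5 c.C2 y2u, inf_5 c.C3 y3u, y4l, ch_4_5 c.C4 y4u y4l, c.sum]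
        · linarith only [c.p3, c.S, c.oe, c.L4, eu, inf_11 c.Ce eu, xi_0_4_3 c.X1 x1l x1u, c.D2.t2, y2u, inf_5 c.C2 y2u, inf_5 c.C3 y3u, y4l, ch_4_5 c.C4 y4u y4l, c.sum]
      · linarith only [c.p2, c.p3, c.S, c.oe, c.L4, c.star _ _ (fun _ _ => inf_4) y4u, x1l, xi_4_7_2 c.X1 x1l x1u, c.D2.t2, inf_5 c.C2 y2u, inf_5 c.C3 y3u, y4l, ch_4_5 c.C4 y4u y4l, c.sum]
    · linarith only [c.p1, c.o2, c.o3, c.p3, c.S, c.star _ _ (fun _ _ => inf_4) y4u, c.D1.t2, y1u, inf_5 c.C1 y1u, c.D2.t2, inf_5 c.C2 y2u, inf_5 c.C3 y3u, y4l, ch_4_5 c.C4 y4u y4l, c.sum]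

lemma T5_8 (c : Ctx5 x1 x2 x3 x4 y1 y2 y3 y4 a1 a2 a3 a4 e xs ae)
    (x1l : 0 ≤ x1)
    (x1u : x1 ≤ (4/25))
    (x2l : 0 ≤ x2)
    (x2u : x2 ≤ (4/25))
    (y4l : (8923/200000) ≤ y4)
    (y4u : y4 ≤ (56207/1000000))
    : False := by
  rcases le_total (8923/200000) (y2) with y2l | y2u
  · exact T5_6 c x1l x1u x2l x2u y2l y4l y4u
  · exact T5_7 c x1l x1u y2u y4l y4u

lemma T5_9 (c : Ctx5 x1 x2 x3 x4 y1 y2 y3 y4 a1 a2 a3 a4 e xs ae)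
    (x1l : 0 ≤ x1)
    (x1u : x1 ≤ (4/25))
    (x2l : 0 ≤ x2)
    (x2u : x2 ≤ (4/25))
    (y4l : (8923/200000) ≤ y4)
    : False := by
  rcases le_total (56207/1000000) (y4) with y4l | y4u
  · exact T5_5 c x1l x1u x2l x2u y4l
  · exact T5_8 c x1l x1u x2l x2u y4l y4u

lemma T5_10 (c : Ctx5 x1 x2 x3 x4 y1 y2 y3 y4 a1 a2 a3 a4 e xs ae)
    (x1l : 0 ≤ x1)
    (x1u : x1 ≤ (4/25))
    (x2l : 0 ≤ x2)
    (x2u : x2 ≤ (4/25))
    (y2l : (8923/200000) ≤ y2)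
    (y3l : (8923/200000) ≤ y3)
    (y4l : (30571/1000000) ≤ y4)
    (y4u : y4 ≤ (8923/200000))
    : False := by
  rcases le_total (56207/1000000) (y1) with y1l | y1u
  · rcases le_total x2 (5041/40000) with x2u | x2l
    · rcases le_total x1 (1369/10000) with x1u | x1l
      · rcases le_total (56207/1000000) (y2) with y2l | y2u
        · linarith only [c.S, c.oe, c.L4, c.star _ _ (fun _ _ => inf_5) y4u, top_4 c.C1 y1l, xi_0_5_3 c.X1 x1l x1u, top_4 c.C2 y2l, xi_0_4_3 c.X2 x2l x2u, top_5 c.C3 y3l, y4l, ch_5_6 c.C4 y4u y4l, c.sum]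
        · rcases le_total (949/250000) (e / 2) with el | eu
          · linarith only [c.p2, top_11 c.Ce el, top_4 c.C1 y1l, ch_4_5 c.C2 y2u y2l, y3l, top_5 c.C3 y3l, y4l, ch_5_6 c.C4 y4u y4l, c.sum]
          · linarith only [c.o2, c.S, c.oe, c.L4, inf_11 c.Ce eu, top_4 c.C1 y1l, xi_0_5_3 c.X1 x1l x1u, c.D2.t2, ch_4_5 c.C2 y2u y2l, top_5 c.C3 y3l, c.D4.t1, y4l, ch_5_6 c.C4 y4u y4l, c.sum]
      · linarith only [c.S, c.oe, c.L4, c.star _ _ (fun _ _ => inf_5) y4u, x1l, xi_5_7_1 c.X1 x1l x1u, top_5 c.C2 y2l, xi_0_4_3 c.X2 x2l x2u, top_5 c.C3 y3l, y4l, ch_5_6 c.C4 y4u y4l, c.sum]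
    · linarith only [c.S, c.oe, c.L4, c.star _ _ (fun _ _ => inf_5) y4u, top_4 c.C1 y1l, xi_0_7_3 c.X1 x1l x1u, x2l, xi_4_7_2 c.X2 x2l x2u, top_5 c.C3 y3l, y4l, ch_5_6 c.C4 y4u y4l, c.sum]
  · rcases le_total (949/250000) (e / 2) with el | eu
    · rcases le_total (1279/100000) (e / 2) with el | eu
      · linarith only [c.p1, c.o2, c.S, top_8 c.Ce el, c.star _ _ (fun _ _ => inf_5) y4u, c.D1.t2, inf_4 c.C1 y1u, c.D2.t2, top_5 c.C2 y2l, top_5 c.C3 y3l, c.D4.t1, y4l, ch_5_6 c.C4 y4u y4l, c.sum]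
      · linarith only [c.p1, c.o2, c.S, c.oe, c.L4, ch_8_11 c.Ce eu el, c.D1.t2, inf_4 c.C1 y1u, c.D2.t2, top_5 c.C2 y2l, top_5 c.C3 y3l, c.D4.t1, y4l, ch_5_6 c.C4 y4u y4l, c.sum]
    · linarith only [c.p1, c.S, c.oe, c.L4, eu, inf_11 c.Ce eu, c.D1.t2, inf_4 c.C1 y1u, c.D2.t2, top_5 c.C2 y2l, top_5 c.C3 y3l, y4l, ch_5_6 c.C4 y4u y4l, c.sum]

lemma T5_11 (c : Ctx5 x1 x2 x3 x4 y1 y2 y3 y4 a1 a2 a3 a4 e xs ae)
    (x1l : 0 ≤ x1)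
    (x1u : x1 ≤ (4/25))
    (x2l : 0 ≤ x2)
    (x2u : x2 ≤ (4/25))
    (y1l : (34819/500000) ≤ y1)
    (y2l : (8923/200000) ≤ y2)
    (y3u : y3 ≤ (8923/200000))
    (y4l : (30571/1000000) ≤ y4)
    (y4u : y4 ≤ (8923/200000))
    : False := by
  rcases le_total x2 (5041/40000) with x2u | x2l
  · rcases le_total x1 (361/2500) with x1u | x1l
    · rcases le_total (56207/1000000) (y2) with y2l | y2u
      · rcases le_total (2579/1000000) (e / 2) with el | eu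
        · linarith only [c.p3, top_12 c.Ce el, top_3 c.C1 y1l, top_4 c.C2 y2l, inf_5 c.C3 y3u, y4l, ch_5_6 c.C4 y4u y4l, c.sum]
        · linarith only [c.p3, c.S, c.oe, c.L4, eu, inf_12 c.Ce eu, xi_0_6_2 c.X1 x1l x1u, xi_0_6_3 c.X1 x1l x1u, xi_0_4_3 c.X2 x2l x2u, inf_5 c.C3 y3u, y4l, ch_5_6 c.C4 y4u y4l, c.sum]
      · rcases le_total (2579/1000000) (e / 2) with el | eu
        · rcases le_total (7803/1000000) (e / 2) with el | eu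
          · linarith only [c.p3, top_9 c.Ce el, top_3 c.C1 y1l, y2l, ch_4_5 c.C2 y2u y2l, inf_5 c.C3 y3u, y4l, ch_5_6 c.C4 y4u y4l, c.sum]
          · rcases le_total (30571/1000000) (y3) with y3l | y3u
            · linarith only [c.o3, c.S, c.oe, c.L4, ch_9_12 c.Ce eu el, top_3 c.C1 y1l, xi_0_6_3 c.X1 x1l x1u, c.D2.t2, ch_4_5 c.C2 y2u y2l, c.D3.t1, ch_5_6 c.C3 y3u y3l, c.D4.t1, y4l, ch_5_6 c.C4 y4u y4l, c.sum]
            · linarith only [c.o3, c.p3, c.S, c.oe, c.L4, ch_9_12 c.Ce eu el, top_3 c.C1 y1l, xi_0_6_3 c.X1 x1l x1u, c.D2.t2, ch_4_5 c.C2 y2u y2l, c.D3.t1, inf_6 c.C3 y3u, y4l, ch_5_6 c.C4 y4u y4l, c.sum]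
        · linarith only [c.S, c.oe, c.L4, eu, x1u, c.D2.t2, y2u]
    · rcases le_total (56207/1000000) (y2) with y2l | y2u
      · linarith only [c.p3, c.S, c.oe, c.L4, c.star _ _ (fun _ _ => inf_5) y4u, x1l, xi_6_7_1 c.X1 x1l x1u, top_4 c.C2 y2l, xi_0_4_3 c.X2 x2l x2u, inf_5 c.C3 y3u, y4l, ch_5_6 c.C4 y4u y4l, c.sum]
      · linarith only [c.o3, c.S, c.oe, c.L4, c.star _ _ (fun _ _ => inf_5) y4u, x1l, xi_6_7_1 c.X1 x1l x1u, c.D2.t2, ch_4_5 c.C2 y2u y2l, c.D3.t1, inf_5 c.C3 y3u, c.D4.t1, y4l, ch_5_6 c.C4 y4u y4l, c.sum]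
  · rcases le_total x1 (361/2500) with x1u | x1l
    · rcases le_total (2579/1000000) (e / 2) with el | eu
      · linarith only [c.p3, top_12 c.Ce el, top_3 c.C1 y1l, x2l, xi_4_7_2 c.X2 x2l x2u, inf_5 c.C3 y3u, y4l, ch_5_6 c.C4 y4u y4l, c.sum]
      · linarith only [c.p3, c.S, c.oe, c.L4, inf_12 c.Ce eu, top_3 c.C1 y1l, xi_0_6_3 c.X1 x1l x1u, x2l, xi_4_7_2 c.X2 x2l x2u, inf_5 c.C3 y3u, y4l, ch_5_6 c.C4 y4u y4l, c.sum]
    · linarith only [c.p3, c.S, c.oe, c.L4, c.star _ _ (fun _ _ => inf_5) y4u, x1l, xi_6_7_1 c.X1 x1l x1u, x2l, xi_4_7_2 c.X2 x2l x2u, inf_5 c.C3 y3u, y4l, ch_5_6 c.C4 y4u y4l, c.sum]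

lemma T5_12 (c : Ctx5 x1 x2 x3 x4 y1 y2 y3 y4 a1 a2 a3 a4 e xs ae)
    (y1u : y1 ≤ (34819/500000))
    (y2l : (8923/200000) ≤ y2)
    (y3u : y3 ≤ (8923/200000))
    (y4l : (30571/1000000) ≤ y4)
    (y4u : y4 ≤ (8923/200000))
    : False := by
  rcases le_total (34819/500000) (y2) with y2l | y2u
  · rcases le_total (2579/1000000) (e / 2) with el | eu
    · linarith only [c.p1, c.p3, top_12 c.Ce el, inf_3 c.C1 y1u, y2l, top_3 c.C2 y2l, inf_5 c.C3 y3u, y4l, ch_5_6 c.C4 y4u y4l, c.sum]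
    · linarith only [c.p1, c.S, c.oe, c.L4, eu, c.D1.t3, y1u, c.D2.t3]
  · rcases le_total (2579/1000000) (e / 2) with el | eu
    · rcases le_total (7803/1000000) (e / 2) with el | eu
      · rcases le_total (63/3125) (e / 2) with el | eu
        · rcases le_total (8923/200000) (y1) with y1l | y1u
          · linarith only [c.p3, c.S, top_7 c.Ce el, c.star _ _ (fun _ _ => inf_5) y4u, c.D1.t2, ch_3_5 c.C1 y1u y1l, c.D2.t2, ch_3_5 c.C2 y2u y2l, c.D3.t1, inf_5 c.C3 y3u, c.D4.t1, y4l, ch_5_6 c.C4 y4u y4l, c.sum]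
          · linarith only [c.p1, c.p3, c.S, top_7 c.Ce el, c.star _ _ (fun _ _ => inf_5) y4u, c.D1.t2, inf_5 c.C1 y1u, c.D2.t2, y2l, ch_3_5 c.C2 y2u y2l, c.D3.t1, inf_5 c.C3 y3u, c.D4.t1, ch_5_6 c.C4 y4u y4l, c.sum]
        · linarith only [c.o1, c.p3, c.S, el, ch_7_9 c.Ce eu el, c.D1.t3, inf_3 c.C1 y1u, c.D2.t3, ch_3_5 c.C2 y2u y2l, c.D3.t1, inf_5 c.C3 y3u, c.D4.t1, y4l, ch_5_6 c.C4 y4u y4l, c.sum]
      · linarith only [c.o1, c.o3, c.S, c.oe, c.L4, ch_9_12 c.Ce eu el, c.D1.t3, inf_3 c.C1 y1u, c.D2.t3, ch_3_5 c.C2 y2u y2l, c.D3.t1, inf_5 c.C3 y3u, c.D4.t1, y4l, ch_5_6 c.C4 y4u y4l, c.sum]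
    · linarith only [c.o1, c.S, c.oe, c.L4, eu, c.D1.t3, y1u]

lemma T5_13 (c : Ctx5 x1 x2 x3 x4 y1 y2 y3 y4 a1 a2 a3 a4 e xs ae)
    (x1l : 0 ≤ x1)
    (x1u : x1 ≤ (4/25))
    (x2l : 0 ≤ x2)
    (x2u : x2 ≤ (4/25))
    (y2l : (8923/200000) ≤ y2)
    (y3u : y3 ≤ (8923/200000))
    (y4l : (30571/1000000) ≤ y4)
    (y4u : y4 ≤ (8923/200000))
    : False := by
  rcases le_total (34819/500000) (y1) with y1l | y1u
  · exact T5_11 c x1l x1u x2l x2u y1l y2l y3u y4l y4u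
  · exact T5_12 c y1u y2l y3u y4l y4u

lemma T5_14 (c : Ctx5 x1 x2 x3 x4 y1 y2 y3 y4 a1 a2 a3 a4 e xs ae)
    (x1l : 0 ≤ x1)
    (x1u : x1 ≤ (4/25))
    (x2l : 0 ≤ x2)
    (x2u : x2 ≤ (4/25))
    (y2l : (8923/200000) ≤ y2)
    (y4l : (30571/1000000) ≤ y4)
    (y4u : y4 ≤ (8923/200000))
    : False := by
  rcases le_total (8923/200000) (y3) with y3l | y3u
  · exact T5_10 c x1l x1u x2l x2u y2l y3l y4l y4u
  · exact T5_13 c x1l x1u x2l x2u y2l y3u y4l y4u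

lemma T5_15 (c : Ctx5 x1 x2 x3 x4 y1 y2 y3 y4 a1 a2 a3 a4 e xs ae)
    (x1l : 0 ≤ x1)
    (x1u : x1 ≤ (4/25))
    (y2u : y2 ≤ (8923/200000))
    (y3l : (8923/200000) ≤ y3)
    (y4l : (30571/1000000) ≤ y4)
    (y4u : y4 ≤ (8923/200000))
    : False := by
  rcases le_total (8923/200000) (y1) with y1l | y1u
  · rcases le_total x1 (5041/40000) with x1u | x1l
    · rcases le_total (949/250000) (e / 2) with el | eu
      · rcases le_total (1279/100000) (e / 2) with el | eu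
        · linarith only [c.p2, top_8 c.Ce el, top_5 c.C1 y1l, inf_5 c.C2 y2u, y3l, top_5 c.C3 y3l, y4l, ch_5_6 c.C4 y4u y4l, c.sum]
        · linarith only [c.o2, c.S, c.oe, c.L4, ch_8_11 c.Ce eu el, top_5 c.C1 y1l, xi_0_4_3 c.X1 x1l x1u, c.D2.t2, y2u, inf_5 c.C2 y2u, top_5 c.C3 y3l, c.D4.t2, ch_5_6 c.C4 y4u y4l, c.sum]
      · linarith only [c.o2, c.S, c.oe, c.L4, eu, inf_11 c.Ce eu, xi_0_4_3 c.X1 x1l x1u, c.D2.t2, y2u, inf_5 c.C2 y2u, top_5 c.C3 y3l, c.D4.t1, ch_5_6 c.C4 y4u y4l, c.sum]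
    · linarith only [c.p2, c.S, c.oe, c.L4, c.star _ _ (fun _ _ => inf_5) y4u, x1l, xi_4_7_2 c.X1 x1l x1u, c.D2.t2, inf_5 c.C2 y2u, y3l, top_5 c.C3 y3l, y4l, ch_5_6 c.C4 y4u y4l, c.sum]
  · linarith only [c.p1, c.o2, c.o3, c.S, c.star _ _ (fun _ _ => inf_5) y4u, c.D1.t2, y1u, inf_5 c.C1 y1u, c.D2.t2, inf_5 c.C2 y2u, top_5 c.C3 y3l, c.D4.t2, ch_5_6 c.C4 y4u y4l, c.sum]

lemma T5_16 (c : Ctx5 x1 x2 x3 x4 y1 y2 y3 y4 a1 a2 a3 a4 e xs ae)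
    (x1l : 0 ≤ x1)
    (x1u : x1 ≤ (4/25))
    (y2u : y2 ≤ (8923/200000))
    (y3u : y3 ≤ (8923/200000))
    (y4l : (30571/1000000) ≤ y4)
    (y4u : y4 ≤ (8923/200000))
    : False := by
  rcases le_total (8923/200000) (y1) with y1l | y1u
  · rcases le_total x1 (5041/40000) with x1u | x1l
    · rcases le_total (949/250000) (e / 2) with el | eu
      · rcases le_total (1279/100000) (e / 2) with el | eu
        · rcases le_total (56207/1000000) (y1) with y1l | y1u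
          · rcases le_total (63/3125) (e / 2) with el | eu
            · rcases le_total (30571/1000000) (e / 2) with el | eu
              · linarith only [c.p2, c.p3, top_6 c.Ce el, top_4 c.C1 y1l, inf_5 c.C2 y2u, inf_5 c.C3 y3u, y4l, ch_5_6 c.C4 y4u y4l, c.sum]
              · linarith only [c.p2, c.o3, c.S, eu, ch_6_7 c.Ce eu el, top_4 c.C1 y1l, xi_0_4_3 c.X1 x1l x1u, c.D2.t1, inf_5 c.C2 y2u, c.D3.t1, inf_5 c.C3 y3u, c.D4.t1, ch_5_6 c.C4 y4u y4l, c.sum]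
            · linarith only [c.p2, c.o3, c.S, eu, ch_7_8 c.Ce eu el, top_4 c.C1 y1l, xi_0_4_3 c.X1 x1l x1u, c.D2.t1, inf_5 c.C2 y2u, c.D3.t1, inf_5 c.C3 y3u, c.D4.t1, ch_5_6 c.C4 y4u y4l, c.sum]
          · linarith only [c.o2, c.o3, c.S, top_8 c.Ce el, c.star _ _ (fun _ _ => inf_5) y4u, c.D1.t2, y1u, ch_4_5 c.C1 y1u y1l, c.D2.t2, inf_5 c.C2 y2u, c.D3.t2, inf_5 c.C3 y3u, c.D4.t2, ch_5_6 c.C4 y4u y4l, c.sum]
        · linarith only [c.o2, c.o3, c.S, c.oe, c.L4, ch_8_11 c.Ce eu el, top_5 c.C1 y1l, xi_0_4_3 c.X1 x1l x1u, c.D2.t2, inf_5 c.C2 y2u, c.D3.t2, inf_5 c.C3 y3u, c.D4.t2, ch_5_6 c.C4 y4u y4l, c.sum]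
      · linarith only [c.o3, c.S, c.oe, c.L4, eu, inf_11 c.Ce eu, xi_0_4_3 c.X1 x1l x1u, c.D2.t2, y2u, inf_5 c.C2 y2u, c.D3.t2, inf_5 c.C3 y3u, c.D4.t2, ch_5_6 c.C4 y4u y4l, c.sum]
    · rcases le_total (949/250000) (e / 2) with el | eu
      · rcases le_total (1279/100000) (e / 2) with el | eu
        · rcases le_total (63/3125) (e / 2) with el | eu
          · linarith only [c.p2, c.p3, top_7 c.Ce el, x1l, xi_4_7_2 c.X1 x1l x1u, inf_5 c.C2 y2u, inf_5 c.C3 y3u, y4l, ch_5_6 c.C4 y4u y4l, c.sum]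
          · linarith only [c.p2, c.o3, c.S, eu, ch_7_8 c.Ce eu el, x1l, xi_4_7_2 c.X1 x1l x1u, c.D2.t1, inf_5 c.C2 y2u, c.D3.t1, inf_5 c.C3 y3u, c.D4.t1, ch_5_6 c.C4 y4u y4l, c.sum]
        · linarith only [c.p2, c.o3, c.S, c.oe, c.L4, ch_8_11 c.Ce eu el, x1l, xi_4_7_2 c.X1 x1l x1u, c.D2.t2, inf_5 c.C2 y2u, c.D3.t2, inf_5 c.C3 y3u, c.D4.t2, ch_5_6 c.C4 y4u y4l, c.sum]
      · linarith only [c.o2, c.p3, c.S, c.oe, c.L4, eu, inf_11 c.Ce eu, xi_4_7_2 c.X1 x1l x1u, c.D2.t2, inf_5 c.C2 y2u, c.D3.t2, inf_5 c.C3 y3u, c.D4.t2, ch_5_6 c.C4 y4u y4l, c.sum]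
  · linarith only [c.o1, c.o2, c.p3, c.S, c.star _ _ (fun _ _ => inf_5) y4u, c.D1.t2, inf_5 c.C1 y1u, c.D2.t2, inf_5 c.C2 y2u, c.D3.t1, c.D3.t2, inf_5 c.C3 y3u, c.D4.t1, ch_5_6 c.C4 y4u y4l, c.sum]

lemma T5_17 (c : Ctx5 x1 x2 x3 x4 y1 y2 y3 y4 a1 a2 a3 a4 e xs ae)
    (x1l : 0 ≤ x1)
    (x1u : x1 ≤ (4/25))
    (y2u : y2 ≤ (8923/200000))
    (y4l : (30571/1000000) ≤ y4)
    (y4u : y4 ≤ (8923/200000))
    : False := by
  rcases le_total (8923/200000) (y3) with y3l | y3u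
  · exact T5_15 c x1l x1u y2u y3l y4l y4u
  · exact T5_16 c x1l x1u y2u y3u y4l y4u

lemma T5_18 (c : Ctx5 x1 x2 x3 x4 y1 y2 y3 y4 a1 a2 a3 a4 e xs ae)
    (x1l : 0 ≤ x1)
    (x1u : x1 ≤ (4/25))
    (x2l : 0 ≤ x2)
    (x2u : x2 ≤ (4/25))
    (y4l : (30571/1000000) ≤ y4)
    (y4u : y4 ≤ (8923/200000))
    : False := by
  rcases le_total (8923/200000) (y2) with y2l | y2u
  · exact T5_14 c x1l x1u x2l x2u y2l y4l y4u
  · exact T5_17 c x1l x1u y2u y4l y4u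

lemma T5_19 (c : Ctx5 x1 x2 x3 x4 y1 y2 y3 y4 a1 a2 a3 a4 e xs ae)
    (x1l : 0 ≤ x1)
    (x1u : x1 ≤ (4/25))
    (x2l : 0 ≤ x2)
    (x2u : x2 ≤ (4/25))
    (y4l : (30571/1000000) ≤ y4)
    : False := by
  rcases le_total (8923/200000) (y4) with y4l | y4u
  · exact T5_9 c x1l x1u x2l x2u y4l
  · exact T5_18 c x1l x1u x2l x2u y4l y4u

lemma T5_20 (c : Ctx5 x1 x2 x3 x4 y1 y2 y3 y4 a1 a2 a3 a4 e xs ae)
    (x1l : 0 ≤ x1)
    (x1u : x1 ≤ (4/25))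
    (x2l : 0 ≤ x2)
    (x2u : x2 ≤ (4/25))
    (y1l : (56207/1000000) ≤ y1)
    (y2l : (8923/200000) ≤ y2)
    (y3l : (8923/200000) ≤ y3)
    (y4l : (63/3125) ≤ y4)
    (y4u : y4 ≤ (30571/1000000))
    : False := by
  rcases le_total x2 (5041/40000) with x2u | x2l
  · rcases le_total x1 (1369/10000) with x1u | x1l
    · rcases le_total (56207/1000000) (y2) with y2l | y2u
      · rcases le_total (2579/1000000) (e / 2) with el | eu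
        · linarith only [top_12 c.Ce el, top_4 c.C1 y1l, top_4 c.C2 y2l, top_5 c.C3 y3l, y4l, ch_6_7 c.C4 y4u y4l, c.sum]
        · linarith only [c.S, c.oe, c.L4, eu, inf_12 c.Ce eu, xi_0_5_2 c.X1 x1l x1u, xi_0_5_3 c.X1 x1l x1u, xi_0_4_3 c.X2 x2l x2u, top_5 c.C3 y3l, y4l, ch_6_7 c.C4 y4u y4l, c.sum]
      · rcases le_total (949/250000) (e / 2) with el | eu
        · rcases le_total (1279/100000) (e / 2) with el | eu
          · linarith only [top_8 c.Ce el, top_4 c.C1 y1l, y2l, ch_4_5 c.C2 y2u y2l, top_5 c.C3 y3l, y4l, ch_6_7 c.C4 y4u y4l, c.sum]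
          · rcases le_total x1 (5041/40000) with x1u | x1l
            · linarith only [c.o2, c.S, el, ch_8_11 c.Ce eu el, top_4 c.C1 y1l, xi_0_4_3 c.X1 x1l x1u, c.D2.t2, ch_4_5 c.C2 y2u y2l, top_5 c.C3 y3l, c.D4.t1, y4l, ch_6_7 c.C4 y4u y4l, c.sum]
            · linarith only [c.o2, c.S, el, ch_8_11 c.Ce eu el, x1l, xi_4_5_2 c.X1 x1l x1u, c.D2.t2, ch_4_5 c.C2 y2u y2l, top_5 c.C3 y3l, c.D4.t1, y4l, ch_6_7 c.C4 y4u y4l, c.sum]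
        · rcases le_total x1 (5041/40000) with x1u | x1l
          · rcases le_total (34819/500000) (y1) with y1l | y1u
            · linarith only [c.o2, c.S, c.oe, c.L4, inf_11 c.Ce eu, top_3 c.C1 y1l, xi_0_4_3 c.X1 x1l x1u, c.D2.t2, ch_4_5 c.C2 y2u y2l, top_5 c.C3 y3l, c.D4.t1, y4l, ch_6_7 c.C4 y4u y4l, c.sum]
            · linarith only [c.o2, c.S, c.oe, c.L4, inf_11 c.Ce eu, c.D1.t2, y1l, ch_3_4 c.C1 y1u y1l, c.D2.t2, ch_4_5 c.C2 y2u y2l, top_5 c.C3 y3l, c.D4.t1, y4l, ch_6_7 c.C4 y4u y4l, c.sum]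
          · linarith only [c.o2, c.S, c.oe, c.L4, inf_11 c.Ce eu, x1l, xi_4_5_2 c.X1 x1l x1u, c.D2.t2, ch_4_5 c.C2 y2u y2l, top_5 c.C3 y3l, c.D4.t1, y4l, ch_6_7 c.C4 y4u y4l, c.sum]
    · linarith only [c.S, c.oe, c.L4, c.star _ _ (fun _ _ => inf_6) y4u, x1l, xi_5_7_1 c.X1 x1l x1u, top_5 c.C2 y2l, xi_0_4_3 c.X2 x2l x2u, top_5 c.C3 y3l, y4l, ch_6_7 c.C4 y4u y4l, c.sum]
  · linarith only [c.S, c.oe, c.L4, c.star _ _ (fun _ _ => inf_6) y4u, top_4 c.C1 y1l, xi_0_7_3 c.X1 x1l x1u, x2l, xi_4_7_2 c.X2 x2l x2u, top_5 c.C3 y3l, y4l, ch_6_7 c.C4 y4u y4l, c.sum]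

end Crest.Agent.R215
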