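import Crest.Agent.R215.Tree5b

/-! Generated branch-and-bound tree. -/

set_option autoImplicit false
set_option linter.unusedVariables false
set_option linter.style.longLine false

namespace Crest.Agent.R215

variable {x1 x2 x3 x4 y1 y2 y3 y4 a1 a2 a3 a4 e xs ae : ℝ}

lemma T5_46 (c : Ctx5 x1 x2 x3 x4 y1 y2 y3 y4 a1 a2 a3 a4 e xs ae)
    (x1l : 0 ≤ x1)
    (x1u : x1 ≤ (1369/10000))
    (x2l : 0 ≤ x2)
    (x2u : x2 ≤ (5041/40000))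
    (y1l : (56207/1000000) ≤ y1)
    (y2l : (56207/1000000) ≤ y2)
    (y3l : (8923/200000) ≤ y3)
    (y4l : (5491/1000000) ≤ y4)
    (y4u : y4 ≤ (63/3125))
    : False := by
  rcases le_total (949/250000) (e / 2) with el | eu
  · exact T5_44 c el x1l x1u x2l x2u y1l y2l y3l y4l y4u
  · exact T5_45 c eu x1l x1u x2l x2u y1l y2l y3l y4l y4u

lemma T5_47 (c : Ctx5 x1 x2 x3 x4 y1 y2 y3 y4 a1 a2 a3 a4 e xs ae)
    (x1l : 0 ≤ x1)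
    (x1u : x1 ≤ (5041/40000))
    (x2l : 0 ≤ x2)
    (x2u : x2 ≤ (5041/40000))
    (y1l : (56207/1000000) ≤ y1)
    (y2l : (56207/1000000) ≤ y2)
    (y3l : (56207/1000000) ≤ y3)
    (y4l : (57/200000) ≤ y4)
    (y4u : y4 ≤ (5491/1000000))
    : False := by
  rcases le_total (34819/500000) (y2) with y2l | y2u
  · rcases le_total (34819/500000) (y1) with y1l | y1u
    · linarith only [c.S, c.o4, c.oe, c.L3, c.star _ _ (fun _ _ => inf_10) y4u, top_3 c.C1 y1l, xi_0_4_3 c.X1 x1l x1u, top_3 c.C2 y2l, xi_0_4_3 c.X2 x2l x2u, top_4 c.C3 y3l, c.D4.t0, ch_10_14 c.C4 y4u y4l, c.sum]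
    · linarith only [c.o1, c.p1, c.S, c.o4, c.oe, c.L3, c.star _ _ (fun _ _ => inf_10) y4u, ch_3_4 c.C1 y1u y1l, xi_0_4_3 c.X1 x1l x1u, y2l, top_3 c.C2 y2l, top_4 c.C3 y3l, c.D4.t0, ch_10_14 c.C4 y4u y4l, c.sum]
  · rcases le_total (34819/500000) (y1) with y1l | y1u
    · rcases le_total (949/250000) (e / 2) with el | eu
      · rcases le_total (949/250000) (y4) with y4l | y4u
        · linarith only [c.o2, c.S, c.o4, c.L3, top_11 c.Ce el, c.star _ _ (fun _ _ => inf_10) y4u, top_3 c.C1 y1l, xi_0_4_3 c.X1 x1l x1u, c.D2.t3, ch_3_4 c.C2 y2u y2l, top_4 c.C3 y3l, c.D4.t0, ch_10_11 c.C4 y4u y4l, c.sum]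
        · linarith only [c.S, c.o4, c.L3, c.star _ _ (fun _ _ => inf_11) y4u, top_3 c.C1 y1l, xi_0_4_3 c.X1 x1l x1u, c.D2.t3, ch_3_4 c.C2 y2u y2l, xi_0_4_3 c.X2 x2l x2u, top_4 c.C3 y3l, c.D4.t0, y4u, ch_11_14 c.C4 y4u y4l, c.sum]
      · linarith only [c.S, c.oe, c.L3, eu, inf_11 c.Ce eu, top_3 c.C1 y1l, xi_0_4_3 c.X1 x1l x1u, c.D2.t3, ch_3_4 c.C2 y2u y2l, xi_0_4_3 c.X2 x2l x2u, top_4 c.C3 y3l, c.D4.t0, ch_10_14 c.C4 y4u y4l, c.sum]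
    · rcases le_total (34819/500000) (y3) with y3l | y3u
      · linarith only [c.p1, c.p2, c.S, c.o4, c.oe, c.L3, c.star _ _ (fun _ _ => inf_10) y4u, ch_3_4 c.C1 y1u y1l, xi_0_4_3 c.X1 x1l x1u, ch_3_4 c.C2 y2u y2l, xi_0_4_3 c.X2 x2l x2u, y3l, top_3 c.C3 y3l, c.D4.t0, ch_10_14 c.C4 y4u y4l, c.sum]
      · rcases le_total (949/250000) (y4) with y4l | y4u
        · linarith only [c.S, c.o4, c.oe, c.L3, c.star _ _ (fun _ _ => inf_10) y4u, c.D1.t3, ch_3_4 c.C1 y1u y1l, c.D2.t3, ch_3_4 c.C2 y2u y2l, c.D3.t2, y3l, ch_3_4 c.C3 y3u y3l, c.D4.t0, ch_10_11 c.C4 y4u y4l, c.sum]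
        · linarith only [c.S, c.o4, c.L3, c.star _ _ (fun _ _ => inf_11) y4u, c.D1.t3, ch_3_4 c.C1 y1u y1l, xi_0_4_3 c.X1 x1l x1u, c.D2.t3, ch_3_4 c.C2 y2u y2l, xi_0_4_3 c.X2 x2l x2u, y3l, ch_3_4 c.C3 y3u y3l, c.D4.t0, y4u, ch_11_14 c.C4 y4u y4l, c.sum]

lemma T5_48 (c : Ctx5 x1 x2 x3 x4 y1 y2 y3 y4 a1 a2 a3 a4 e xs ae)
    (x1l : 0 ≤ x1)
    (x1u : x1 ≤ (5041/40000))
    (x2l : 0 ≤ x2)
    (x2u : x2 ≤ (5041/40000))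
    (y1l : (56207/1000000) ≤ y1)
    (y2l : (56207/1000000) ≤ y2)
    (y3l : (8923/200000) ≤ y3)
    (y3u : y3 ≤ (56207/1000000))
    (y4l : (57/200000) ≤ y4)
    (y4u : y4 ≤ (5491/1000000))
    : False := by
  rcases le_total (34819/500000) (y2) with y2l | y2u
  · rcases le_total (34819/500000) (y1) with y1l | y1u
    · rcases le_total (949/250000) (y4) with y4l | y4u
      · rcases le_total (949/250000) (e / 2) with el | eu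
        · linarith only [c.S, top_11 c.Ce el, c.star _ _ (fun _ _ => inf_10) y4u, top_3 c.C1 y1l, xi_0_4_3 c.X1 x1l x1u, top_3 c.C2 y2l, xi_0_4_3 c.X2 x2l x2u, c.D3.t2, ch_4_5 c.C3 y3u y3l, c.D4.t0, y4l, ch_10_11 c.C4 y4u y4l, c.sum]
        · linarith only [c.S, c.oe, c.L3, eu, inf_11 c.Ce eu, top_3 c.C1 y1l, xi_0_4_3 c.X1 x1l x1u, top_3 c.C2 y2l, xi_0_4_3 c.X2 x2l x2u, c.D3.t2, ch_4_5 c.C3 y3u y3l, c.D4.t0, ch_10_11 c.C4 y4u y4l, c.sum]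
      · linarith only [c.S, c.o4, c.L3, c.star _ _ (fun _ _ => inf_11) y4u, xi_0_4_2 c.X1 x1l x1u, xi_0_4_3 c.X1 x1l x1u, xi_0_4_2 c.X2 x2l x2u, xi_0_4_3 c.X2 x2l x2u, c.D3.t2, ch_4_5 c.C3 y3u y3l, c.D4.t0, y4u, ch_11_14 c.C4 y4u y4l, c.sum]
    · rcases le_total (949/250000) (e / 2) with el | eu
      · rcases le_total (949/250000) (y4) with y4l | y4u
        · linarith only [c.o1, c.p1, c.S, top_11 c.Ce el, c.star _ _ (fun _ _ => inf_10) y4u, ch_3_4 c.C1 y1u y1l, xi_0_4_3 c.X1 x1l x1u, y2l, top_3 c.C2 y2l, c.D3.t2, ch_4_5 c.C3 y3u y3l, c.D4.t0, y4l, ch_10_11 c.C4 y4u y4l, c.sum]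
        · linarith only [c.S, c.o4, c.L3, c.star _ _ (fun _ _ => inf_11) y4u, xi_0_4_2 c.X1 x1l x1u, xi_0_4_3 c.X1 x1l x1u, xi_0_4_2 c.X2 x2l x2u, xi_0_4_3 c.X2 x2l x2u, c.D3.t2, ch_4_5 c.C3 y3u y3l, c.D4.t0, y4u, ch_11_14 c.C4 y4u y4l, c.sum]
      · linarith only [c.o1, c.S, c.oe, c.L3, eu, inf_11 c.Ce eu, xi_0_4_3 c.X1 x1l x1u, top_3 c.C2 y2l, xi_0_4_3 c.X2 x2l x2u, c.D3.t2, ch_4_5 c.C3 y3u y3l, c.D4.t0, ch_10_14 c.C4 y4u y4l, c.sum]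
  · rcases le_total (34819/500000) (y1) with y1l | y1u
    · rcases le_total (949/250000) (e / 2) with el | eu
      · rcases le_total (949/250000) (y4) with y4l | y4u
        · linarith only [c.S, top_11 c.Ce el, c.star _ _ (fun _ _ => inf_10) y4u, top_3 c.C1 y1l, xi_0_4_3 c.X1 x1l x1u, c.D2.t3, ch_3_4 c.C2 y2u y2l, xi_0_4_3 c.X2 x2l x2u, c.D3.t2, ch_4_5 c.C3 y3u y3l, c.D4.t0, y4l, ch_10_11 c.C4 y4u y4l, c.sum]
        · linarith only [c.S, c.o4, c.L3, c.star _ _ (fun _ _ => inf_11) y4u, xi_0_4_2 c.X1 x1l x1u, xi_0_4_3 c.X1 x1l x1u, xi_0_4_2 c.X2 x2l x2u, xi_0_4_3 c.X2 x2l x2u, c.D3.t2, ch_4_5 c.C3 y3u y3l, c.D4.t0, y4u, ch_11_14 c.C4 y4u y4l, c.sum]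
      · linarith only [c.S, c.oe, c.L3, eu, inf_11 c.Ce eu, top_3 c.C1 y1l, xi_0_4_3 c.X1 x1l x1u, c.D2.t3, ch_3_4 c.C2 y2u y2l, xi_0_4_3 c.X2 x2l x2u, c.D3.t2, ch_4_5 c.C3 y3u y3l, c.D4.t0, ch_10_14 c.C4 y4u y4l, c.sum]
    · rcases le_total (949/250000) (y4) with y4l | y4u
      · rcases le_total (949/250000) (e / 2) with el | eu
        · linarith only [c.S, top_11 c.Ce el, c.star _ _ (fun _ _ => inf_10) y4u, c.D1.t3, ch_3_4 c.C1 y1u y1l, xi_0_4_3 c.X1 x1l x1u, c.D2.t3, ch_3_4 c.C2 y2u y2l, xi_0_4_3 c.X2 x2l x2u, c.D3.t2, ch_4_5 c.C3 y3u y3l, c.D4.t0, y4l, ch_10_11 c.C4 y4u y4l, c.sum]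
        · linarith only [c.S, c.oe, c.L3, eu, inf_11 c.Ce eu, c.D1.t3, ch_3_4 c.C1 y1u y1l, xi_0_4_3 c.X1 x1l x1u, c.D2.t3, ch_3_4 c.C2 y2u y2l, xi_0_4_3 c.X2 x2l x2u, c.D3.t2, ch_4_5 c.C3 y3u y3l, c.D4.t0, ch_10_11 c.C4 y4u y4l, c.sum]
      · linarith only [c.S, c.o4, c.L3, c.star _ _ (fun _ _ => inf_11) y4u, xi_0_4_2 c.X1 x1l x1u, xi_0_4_3 c.X1 x1l x1u, xi_0_4_2 c.X2 x2l x2u, xi_0_4_3 c.X2 x2l x2u, c.D3.t2, ch_4_5 c.C3 y3u y3l, c.D4.t0, y4u, ch_11_14 c.C4 y4u y4l, c.sum]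

lemma T5_49 (c : Ctx5 x1 x2 x3 x4 y1 y2 y3 y4 a1 a2 a3 a4 e xs ae)
    (x1l : 0 ≤ x1)
    (x1u : x1 ≤ (5041/40000))
    (x2l : 0 ≤ x2)
    (x2u : x2 ≤ (5041/40000))
    (y1l : (56207/1000000) ≤ y1)
    (y2l : (56207/1000000) ≤ y2)
    (y3l : (8923/200000) ≤ y3)
    (y4l : (57/200000) ≤ y4)
    (y4u : y4 ≤ (5491/1000000))
    : False := by
  rcases le_total (56207/1000000) (y3) with y3l | y3u
  · exact T5_47 c x1l x1u x2l x2u y1l y2l y3l y4l y4u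
  · exact T5_48 c x1l x1u x2l x2u y1l y2l y3l y3u y4l y4u

lemma T5_50 (c : Ctx5 x1 x2 x3 x4 y1 y2 y3 y4 a1 a2 a3 a4 e xs ae)
    (x1l : (5041/40000) ≤ x1)
    (x1u : x1 ≤ (1369/10000))
    (x2l : 0 ≤ x2)
    (x2u : x2 ≤ (5041/40000))
    (y2l : (56207/1000000) ≤ y2)
    (y3l : (8923/200000) ≤ y3)
    (y4l : (57/200000) ≤ y4)
    (y4u : y4 ≤ (5491/1000000))
    : False := by
  rcases le_total (34819/500000) (y2) with y2l | y2u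
  · rcases le_total (56207/1000000) (y3) with y3l | y3u
    · linarith only [c.S, c.o4, c.oe, c.L3, c.star _ _ (fun _ _ => inf_10) y4u, x1l, xi_4_5_2 c.X1 x1l x1u, top_3 c.C2 y2l, xi_0_4_3 c.X2 x2l x2u, top_4 c.C3 y3l, c.D4.t0, ch_10_14 c.C4 y4u y4l, c.sum]
    · rcases le_total (949/250000) (e / 2) with el | eu
      · linarith only [c.S, c.o4, c.L3, top_11 c.Ce el, c.star _ _ (fun _ _ => inf_10) y4u, x1l, xi_4_5_2 c.X1 x1l x1u, top_3 c.C2 y2l, xi_0_4_3 c.X2 x2l x2u, c.D3.t2, ch_4_5 c.C3 y3u y3l, c.D4.t0, ch_10_14 c.C4 y4u y4l, c.sum]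
      · linarith only [c.S, c.o4, c.oe, c.L3, eu, inf_11 c.Ce eu, xi_4_5_2 c.X1 x1l x1u, top_3 c.C2 y2l, xi_0_4_3 c.X2 x2l x2u, c.D3.t2, ch_4_5 c.C3 y3u y3l, c.D4.t0, ch_10_14 c.C4 y4u y4l, c.sum]
  · rcases le_total (56207/1000000) (y3) with y3l | y3u
    · linarith only [c.o2, c.S, c.o4, c.oe, c.L3, c.star _ _ (fun _ _ => inf_10) y4u, x1l, xi_4_5_2 c.X1 x1l x1u, c.D2.t3, ch_3_4 c.C2 y2u y2l, top_4 c.C3 y3l, c.D4.t0, ch_10_14 c.C4 y4u y4l, c.sum]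
    · rcases le_total (949/250000) (e / 2) with el | eu
      · rcases le_total (949/250000) (y4) with y4l | y4u
        · linarith only [c.S, top_11 c.Ce el, c.star _ _ (fun _ _ => inf_10) y4u, x1l, xi_4_5_2 c.X1 x1l x1u, c.D2.t3, ch_3_4 c.C2 y2u y2l, xi_0_4_3 c.X2 x2l x2u, c.D3.t2, ch_4_5 c.C3 y3u y3l, c.D4.t0, y4l, ch_10_11 c.C4 y4u y4l, c.sum]
        · linarith only [c.S, c.o4, c.L3, top_11 c.Ce el, c.star _ _ (fun _ _ => inf_11) y4u, xi_4_5_2 c.X1 x1l x1u, c.D2.t3, ch_3_4 c.C2 y2u y2l, xi_0_4_3 c.X2 x2l x2u, c.D3.t2, ch_4_5 c.C3 y3u y3l, c.D4.t0, y4u, ch_11_14 c.C4 y4u y4l, c.sum]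
      · linarith only [c.S, c.o4, c.oe, c.L3, eu, inf_11 c.Ce eu, xi_4_5_2 c.X1 x1l x1u, c.D2.t3, ch_3_4 c.C2 y2u y2l, xi_0_4_3 c.X2 x2l x2u, c.D3.t2, ch_4_5 c.C3 y3u y3l, c.D4.t0, ch_10_14 c.C4 y4u y4l, c.sum]

lemma T5_51 (c : Ctx5 x1 x2 x3 x4 y1 y2 y3 y4 a1 a2 a3 a4 e xs ae)
    (x1l : 0 ≤ x1)
    (x1u : x1 ≤ (1369/10000))
    (x2l : 0 ≤ x2)
    (x2u : x2 ≤ (5041/40000))
    (y1l : (56207/1000000) ≤ y1)
    (y2l : (56207/1000000) ≤ y2)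
    (y3l : (8923/200000) ≤ y3)
    (y4l : (57/200000) ≤ y4)
    (y4u : y4 ≤ (5491/1000000))
    : False := by
  rcases le_total x1 (5041/40000) with x1u | x1l
  · exact T5_49 c x1l x1u x2l x2u y1l y2l y3l y4l y4u
  · exact T5_50 c x1l x1u x2l x2u y2l y3l y4l y4u

lemma T5_52 (c : Ctx5 x1 x2 x3 x4 y1 y2 y3 y4 a1 a2 a3 a4 e xs ae)
    (x1l : 0 ≤ x1)
    (x1u : x1 ≤ (1369/10000))
    (x2l : 0 ≤ x2)
    (x2u : x2 ≤ (5041/40000))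
    (y1l : (56207/1000000) ≤ y1)
    (y2l : (56207/1000000) ≤ y2)
    (y3l : (8923/200000) ≤ y3)
    (y4l : (57/200000) ≤ y4)
    (y4u : y4 ≤ (63/3125))
    : False := by
  rcases le_total (5491/1000000) (y4) with y4l | y4u
  · exact T5_46 c x1l x1u x2l x2u y1l y2l y3l y4l y4u
  · exact T5_51 c x1l x1u x2l x2u y1l y2l y3l y4l y4u

lemma T5_53 (c : Ctx5 x1 x2 x3 x4 y1 y2 y3 y4 a1 a2 a3 a4 e xs ae)
    (el : (949/250000) ≤ e / 2)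
    (x1l : 0 ≤ x1)
    (x1u : x1 ≤ (1369/10000))
    (y1l : (56207/1000000) ≤ y1)
    (y2l : (8923/200000) ≤ y2)
    (y2u : y2 ≤ (56207/1000000))
    (y3l : (8923/200000) ≤ y3)
    (y4l : (7803/1000000) ≤ y4)
    (y4u : y4 ≤ (63/3125))
    : False := by
  rcases le_total (1279/100000) (y4) with y4l | y4u
  · rcases le_total (7803/1000000) (e / 2) with el | eu
    · rcases le_total x1 (5041/40000) with x1u | x1l
      · rcases le_total (1279/100000) (e / 2) with el | eu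
        · linarith only [c.o2, c.S, top_8 c.Ce el, c.star _ _ (fun _ _ => inf_7) y4u, top_4 c.C1 y1l, xi_0_4_3 c.X1 x1l x1u, c.D2.t2, ch_4_5 c.C2 y2u y2l, top_5 c.C3 y3l, c.D4.t1, y4l, ch_7_8 c.C4 y4u y4l, c.sum]
        · linarith only [c.o2, c.S, el, ch_8_9 c.Ce eu el, top_4 c.C1 y1l, xi_0_4_3 c.X1 x1l x1u, c.D2.t2, ch_4_5 c.C2 y2u y2l, top_5 c.C3 y3l, c.D4.t1, y4l, ch_7_8 c.C4 y4u y4l, c.sum]
      · linarith only [c.o2, c.S, top_9 c.Ce el, c.star _ _ (fun _ _ => inf_7) y4u, x1l, xi_4_5_2 c.X1 x1l x1u, c.D2.t2, ch_4_5 c.C2 y2u y2l, top_5 c.C3 y3l, c.D4.t1, y4l, ch_7_8 c.C4 y4u y4l, c.sum]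
    · rcases le_total x1 (5041/40000) with x1u | x1l
      · rcases le_total (56207/1000000) (y3) with y3l | y3u
        · linarith only [c.p2, el, ch_9_11 c.Ce eu el, top_4 c.C1 y1l, ch_4_5 c.C2 y2u y2l, y3l, top_4 c.C3 y3l, y4l, ch_7_8 c.C4 y4u y4l, c.sum]
        · linarith only [c.S, el, ch_9_11 c.Ce eu el, top_4 c.C1 y1l, xi_0_4_3 c.X1 x1l x1u, c.D2.t2, ch_4_5 c.C2 y2u y2l, c.D3.t2, ch_4_5 c.C3 y3u y3l, c.D4.t1, y4l, ch_7_8 c.C4 y4u y4l, c.sum]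
      · linarith only [c.o2, c.S, el, ch_9_11 c.Ce eu el, x1l, xi_4_5_2 c.X1 x1l x1u, c.D2.t2, ch_4_5 c.C2 y2u y2l, top_5 c.C3 y3l, c.D4.t1, y4l, ch_7_8 c.C4 y4u y4l, c.sum]
  · rcases le_total x1 (5041/40000) with x1u | x1l
    · rcases le_total (56207/1000000) (y3) with y3l | y3u
      · rcases le_total (7803/1000000) (e / 2) with el | eu
        · linarith only [c.p2, top_9 c.Ce el, top_4 c.C1 y1l, ch_4_5 c.C2 y2u y2l, y3l, top_4 c.C3 y3l, y4l, ch_8_9 c.C4 y4u y4l, c.sum]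
        · linarith only [c.o2, c.S, el, ch_9_11 c.Ce eu el, top_4 c.C1 y1l, xi_0_4_3 c.X1 x1l x1u, c.D2.t2, y2u, ch_4_5 c.C2 y2u y2l, top_4 c.C3 y3l, c.D4.t0, ch_8_9 c.C4 y4u y4l, c.sum]
      · rcases le_total (7803/1000000) (e / 2) with el | eu
        · linarith only [c.S, top_9 c.Ce el, c.star _ _ (fun _ _ => inf_8) y4u, top_4 c.C1 y1l, xi_0_4_3 c.X1 x1l x1u, c.D2.t2, ch_4_5 c.C2 y2u y2l, c.D3.t2, ch_4_5 c.C3 y3u y3l, c.D4.t0, y4l, ch_8_9 c.C4 y4u y4l, c.sum]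
        · linarith only [c.o2, c.S, el, ch_9_11 c.Ce eu el, top_4 c.C1 y1l, xi_0_4_3 c.X1 x1l x1u, c.D2.t2, y2u, ch_4_5 c.C2 y2u y2l, c.D3.t2, ch_4_5 c.C3 y3u y3l, c.D4.t0, ch_8_9 c.C4 y4u y4l, c.sum]
    · rcases le_total (56207/1000000) (y3) with y3l | y3u
      · linarith only [c.p2, top_11 c.Ce el, x1l, xi_4_5_2 c.X1 x1l x1u, ch_4_5 c.C2 y2u y2l, y3l, top_4 c.C3 y3l, y4l, ch_8_9 c.C4 y4u y4l, c.sum]
      · linarith only [c.S, top_11 c.Ce el, c.star _ _ (fun _ _ => inf_8) y4u, x1l, xi_4_5_2 c.X1 x1l x1u, c.D2.t2, ch_4_5 c.C2 y2u y2l, c.D3.t2, ch_4_5 c.C3 y3u y3l, c.D4.t0, y4l, ch_8_9 c.C4 y4u y4l, c.sum]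

lemma T5_54 (c : Ctx5 x1 x2 x3 x4 y1 y2 y3 y4 a1 a2 a3 a4 e xs ae)
    (el : (949/250000) ≤ e / 2)
    (x1l : 0 ≤ x1)
    (x1u : x1 ≤ (1369/10000))
    (y2l : (8923/200000) ≤ y2)
    (y2u : y2 ≤ (56207/1000000))
    (y3l : (8923/200000) ≤ y3)
    (y4l : (5491/1000000) ≤ y4)
    (y4u : y4 ≤ (7803/1000000))
    : False := by
  rcases le_total (56207/1000000) (y3) with y3l | y3u
  · rcases le_total x1 (5041/40000) with x1u | x1l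
    · linarith only [c.o2, c.S, top_11 c.Ce el, c.star _ _ (fun _ _ => inf_9) y4u, xi_0_4_3 c.X1 x1l x1u, c.D2.t2, y2u, ch_4_5 c.C2 y2u y2l, top_4 c.C3 y3l, c.D4.t0, y4u, ch_9_10 c.C4 y4u y4l, c.sum]
    · linarith only [c.o2, c.S, top_11 c.Ce el, c.star _ _ (fun _ _ => inf_9) y4u, xi_4_5_2 c.X1 x1l x1u, c.D2.t2, y2u, ch_4_5 c.C2 y2u y2l, top_4 c.C3 y3l, c.D4.t0, y4l, ch_9_10 c.C4 y4u y4l, c.sum]
  · rcases le_total x1 (5041/40000) with x1u | x1l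
    · linarith only [c.p2, c.S, top_11 c.Ce el, c.star _ _ (fun _ _ => inf_9) y4u, xi_0_4_3 c.X1 x1l x1u, c.D2.t2, y2u, ch_4_5 c.C2 y2u y2l, c.D3.t2, ch_4_5 c.C3 y3u y3l, c.D4.t0, y4u, ch_9_10 c.C4 y4u y4l, c.sum]
    · linarith only [c.o2, c.S, top_11 c.Ce el, c.star _ _ (fun _ _ => inf_9) y4u, xi_4_5_2 c.X1 x1l x1u, c.D2.t2, y2u, ch_4_5 c.C2 y2u y2l, c.D3.t2, ch_4_5 c.C3 y3u y3l, c.D4.t0, y4l, ch_9_10 c.C4 y4u y4l, c.sum]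

lemma T5_55 (c : Ctx5 x1 x2 x3 x4 y1 y2 y3 y4 a1 a2 a3 a4 e xs ae)
    (el : (949/250000) ≤ e / 2)
    (x1l : 0 ≤ x1)
    (x1u : x1 ≤ (1369/10000))
    (y1l : (56207/1000000) ≤ y1)
    (y2l : (8923/200000) ≤ y2)
    (y2u : y2 ≤ (56207/1000000))
    (y3l : (8923/200000) ≤ y3)
    (y4l : (5491/1000000) ≤ y4)
    (y4u : y4 ≤ (63/3125))
    : False := by
  rcases le_total (7803/1000000) (y4) with y4l | y4u
  · exact T5_53 c el x1l x1u y1l y2l y2u y3l y4l y4u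
  · exact T5_54 c el x1l x1u y2l y2u y3l y4l y4u

lemma T5_56 (c : Ctx5 x1 x2 x3 x4 y1 y2 y3 y4 a1 a2 a3 a4 e xs ae)
    (el : (949/250000) ≤ e / 2)
    (x1l : 0 ≤ x1)
    (x1u : x1 ≤ (1369/10000))
    (y2l : (8923/200000) ≤ y2)
    (y2u : y2 ≤ (56207/1000000))
    (y3l : (8923/200000) ≤ y3)
    (y4l : (57/200000) ≤ y4)
    (y4u : y4 ≤ (5491/1000000))
    : False := by
  rcases le_total (56207/1000000) (y3) with y3l | y3u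
  · linarith only [c.o2, c.S, c.o4, c.L3, top_11 c.Ce el, c.star _ _ (fun _ _ => inf_10) y4u, xi_0_5_2 c.X1 x1l x1u, c.D2.t2, y2u, ch_4_5 c.C2 y2u y2l, top_4 c.C3 y3l, c.D4.t0, ch_10_14 c.C4 y4u y4l, c.sum]
  · linarith only [c.o2, c.S, c.o4, c.L3, top_11 c.Ce el, c.star _ _ (fun _ _ => inf_10) y4u, xi_0_5_2 c.X1 x1l x1u, c.D2.t2, y2u, ch_4_5 c.C2 y2u y2l, c.D3.t2, ch_4_5 c.C3 y3u y3l, c.D4.t0, ch_10_14 c.C4 y4u y4l, c.sum]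

lemma T5_57 (c : Ctx5 x1 x2 x3 x4 y1 y2 y3 y4 a1 a2 a3 a4 e xs ae)
    (el : (949/250000) ≤ e / 2)
    (x1l : 0 ≤ x1)
    (x1u : x1 ≤ (1369/10000))
    (y1l : (56207/1000000) ≤ y1)
    (y2l : (8923/200000) ≤ y2)
    (y2u : y2 ≤ (56207/1000000))
    (y3l : (8923/200000) ≤ y3)
    (y4l : (57/200000) ≤ y4)
    (y4u : y4 ≤ (63/3125))
    : False := by
  rcases le_total (5491/1000000) (y4) with y4l | y4u
  · exact T5_55 c el x1l x1u y1l y2l y2u y3l y4l y4u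
  · exact T5_56 c el x1l x1u y2l y2u y3l y4l y4u

lemma T5_58 (c : Ctx5 x1 x2 x3 x4 y1 y2 y3 y4 a1 a2 a3 a4 e xs ae)
    (eu : e / 2 ≤ (949/250000))
    (x1l : 0 ≤ x1)
    (x1u : x1 ≤ (1369/10000))
    (y1l : (56207/1000000) ≤ y1)
    (y2l : (8923/200000) ≤ y2)
    (y2u : y2 ≤ (56207/1000000))
    (y3l : (8923/200000) ≤ y3)
    (y4l : (57/200000) ≤ y4)
    (y4u : y4 ≤ (63/3125))
    : False := by
  rcases le_total x1 (5041/40000) with x1u | x1l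
  · rcases le_total (56207/1000000) (y3) with y3l | y3u
    · rcases le_total (34819/500000) (y1) with y1l | y1u
      · linarith only [c.S, c.oe, c.L3, eu, inf_11 c.Ce eu, top_3 c.C1 y1l, xi_0_4_3 c.X1 x1l x1u, c.D2.t2, y2u, ch_4_5 c.C2 y2u y2l, top_4 c.C3 y3l, c.D4.t0, ch_7_14 c.C4 y4u y4l, c.sum]
      · linarith only [c.S, c.oe, c.L3, eu, inf_11 c.Ce eu, c.D1.t3, ch_3_4 c.C1 y1u y1l, xi_0_4_3 c.X1 x1l x1u, c.D2.t2, y2u, ch_4_5 c.C2 y2u y2l, top_4 c.C3 y3l, c.D4.t0, ch_7_14 c.C4 y4u y4l, c.sum]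
    · rcases le_total (34819/500000) (y1) with y1l | y1u
      · linarith only [c.S, c.oe, c.L3, eu, inf_11 c.Ce eu, top_3 c.C1 y1l, xi_0_4_3 c.X1 x1l x1u, c.D2.t2, y2u, ch_4_5 c.C2 y2u y2l, c.D3.t2, ch_4_5 c.C3 y3u y3l, c.D4.t0, ch_7_14 c.C4 y4u y4l, c.sum]
      · linarith only [c.S, c.oe, c.L3, eu, inf_11 c.Ce eu, c.D1.t3, ch_3_4 c.C1 y1u y1l, xi_0_4_3 c.X1 x1l x1u, c.D2.t2, y2u, ch_4_5 c.C2 y2u y2l, c.D3.t2, ch_4_5 c.C3 y3u y3l, c.D4.t0, ch_7_14 c.C4 y4u y4l, c.sum]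
  · rcases le_total (56207/1000000) (y3) with y3l | y3u
    · linarith only [c.S, c.oe, c.L3, eu, inf_11 c.Ce eu, x1l, xi_4_5_2 c.X1 x1l x1u, c.D2.t2, y2u, ch_4_5 c.C2 y2u y2l, top_4 c.C3 y3l, c.D4.t0, ch_7_14 c.C4 y4u y4l, c.sum]
    · linarith only [c.S, c.oe, c.L3, eu, inf_11 c.Ce eu, x1l, xi_4_5_2 c.X1 x1l x1u, c.D2.t2, y2u, ch_4_5 c.C2 y2u y2l, c.D3.t2, ch_4_5 c.C3 y3u y3l, c.D4.t0, ch_7_14 c.C4 y4u y4l, c.sum]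

lemma T5_59 (c : Ctx5 x1 x2 x3 x4 y1 y2 y3 y4 a1 a2 a3 a4 e xs ae)
    (x1l : 0 ≤ x1)
    (x1u : x1 ≤ (1369/10000))
    (y1l : (56207/1000000) ≤ y1)
    (y2l : (8923/200000) ≤ y2)
    (y2u : y2 ≤ (56207/1000000))
    (y3l : (8923/200000) ≤ y3)
    (y4l : (57/200000) ≤ y4)
    (y4u : y4 ≤ (63/3125))
    : False := by
  rcases le_total (949/250000) (e / 2) with el | eu
  · exact T5_57 c el x1l x1u y1l y2l y2u y3l y4l y4u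
  · exact T5_58 c eu x1l x1u y1l y2l y2u y3l y4l y4u

lemma T5_60 (c : Ctx5 x1 x2 x3 x4 y1 y2 y3 y4 a1 a2 a3 a4 e xs ae)
    (x1l : 0 ≤ x1)
    (x1u : x1 ≤ (1369/10000))
    (x2l : 0 ≤ x2)
    (x2u : x2 ≤ (5041/40000))
    (y1l : (56207/1000000) ≤ y1)
    (y2l : (8923/200000) ≤ y2)
    (y3l : (8923/200000) ≤ y3)
    (y4l : (57/200000) ≤ y4)
    (y4u : y4 ≤ (63/3125))
    : False := by
  rcases le_total (56207/1000000) (y2) with y2l | y2u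
  · exact T5_52 c x1l x1u x2l x2u y1l y2l y3l y4l y4u
  · exact T5_59 c x1l x1u y1l y2l y2u y3l y4l y4u

lemma T5_61 (c : Ctx5 x1 x2 x3 x4 y1 y2 y3 y4 a1 a2 a3 a4 e xs ae)
    (x1l : (1369/10000) ≤ x1)
    (x1u : x1 ≤ (4/25))
    (x2l : 0 ≤ x2)
    (x2u : x2 ≤ (5041/40000))
    (y2l : (56207/1000000) ≤ y2)
    (y3l : (8923/200000) ≤ y3)
    (y4l : (57/200000) ≤ y4)
    (y4u : y4 ≤ (63/3125))
    : False := by
  rcases le_total (949/250000) (e / 2) with el | eu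
  · rcases le_total (949/250000) (y4) with y4l | y4u
    · rcases le_total (5491/1000000) (y4) with y4l | y4u
      · linarith only [top_11 c.Ce el, x1l, xi_5_7_1 c.X1 x1l x1u, top_4 c.C2 y2l, top_5 c.C3 y3l, y4l, ch_7_10 c.C4 y4u y4l, c.sum]
      · rcases le_total (34819/500000) (y2) with y2l | y2u
        · linarith only [top_11 c.Ce el, x1l, xi_5_7_1 c.X1 x1l x1u, top_3 c.C2 y2l, top_5 c.C3 y3l, y4l, ch_10_11 c.C4 y4u y4l, c.sum]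
        · linarith only [c.S, c.o4, c.L3, top_11 c.Ce el, c.star _ _ (fun _ _ => inf_10) y4u, x1l, xi_5_7_1 c.X1 x1l x1u, c.D2.t2, y2l, ch_3_4 c.C2 y2u y2l, top_5 c.C3 y3l, c.D4.t0, ch_10_11 c.C4 y4u y4l, c.sum]
    · rcases le_total (34819/500000) (y2) with y2l | y2u
      · linarith only [c.S, c.o4, c.L3, top_11 c.Ce el, c.star _ _ (fun _ _ => inf_11) y4u, x1l, xi_5_7_1 c.X1 x1l x1u, top_3 c.C2 y2l, xi_0_4_3 c.X2 x2l x2u, top_5 c.C3 y3l, c.D4.t0, ch_11_14 c.C4 y4u y4l, c.sum]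
      · linarith only [c.S, c.o4, c.L3, top_11 c.Ce el, c.star _ _ (fun _ _ => inf_11) y4u, x1l, xi_5_7_1 c.X1 x1l x1u, c.D2.t3, ch_3_4 c.C2 y2u y2l, top_5 c.C3 y3l, c.D4.t0, y4u, ch_11_14 c.C4 y4u y4l, c.sum]
  · rcases le_total (949/250000) (y4) with y4l | y4u
    · rcases le_total (34819/500000) (y2) with y2l | y2u
      · linarith only [c.S, c.oe, c.L3, inf_11 c.Ce eu, x1l, xi_5_7_1 c.X1 x1l x1u, top_3 c.C2 y2l, xi_0_4_3 c.X2 x2l x2u, top_5 c.C3 y3l, c.D4.t0, y4l, ch_7_11 c.C4 y4u y4l, c.sum]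
      · linarith only [c.S, c.oe, c.L3, eu, inf_11 c.Ce eu, x1l, xi_5_7_1 c.X1 x1l x1u, c.D2.t2, y2l, ch_3_4 c.C2 y2u y2l, top_5 c.C3 y3l, c.D4.t0, ch_7_11 c.C4 y4u y4l, c.sum]
    · rcases le_total (34819/500000) (y2) with y2l | y2u
      · linarith only [c.S, c.o4, c.oe, c.L3, inf_11 c.Ce eu, x1l, xi_5_7_1 c.X1 x1l x1u, top_3 c.C2 y2l, xi_0_4_3 c.X2 x2l x2u, top_5 c.C3 y3l, c.D4.t0, ch_11_14 c.C4 y4u y4l, c.sum]
      · linarith only [c.S, c.o4, c.oe, c.L3, inf_11 c.Ce eu, x1l, xi_5_7_1 c.X1 x1l x1u, c.D2.t3, ch_3_4 c.C2 y2u y2l, top_5 c.C3 y3l, c.D4.t0, y4u, ch_11_14 c.C4 y4u y4l, c.sum]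

lemma T5_62 (c : Ctx5 x1 x2 x3 x4 y1 y2 y3 y4 a1 a2 a3 a4 e xs ae)
    (x1l : (1369/10000) ≤ x1)
    (x1u : x1 ≤ (4/25))
    (y2l : (8923/200000) ≤ y2)
    (y2u : y2 ≤ (56207/1000000))
    (y3l : (8923/200000) ≤ y3)
    (y4l : (57/200000) ≤ y4)
    (y4u : y4 ≤ (63/3125))
    : False := by
  rcases le_total (949/250000) (e / 2) with el | eu
  · rcases le_total (949/250000) (y4) with y4l | y4u
    · rcases le_total (5491/1000000) (y4) with y4l | y4u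
      · rcases le_total (7803/1000000) (y4) with y4l | y4u
        · linarith only [c.o2, c.S, top_11 c.Ce el, c.star _ _ (fun _ _ => inf_7) y4u, x1l, xi_5_7_1 c.X1 x1l x1u, c.D2.t2, ch_4_5 c.C2 y2u y2l, top_5 c.C3 y3l, c.D4.t0, y4l, ch_7_9 c.C4 y4u y4l, c.sum]
        · linarith only [c.o2, c.S, top_11 c.Ce el, c.star _ _ (fun _ _ => inf_9) y4u, x1l, xi_5_7_1 c.X1 x1l x1u, c.D2.t2, ch_4_5 c.C2 y2u y2l, top_5 c.C3 y3l, c.D4.t0, y4l, ch_9_10 c.C4 y4u y4l, c.sum]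
      · rcases le_total (56207/1000000) (y3) with y3l | y3u
        · linarith only [c.p2, c.S, c.o4, c.L3, top_11 c.Ce el, c.star _ _ (fun _ _ => inf_10) y4u, x1l, xi_5_7_1 c.X1 x1l x1u, c.D2.t2, ch_4_5 c.C2 y2u y2l, y3l, top_4 c.C3 y3l, c.D4.t0, ch_10_11 c.C4 y4u y4l, c.sum]
        · linarith only [c.S, c.o4, c.L3, top_11 c.Ce el, c.star _ _ (fun _ _ => inf_10) y4u, x1l, xi_5_7_1 c.X1 x1l x1u, c.D2.t2, y2u, ch_4_5 c.C2 y2u y2l, c.D3.t2, ch_4_5 c.C3 y3u y3l, c.D4.t0, ch_10_11 c.C4 y4u y4l, c.sum]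
    · linarith only [c.S, c.o4, c.L3, c.star _ _ (fun _ _ => inf_11) y4u, xi_5_7_0 c.X1 x1l x1u, xi_5_7_1 c.X1 x1l x1u, c.D2.t2, y2u, ch_4_5 c.C2 y2u y2l, top_5 c.C3 y3l, c.D4.t0, y4u, ch_11_14 c.C4 y4u y4l, c.sum]
  · rcases le_total (5491/1000000) (y4) with y4l | y4u
    · linarith only [c.o2, c.S, c.oe, c.L3, eu, inf_11 c.Ce eu, x1l, xi_5_7_1 c.X1 x1l x1u, c.D2.t2, ch_4_5 c.C2 y2u y2l, top_5 c.C3 y3l, c.D4.t0, ch_7_10 c.C4 y4u y4l, c.sum]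
    · linarith only [c.S, c.oe, c.L3, eu, inf_11 c.Ce eu, xi_5_7_1 c.X1 x1l x1u, c.D2.t2, y2u, ch_4_5 c.C2 y2u y2l, top_5 c.C3 y3l, c.D4.t0, y4u, ch_10_14 c.C4 y4u y4l, c.sum]

lemma T5_63 (c : Ctx5 x1 x2 x3 x4 y1 y2 y3 y4 a1 a2 a3 a4 e xs ae)
    (x1l : (1369/10000) ≤ x1)
    (x1u : x1 ≤ (4/25))
    (x2l : 0 ≤ x2)
    (x2u : x2 ≤ (5041/40000))
    (y2l : (8923/200000) ≤ y2)
    (y3l : (8923/200000) ≤ y3)
    (y4l : (57/200000) ≤ y4)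
    (y4u : y4 ≤ (63/3125))
    : False := by
  rcases le_total (56207/1000000) (y2) with y2l | y2u
  · exact T5_61 c x1l x1u x2l x2u y2l y3l y4l y4u
  · exact T5_62 c x1l x1u y2l y2u y3l y4l y4u

lemma T5_64 (c : Ctx5 x1 x2 x3 x4 y1 y2 y3 y4 a1 a2 a3 a4 e xs ae)
    (x1l : 0 ≤ x1)
    (x1u : x1 ≤ (4/25))
    (x2l : 0 ≤ x2)
    (x2u : x2 ≤ (5041/40000))
    (y1l : (56207/1000000) ≤ y1)
    (y2l : (8923/200000) ≤ y2)
    (y3l : (8923/200000) ≤ y3)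
    (y4l : (57/200000) ≤ y4)
    (y4u : y4 ≤ (63/3125))
    : False := by
  rcases le_total x1 (1369/10000) with x1u | x1l
  · exact T5_60 c x1l x1u x2l x2u y1l y2l y3l y4l y4u
  · exact T5_63 c x1l x1u x2l x2u y2l y3l y4l y4u

lemma T5_65 (c : Ctx5 x1 x2 x3 x4 y1 y2 y3 y4 a1 a2 a3 a4 e xs ae)
    (x1l : 0 ≤ x1)
    (x1u : x1 ≤ (4/25))
    (x2l : (5041/40000) ≤ x2)
    (x2u : x2 ≤ (4/25))
    (y3l : (8923/200000) ≤ y3)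
    (y4l : (57/200000) ≤ y4)
    (y4u : y4 ≤ (63/3125))
    : False := by
  rcases le_total x1 (1369/10000) with x1u | x1l
  · rcases le_total (949/250000) (y4) with y4l | y4u
    · rcases le_total (949/250000) (e / 2) with el | eu
      · rcases le_total x1 (5041/40000) with x1u | x1l
        · linarith only [c.o1, top_11 c.Ce el, xi_0_4_2 c.X1 x1l x1u, x2l, xi_4_7_2 c.X2 x2l x2u, top_5 c.C3 y3l, y4l, ch_7_11 c.C4 y4u y4l, c.sum]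
        · linarith only [top_11 c.Ce el, x1l, xi_4_5_2 c.X1 x1l x1u, x2l, xi_4_7_2 c.X2 x2l x2u, top_5 c.C3 y3l, y4l, ch_7_11 c.C4 y4u y4l, c.sum]
      · rcases le_total x1 (5041/40000) with x1u | x1l
        · linarith only [c.o1, c.S, c.oe, c.L3, inf_11 c.Ce eu, xi_0_4_2 c.X1 x1l x1u, x2l, xi_4_7_2 c.X2 x2l x2u, top_5 c.C3 y3l, c.D4.t0, y4l, ch_7_11 c.C4 y4u y4l, c.sum]
        · linarith only [c.o1, c.S, c.oe, c.L3, inf_11 c.Ce eu, xi_4_5_2 c.X1 x1l x1u, x2l, xi_4_7_2 c.X2 x2l x2u, top_5 c.C3 y3l, c.D4.t0, y4l, ch_7_11 c.C4 y4u y4l, c.sum]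
    · rcases le_total x1 (5041/40000) with x1u | x1l
      · linarith only [c.o1, c.S, c.o4, c.oe, c.L3, c.star _ _ (fun _ _ => inf_11) y4u, xi_0_4_2 c.X1 x1l x1u, x2l, xi_4_7_2 c.X2 x2l x2u, top_5 c.C3 y3l, c.D4.t0, ch_11_14 c.C4 y4u y4l, c.sum]
      · linarith only [c.o1, c.S, c.o4, c.oe, c.L3, c.star _ _ (fun _ _ => inf_11) y4u, xi_4_5_2 c.X1 x1l x1u, x2l, xi_4_7_2 c.X2 x2l x2u, top_5 c.C3 y3l, c.D4.t0, ch_11_14 c.C4 y4u y4l, c.sum]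
  · rcases le_total (949/250000) (e / 2) with el | eu
    · linarith only [c.S, c.o4, c.L3, top_11 c.Ce el, c.star _ _ (fun _ _ => inf_7) y4u, x1l, xi_5_7_1 c.X1 x1l x1u, x2l, xi_4_7_2 c.X2 x2l x2u, top_5 c.C3 y3l, c.D4.t0, ch_7_14 c.C4 y4u y4l, c.sum]
    · linarith only [c.S, c.o4, c.oe, c.L3, inf_11 c.Ce eu, x1l, xi_5_7_1 c.X1 x1l x1u, x2l, xi_4_7_2 c.X2 x2l x2u, top_5 c.C3 y3l, c.D4.t0, ch_7_14 c.C4 y4u y4l, c.sum]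

lemma T5_66 (c : Ctx5 x1 x2 x3 x4 y1 y2 y3 y4 a1 a2 a3 a4 e xs ae)
    (x1l : 0 ≤ x1)
    (x1u : x1 ≤ (4/25))
    (x2l : 0 ≤ x2)
    (x2u : x2 ≤ (4/25))
    (y1l : (56207/1000000) ≤ y1)
    (y2l : (8923/200000) ≤ y2)
    (y3l : (8923/200000) ≤ y3)
    (y4l : (57/200000) ≤ y4)
    (y4u : y4 ≤ (63/3125))
    : False := by
  rcases le_total x2 (5041/40000) with x2u | x2l
  · exact T5_64 c x1l x1u x2l x2u y1l y2l y3l y4l y4u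
  · exact T5_65 c x1l x1u x2l x2u y3l y4l y4u

lemma T5_67 (c : Ctx5 x1 x2 x3 x4 y1 y2 y3 y4 a1 a2 a3 a4 e xs ae)
    (y1u : y1 ≤ (56207/1000000))
    (y2l : (8923/200000) ≤ y2)
    (y3l : (8923/200000) ≤ y3)
    (y4l : (57/200000) ≤ y4)
    (y4u : y4 ≤ (63/3125))
    : False := by
  rcases le_total (949/250000) (e / 2) with el | eu
  · rcases le_total (7803/1000000) (e / 2) with el | eu
    · rcases le_total (1279/100000) (y4) with y4l | y4u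
      · rcases le_total (56207/1000000) (y3) with y3l | y3u
        · linarith only [c.p1, c.p2, top_9 c.Ce el, inf_4 c.C1 y1u, top_5 c.C2 y2l, y3l, top_4 c.C3 y3l, y4l, ch_7_8 c.C4 y4u y4l, c.sum]
        · linarith only [c.p1, c.S, top_9 c.Ce el, c.star _ _ (fun _ _ => inf_7) y4u, c.D1.t2, y1u, inf_4 c.C1 y1u, c.D2.t2, top_5 c.C2 y2l, c.D3.t2, ch_4_5 c.C3 y3u y3l, c.D4.t1, y4l, ch_7_8 c.C4 y4u y4l, c.sum]
      · rcases le_total (56207/1000000) (y3) with y3l | y3u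
        · linarith only [c.p1, c.o2, c.S, c.star _ _ (fun _ _ => inf_8) y4u, c.D1.t2, y1u, inf_4 c.C1 y1u, c.D2.t2, top_5 c.C2 y2l, top_4 c.C3 y3l, c.D4.t1, y4u, ch_8_14 c.C4 y4u y4l, c.sum]
        · linarith only [c.p1, c.o2, c.S, c.star _ _ (fun _ _ => inf_8) y4u, c.D1.t2, y1u, inf_4 c.C1 y1u, c.D2.t2, top_5 c.C2 y2l, c.D3.t2, ch_4_5 c.C3 y3u y3l, c.D4.t1, y4u, ch_8_14 c.C4 y4u y4l, c.sum]
    · rcases le_total (56207/1000000) (y3) with y3l | y3u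
      · linarith only [c.p1, c.o2, c.S, eu, ch_9_11 c.Ce eu el, c.D1.t2, y1u, inf_4 c.C1 y1u, c.D2.t2, top_5 c.C2 y2l, top_4 c.C3 y3l, c.D4.t1, ch_7_14 c.C4 y4u y4l, c.sum]
      · linarith only [c.p1, c.p2, c.S, eu, ch_9_11 c.Ce eu el, c.D1.t2, y1u, inf_4 c.C1 y1u, c.D2.t2, top_5 c.C2 y2l, c.D3.t2, ch_4_5 c.C3 y3u y3l, c.D4.t1, ch_7_14 c.C4 y4u y4l, c.sum]
  · rcases le_total (56207/1000000) (y3) with y3l | y3u
    · linarith only [c.p1, c.o2, c.S, c.oe, c.L4, inf_11 c.Ce eu, c.D1.t2, y1u, inf_4 c.C1 y1u, c.D2.t2, top_5 c.C2 y2l, top_4 c.C3 y3l, c.D4.t1, ch_7_14 c.C4 y4u y4l, c.sum]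
    · linarith only [c.p1, c.p2, c.S, c.oe, c.L4, inf_11 c.Ce eu, c.D1.t2, y1u, inf_4 c.C1 y1u, c.D2.t2, top_5 c.C2 y2l, c.D3.t2, ch_4_5 c.C3 y3u y3l, c.D4.t1, ch_7_14 c.C4 y4u y4l, c.sum]

lemma T5_68 (c : Ctx5 x1 x2 x3 x4 y1 y2 y3 y4 a1 a2 a3 a4 e xs ae)
    (x1l : 0 ≤ x1)
    (x1u : x1 ≤ (4/25))
    (x2l : 0 ≤ x2)
    (x2u : x2 ≤ (4/25))
    (y2l : (8923/200000) ≤ y2)
    (y3l : (8923/200000) ≤ y3)
    (y4l : (57/200000) ≤ y4)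
    (y4u : y4 ≤ (63/3125))
    : False := by
  rcases le_total (56207/1000000) (y1) with y1l | y1u
  · exact T5_66 c x1l x1u x2l x2u y1l y2l y3l y4l y4u
  · exact T5_67 c y1u y2l y3l y4l y4u

lemma T5_69 (c : Ctx5 x1 x2 x3 x4 y1 y2 y3 y4 a1 a2 a3 a4 e xs ae)
    (el : (7803/1000000) ≤ e / 2)
    (x1l : 0 ≤ x1)
    (x1u : x1 ≤ (1369/10000))
    (x2l : 0 ≤ x2)
    (x2u : x2 ≤ (5041/40000))
    (y1l : (56207/1000000) ≤ y1)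
    (y2l : (56207/1000000) ≤ y2)
    (y3u : y3 ≤ (8923/200000))
    (y4l : (57/200000) ≤ y4)
    (y4u : y4 ≤ (63/3125))
    : False := by
  rcases le_total (5491/1000000) (y4) with y4l | y4u
  · rcases le_total (30571/1000000) (y3) with y3l | y3u
    · rcases le_total (7803/1000000) (y4) with y4l | y4u
      · rcases le_total (1279/100000) (y4) with y4l | y4u
        · rcases le_total x1 (5041/40000) with x1u | x1l
          · rcases le_total (1279/100000) (e / 2) with el | eu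
            · linarith only [c.S, top_8 c.Ce el, c.star _ _ (fun _ _ => inf_7) y4u, top_4 c.C1 y1l, xi_0_4_3 c.X1 x1l x1u, top_4 c.C2 y2l, xi_0_4_3 c.X2 x2l x2u, c.D3.t1, ch_5_6 c.C3 y3u y3l, c.D4.t1, y4l, ch_7_8 c.C4 y4u y4l, c.sum]
            · linarith only [c.S, el, ch_8_9 c.Ce eu el, top_4 c.C1 y1l, xi_0_4_3 c.X1 x1l x1u, top_4 c.C2 y2l, xi_0_4_3 c.X2 x2l x2u, c.D3.t2, ch_5_6 c.C3 y3u y3l, c.D4.t1, y4l, ch_7_8 c.C4 y4u y4l, c.sum]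
          · linarith only [c.S, top_9 c.Ce el, c.star _ _ (fun _ _ => inf_7) y4u, x1l, xi_4_5_2 c.X1 x1l x1u, top_4 c.C2 y2l, xi_0_4_3 c.X2 x2l x2u, c.D3.t1, ch_5_6 c.C3 y3u y3l, c.D4.t1, y4l, ch_7_8 c.C4 y4u y4l, c.sum]
        · rcases le_total x1 (5041/40000) with x1u | x1l
          · rcases le_total (34819/500000) (y2) with y2l | y2u
            · linarith only [c.o1, c.S, top_9 c.Ce el, c.star _ _ (fun _ _ => inf_8) y4u, xi_0_4_3 c.X1 x1l x1u, top_3 c.C2 y2l, c.D3.t2, y3u, ch_5_6 c.C3 y3u y3l, c.D4.t0, y4l, ch_8_9 c.C4 y4u y4l, c.sum]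
            · linarith only [c.o1, c.S, top_9 c.Ce el, c.star _ _ (fun _ _ => inf_8) y4u, top_4 c.C1 y1l, xi_0_4_3 c.X1 x1l x1u, c.D2.t3, ch_3_4 c.C2 y2u y2l, c.D3.t2, y3u, ch_5_6 c.C3 y3u y3l, c.D4.t0, ch_8_9 c.C4 y4u y4l, c.sum]
          · linarith only [c.S, top_9 c.Ce el, c.star _ _ (fun _ _ => inf_8) y4u, x1l, xi_4_5_2 c.X1 x1l x1u, top_4 c.C2 y2l, xi_0_4_3 c.X2 x2l x2u, c.D3.t2, ch_5_6 c.C3 y3u y3l, c.D4.t0, y4l, ch_8_9 c.C4 y4u y4l, c.sum]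
      · rcases le_total x1 (5041/40000) with x1u | x1l
        · linarith only [c.S, top_9 c.Ce el, c.star _ _ (fun _ _ => inf_9) y4u, xi_0_4_3 c.X1 x1l x1u, xi_0_4_3 c.X2 x2l x2u, c.D3.t2, y3u, ch_5_6 c.C3 y3u y3l, c.D4.t0, y4u, ch_9_10 c.C4 y4u y4l, c.sum]
        · linarith only [c.S, top_9 c.Ce el, c.star _ _ (fun _ _ => inf_9) y4u, xi_4_5_2 c.X1 x1l x1u, top_4 c.C2 y2l, xi_0_4_3 c.X2 x2l x2u, c.D3.t2, y3u, ch_5_6 c.C3 y3u y3l, c.D4.t0, y4l, ch_9_10 c.C4 y4u y4l, c.sum]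
    · rcases le_total x1 (5041/40000) with x1u | x1l
      · rcases le_total (1279/100000) (e / 2) with el | eu
        · linarith only [c.S, top_8 c.Ce el, c.star _ _ (fun _ _ => inf_7) y4u, top_4 c.C1 y1l, xi_0_4_3 c.X1 x1l x1u, top_4 c.C2 y2l, xi_0_4_3 c.X2 x2l x2u, c.D3.t1, inf_6 c.C3 y3u, c.D4.t1, y4u, ch_7_10 c.C4 y4u y4l, c.sum]
        · linarith only [c.S, eu, ch_8_9 c.Ce eu el, top_4 c.C1 y1l, xi_0_4_3 c.X1 x1l x1u, top_4 c.C2 y2l, xi_0_4_3 c.X2 x2l x2u, c.D3.t1, inf_6 c.C3 y3u, c.D4.t1, y4u, ch_7_10 c.C4 y4u y4l, c.sum]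
      · linarith only [c.S, top_9 c.Ce el, c.star _ _ (fun _ _ => inf_7) y4u, xi_4_5_1 c.X1 x1l x1u, xi_4_5_2 c.X1 x1l x1u, top_4 c.C2 y2l, xi_0_4_3 c.X2 x2l x2u, c.D3.t1, inf_6 c.C3 y3u, c.D4.t1, y4u, ch_7_10 c.C4 y4u y4l, c.sum]
  · linarith only [c.S, c.o4, c.L3, el, c.star _ _ (fun _ _ => inf_10) y4u, xi_0_5_2 c.X1 x1l x1u, xi_0_5_3 c.X1 x1l x1u, xi_0_4_3 c.X2 x2l x2u, c.D3.t2, y3u, inf_5 c.C3 y3u, c.D4.t0, ch_10_14 c.C4 y4u y4l, c.sum]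

end Crest.Agent.R215
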